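import Vale.Agent.P354BO.Ops
import Vale.Agent.P299.H863.Rell

/-!
Compactness in the angular model.
-/

open scoped ContDiff InnerProductSpace ComplexConjugate Topology ENNReal
open Complex (I)
open MeasureTheory Set Filter

namespace Vale.Agent.P354BO

variable {s : ℤ}

theorem span (ξ h : V) : N ξ • h =
    (ip ξ h).re • ξ + ∑ i, (4 * (ip (A i ξ) h).re) • A i ξ := by
  simp only [Fin.sum_univ_three, A0, A1, A2, ip, N, Complex.sq_norm, Complex.normSq_apply]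
  ext <;> apply Complex.ext <;> simp [map_ofNat] <;> ring

theorem ip_le (ξ h : V) : |(ip ξ h).re| ≤ 2 * ‖ξ‖ * ‖h‖ := by
  refine (Complex.abs_re_le_norm _).trans ((norm_add_le _ _).trans ?_)
  simp only [norm_mul, Complex.norm_conj]
  have a := mul_le_mul (norm_fst_le ξ) (norm_fst_le h) (norm_nonneg _) (norm_nonneg _)
  have b := mul_le_mul (norm_snd_le ξ) (norm_snd_le h) (norm_nonneg _) (norm_nonneg _)
  linarith

theorem A_le (i : Fin 3) (ξ : V) : ‖A i ξ‖ ≤ ‖ξ‖ := by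
  have a := norm_fst_le ξ
  have b := norm_snd_le ξ
  have c := norm_nonneg ξ
  induction i using fin3 <;> simp only [A0, A1, A2, Prod.norm_mk, norm_mul, norm_div, norm_neg,
    Complex.norm_I, Complex.norm_ofNat, norm_one, max_le_iff] <;> constructor <;> linarith

theorem K_le {ξ : V} (h : ξ ∈ K) : ‖ξ‖ ≤ 2 := by nlinarith [norm_sq_le ξ, h.2, norm_nonneg ξ]

/-- On the shell a section is seen by the weight after a dilation. -/
theorem dom (u : S s) {ξ : V} (h : ξ ∈ K) : ‖u ξ‖ ^ 2 ≤ ‖gl u ((5 / 4 : ℝ) • ξ)‖ ^ 2 +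
    ‖gl u ((1 : ℝ) • ξ)‖ ^ 2 + ‖gl u ((9 / 10 : ℝ) • ξ)‖ ^ 2 := by
  have k : ∀ c : ℝ, 0 < c → 3 / 4 ≤ c ^ 2 * N ξ → c ^ 2 * N ξ ≤ 5 / 4 → gl u (c • ξ) = u ξ :=
    fun c hc a b => by
      rw [gl, ← Complex.coe_smul, u.is.hom c hc, χ, bu.one_of_mem_closedBall, Complex.ofReal_one,
        one_mul]
      rw [N_smul, Complex.norm_real, Real.norm_eq_abs, sq_abs, Real.closedBall_eq_Icc]
      exact ⟨by simp only [bu]; linarith, by simp only [bu]; linarith⟩
  have := h.1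
  have := h.2
  rcases le_total (N ξ) (3 / 4) with a | a
  · rw [k _ (by norm_num) (by linarith) (by linarith), add_assoc]
    exact le_add_of_nonneg_right (by positivity)
  rcases le_total (N ξ) (5 / 4) with b | b
  · rw [k 1 (by norm_num) (by linarith) (by linarith)]
    nlinarith [sq_nonneg ‖gl u ((5 / 4 : ℝ) • ξ)‖, sq_nonneg ‖gl u ((9 / 10 : ℝ) • ξ)‖]
  · rw [k (9 / 10) (by norm_num) (by linarith) (by linarith)]
    exact le_add_of_nonneg_left (by positivity)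

theorem der_out {E : Type} [NormedAddCommGroup E] [NormedSpace ℝ E] {G : V → E}
    (h0 : ∀ ξ ∉ K, G ξ = 0) {ξ : V} (h : ξ ∉ K) : fderiv ℝ G ξ = 0 := by
  rw [Filter.EventuallyEq.fderiv_eq (f := fun _ => 0) (Filter.eventually_of_mem
    (K_cpt.isClosed.isOpen_compl.mem_nhds h) h0)]
  simp

theorem der_le : ∃ M : ℝ, 1 ≤ M ∧ ∀ (s : ℤ) (u : S s), ∀ ξ ∈ K,
    ‖fderiv ℝ (gl u) ξ‖ ≤ M * (‖u ξ‖ + ∑ i, ‖gl (L i u) ξ‖) := by
  obtain ⟨M, hM⟩ := K_cpt.exists_bound_of_continuousOn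
    ((χ_sm.continuous_fderiv (by simp)).clm_apply continuous_id).continuousOn
  refine ⟨8 * |M| + 32, by linarith [abs_nonneg M], fun s u ξ hξ =>
    ContinuousLinearMap.opNorm_le_of_unit_norm (by positivity) fun h hh => ?_⟩
  have e := congrArg (fderiv ℝ (gl u) ξ) (span ξ h)
  have r : fderiv ℝ (gl u) ξ ξ = fderiv ℝ χ ξ ξ • u ξ := by
    refine (congrArg (· ξ) (fderiv_smul (χ_sm.differentiable (by simp) ξ)
      (u.dif (K_ne hξ)))).trans ?_
    simp [der_rad u (K_ne hξ)]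
  simp only [map_add, map_sum, map_smul, gl_L, r] at e
  have a : ∀ η : V, ‖η‖ ≤ ‖ξ‖ → |(ip η h).re| ≤ 4 := fun η b => by
    have := ip_le η h
    rw [hh] at this
    linarith [K_le hξ]
  have b : N ξ * ‖fderiv ℝ (gl u) ξ h‖ ≤ 4 * (|M| * ‖u ξ‖) + ∑ i, 16 * ‖gl (L i u) ξ‖ := by
    rw [← abs_of_nonneg (N_nonneg ξ), ← Real.norm_eq_abs, ← norm_smul, e]
    refine (norm_add_le _ _).trans (add_le_add ?_ ((norm_sum_le _ _).trans
      (Finset.sum_le_sum fun i _ => ?_)))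
    · rw [norm_smul, norm_smul]
      exact mul_le_mul (a ξ le_rfl) (mul_le_mul_of_nonneg_right ((hM ξ hξ).trans (le_abs_self M))
        (norm_nonneg _)) (by positivity) (by norm_num)
    · rw [norm_smul, norm_mul]
      refine mul_le_mul_of_nonneg_right ?_ (norm_nonneg _)
      have := a _ (A_le i ξ)
      simp only [Real.norm_eq_abs, Nat.abs_ofNat]
      linarith
  rw [← Finset.mul_sum] at b
  have c : 0 ≤ ∑ i, ‖gl (L i u) ξ‖ := Finset.sum_nonneg fun _ _ => norm_nonneg _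
  nlinarith [hξ.1, norm_nonneg (fderiv ℝ (gl u) ξ h), mul_nonneg (abs_nonneg M) c, norm_nonneg (u ξ)]

theorem int_sq (u : S s) : Integrable fun ξ => ‖gl u ξ‖ ^ 2 :=
  int_K ((gl_sm u).continuous.norm.pow 2) fun ξ a => by simp [gl_out u a]

theorem int_der_le : ∃ C : ℝ, 1 ≤ C ∧ ∀ (s : ℤ) (u : S s),
    ∫ ξ, ‖fderiv ℝ (gl u) ξ‖ ^ 2 ≤ C * (‖u‖ ^ 2 + ∑ i, ‖L i u‖ ^ 2) := by
  obtain ⟨M, h1, hM⟩ := der_le
  refine ⟨16 * M ^ 2, by nlinarith, fun s u => ?_⟩
  have a : ∀ c : ℝ, c ≠ 0 → Integrable fun ξ => ‖gl u (c • ξ)‖ ^ 2 := fun c hc =>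
    (int_sq u).comp_smul hc
  have b : ∀ c : ℝ, ∫ ξ, ‖gl u (c • ξ)‖ ^ 2 = |(c ^ 4)⁻¹| * ‖u‖ ^ 2 := fun c => by
    rw [Measure.integral_comp_smul volume (fun ξ => ‖gl u ξ‖ ^ 2) c, norm_sq]
    simp
  have a1 := (a (5 / 4) (by norm_num)).add (a 1 one_ne_zero)
  have a2 := a1.add (a (9 / 10) (by norm_num))
  have a3 := integrable_finsetSum Finset.univ fun i _ => int_sq (L i u)
  refine (integral_mono_of_nonneg (Eventually.of_forall fun _ => sq_nonneg _)
    ((a2.add a3).const_mul (4 * M ^ 2)) (Eventually.of_forall fun ξ => ?_)).trans ?_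
  · by_cases c : ξ ∈ K
    · refine (pow_le_pow_left₀ (norm_nonneg _) (hM s u ξ c) 2).trans ?_
      have d := dom u c
      simp only [Pi.add_apply, Fin.sum_univ_three]
      rw [mul_pow, mul_comm 4, mul_assoc]
      refine mul_le_mul_of_nonneg_left ?_ (sq_nonneg _)
      generalize ‖u ξ‖ = x, ‖gl (L 0 u) ξ‖ = y, ‖gl (L 1 u) ξ‖ = z, ‖gl (L 2 u) ξ‖ = t at d ⊢
      nlinarith [sq_nonneg (x - y), sq_nonneg (x - z), sq_nonneg (x - t), sq_nonneg (y - z),
        sq_nonneg (y - t), sq_nonneg (z - t)]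
    · simp only [der_out (fun _ => gl_out u) c, norm_zero, Pi.add_apply, zero_pow two_ne_zero]
      positivity
  · rw [integral_const_mul, integral_add' a2 a3, integral_add' a1 (a _ (by norm_num)),
      integral_add' (a _ (by norm_num)) (a 1 one_ne_zero), b, b, b,
      integral_finsetSum _ fun i _ => int_sq (L i u)]
    simp only [← norm_sq]
    have c : 0 ≤ ∑ i, ‖L i u‖ ^ 2 := Finset.sum_nonneg fun _ _ => sq_nonneg _
    norm_num [abs_of_pos]
    nlinarith [mul_nonneg (sq_nonneg M) c, mul_nonneg (sq_nonneg M) (sq_nonneg ‖u‖)]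

theorem mem_K {E : Type} [NormedAddCommGroup E] {g : V → E} (hc : Continuous g)
    (h0 : ∀ ξ ∉ K, g ξ = 0) : MemLp g 2 volume :=
  hc.memLp_of_hasCompactSupport (HasCompactSupport.intro K_cpt h0)

theorem e2 {E : Type} [NormedAddCommGroup E] {g : V → E} (h : MemLp g 2 volume) :
    eLpNorm g 2 volume = ENNReal.ofReal √(∫ ξ, ‖g ξ‖ ^ 2) := by
  rw [h.eLpNorm_eq_integral_rpow_norm two_ne_zero ENNReal.ofNat_ne_top, Real.sqrt_eq_rpow]
  simp

theorem mem_gl (u : S s) : MemLp (gl u) 2 volume := mem_K (gl_sm u).continuous fun _ => gl_out u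

theorem e_gl (u : S s) : eLpNorm (gl u) 2 volume = ENNReal.ofReal ‖u‖ := by
  rw [e2 (mem_gl u), ← norm_sq, Real.sqrt_sq (norm_nonneg u)]

/-- The embedding in the space of square integrable functions. -/
noncomputable def emb (s : ℤ) : S s →ₗᵢ[ℂ] Lp ℂ 2 (volume : Measure V) where
  toFun u := (mem_gl u).toLp _
  map_add' u v := (MemLp.toLp_congr _ ((mem_gl u).add (mem_gl v)) (Eventually.of_forall fun _ =>
    mul_add _ _ _)).trans (MemLp.toLp_add _ _)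
  map_smul' z u := (MemLp.toLp_congr _ ((mem_gl u).const_smul z) (Eventually.of_forall fun _ =>
    mul_left_comm _ _ _)).trans (MemLp.toLp_const_smul _ _)
  norm_map' u := (Lp.norm_toLp _ (mem_gl u)).trans (by rw [e_gl, ENNReal.toReal_ofReal (norm_nonneg u)])

/-- The compactness property of the model. -/
theorem ang_cap (s : ℤ) : (ang s).Cap := by
  intro η hη
  obtain ⟨C, h1, hC⟩ := int_der_le
  obtain ⟨ε, h0, e1, e2'⟩ : ∃ ε : ℝ, 0 < ε ∧ ε * C ≤ 1 / 4 ∧ ε * C ≤ η / 4 :=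
    ⟨min 1 η / 4 / C, by positivity, by
      rw [div_mul_cancel₀ _ (by positivity)]; linarith [min_le_left 1 η], by
      rw [div_mul_cancel₀ _ (by positivity)]; linarith [min_le_right 1 η]⟩
  obtain ⟨t, ht, hw, hn⟩ := P299.H863.rellich_net (μ := volume) (V := ℂ) K_cpt ENNReal.one_ne_top
    (ENNReal.ofReal_pos.2 h0)
  obtain ⟨n, f, -, hf⟩ := ht.fin_param
  have m : ∀ j, MemLp (f j) 2 volume := fun j =>
    let a := hw (f j) (hf ▸ mem_range_self j)
    a.smooth.continuous.memLp_of_hasCompactSupport (a.hasCompactSupport K_cpt)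
  let l : Fin n → S s →L[ℂ] ℂ := fun j =>
    (ε⁻¹ : ℂ) • (innerSL ℂ ((m j).toLp _)).comp (emb s).toContinuousLinearMap
  have k : ∀ u : S s, C * (‖u‖ ^ 2 + ∑ i, ‖L i u‖ ^ 2) ≤ 1 →
      ‖u‖ ^ 2 ≤ 2 * ε + (∑ j, ‖l j u‖ ^ 2) / 2 := fun u hu => by
    have c : 0 ≤ ∑ i, ‖L i u‖ ^ 2 := Finset.sum_nonneg fun _ _ => sq_nonneg _
    have a : ‖u‖ ≤ 1 := by
      rw [← sq_le_one_iff₀ (norm_nonneg u)]
      nlinarith [sq_nonneg ‖u‖]
    obtain ⟨_, b, d⟩ := hn (gl u) ⟨gl_sm u, closure_minimal (fun ξ b => by_contra fun c =>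
      b (gl_out u c)) K_cpt.isClosed, by rw [e_gl]; exact ENNReal.ofReal_le_one.2 a, by
        rw [e2 (mem_K ((gl_sm u).continuous_fderiv (by simp)) fun _ => der_out fun _ => gl_out u)]
        exact ENNReal.ofReal_le_one.2 (Real.sqrt_le_one.2 ((hC s u).trans hu))⟩
    obtain ⟨j, rfl⟩ := hf ▸ b
    have d' : ‖emb s u - (m j).toLp _‖ ≤ ε := by
      refine (congrArg norm (MemLp.toLp_sub (mem_gl u) (m j))).symm.trans_le ?_
      rw [Lp.norm_toLp]
      exact ENNReal.toReal_le_of_le_ofReal h0.le d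
    have e : ⟪emb s u, emb s u⟫_ℂ = ⟪emb s u - (m j).toLp _, emb s u⟫_ℂ + ε * l j u := by
      have : (ε : ℂ) ≠ 0 := by exact_mod_cast h0.ne'
      simp [l, inner_sub_left, this]
    have g := congrArg norm e
    rw [inner_self_eq_norm_sq_to_K, (emb s).norm_map] at g
    have g' : ‖u‖ ^ 2 ≤ ε * 1 + ε * ‖l j u‖ := by
      refine (by simpa using g : ‖u‖ ^ 2 = _).trans_le ((norm_add_le _ _).trans (add_le_add
        ((norm_inner_le_norm _ _).trans ?_) (by simp [abs_of_pos h0])))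
      exact mul_le_mul d' (((emb s).norm_map u).trans_le a) (norm_nonneg _) h0.le
    have := Finset.single_le_sum (f := fun j => ‖l j u‖ ^ 2) (fun _ _ => sq_nonneg _)
      (Finset.mem_univ j)
    nlinarith [mul_nonneg h0.le (sq_nonneg (‖l j u‖ - 2)), mul_nonneg (show 0 ≤ 1 - ε by nlinarith)
      (sq_nonneg ‖l j u‖)]
  refine ⟨n, l, fun u => ?_⟩
  have c : 0 ≤ ∑ i, ‖L i u‖ ^ 2 := Finset.sum_nonneg fun _ _ => sq_nonneg _
  have c' : 0 ≤ ∑ j, ‖l j u‖ ^ 2 := Finset.sum_nonneg fun _ _ => sq_nonneg _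
  show _ ≤ η * ∑ i, ‖L i u‖ ^ 2 + _
  rcases eq_or_ne u 0 with rfl | hu
  · simp
  obtain ⟨Q, hQ⟩ : ∃ Q, Q = C * (‖u‖ ^ 2 + ∑ i, ‖L i u‖ ^ 2) := ⟨_, rfl⟩
  have q : 0 < Q := hQ ▸ by positivity
  have := k (((√Q)⁻¹ : ℝ) • u)
  simp only [← Complex.coe_smul, map_smul, norm_smul, mul_pow, Complex.norm_real, Real.norm_eq_abs,
    sq_abs, inv_pow, Real.sq_sqrt q.le, ← Finset.mul_sum, ← mul_add, mul_left_comm C, ← hQ,
    inv_mul_cancel₀ q.ne', le_refl, forall_const] at this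
  rw [inv_mul_le_iff₀ q, mul_add, mul_div_assoc, mul_inv_cancel_left₀ q.ne', hQ] at this
  nlinarith [mul_le_mul_of_nonneg_right e1 (sq_nonneg ‖u‖), mul_le_mul_of_nonneg_right e2' c]

end Vale.Agent.P354BO
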