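import Vale.Agent.P354BF.Defs

/-!
The space of smooth sections of spin s as functions on C^2.
-/

open scoped ContDiff InnerProductSpace ComplexConjugate
open Complex (I)
open MeasureTheory Set

namespace Vale.Agent.P354BO

/-- The plane C^2. -/
abbrev V : Type := ℂ × ℂ

instance haar : (volume : Measure V).IsAddHaarMeasure := Measure.prod.instIsAddHaarMeasure _ _

/-- The hermitian product. -/
noncomputable def ip (ξ η : V) : ℂ := conj ξ.1 * η.1 + conj ξ.2 * η.2

/-- The square of the length. -/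
noncomputable def N (ξ : V) : ℝ := ‖ξ.1‖ ^ 2 + ‖ξ.2‖ ^ 2

/-- The bump function of the square of the length. -/
noncomputable def bu : ContDiffBump (1 : ℝ) := ⟨1 / 4, 1 / 2, by norm_num, by norm_num⟩

/-- The square root of the weight. -/
noncomputable def χ (ξ : V) : ℝ := bu (N ξ)

/-- Smooth sections of spin s. -/
structure IsSec (s : ℤ) (f : V → ℂ) : Prop where
  sm : ContDiffOn ℝ ∞ f {0}ᶜ
  zero : f 0 = 0
  hom : ∀ c : ℝ, 0 < c → ∀ ξ, f ((c : ℂ) • ξ) = f ξ
  wt : ∀ (ψ : ℝ) (ξ : V), f (Complex.exp (I * ψ / 2) • ξ) = Complex.exp (I * s * ψ) * f ξ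

/-- The sections as a submodule. -/
def sub (s : ℤ) : Submodule ℂ (V → ℂ) where
  carrier := {f | IsSec s f}
  add_mem' a b := ⟨a.sm.add b.sm, by simp [a.zero, b.zero], fun c h ξ => by
    simp only [Pi.add_apply, a.hom c h, b.hom c h], fun ψ ξ => by
    simp only [Pi.add_apply, a.wt, b.wt, mul_add]⟩
  zero_mem' := ⟨contDiffOn_const, rfl, fun _ _ _ => rfl, fun _ _ => (mul_zero _).symm⟩
  smul_mem' z _ a := ⟨a.sm.const_smul z, by simp [a.zero], fun c h ξ => by
    simp only [Pi.smul_apply, a.hom c h], fun ψ ξ => by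
    simp only [Pi.smul_apply, a.wt, smul_eq_mul, mul_left_comm]⟩

/-- The space of sections. -/
def S (s : ℤ) : Type := sub s

variable {s : ℤ}

noncomputable instance : AddCommGroup (S s) := inferInstanceAs (AddCommGroup (sub s))

noncomputable instance : Module ℂ (S s) := inferInstanceAs (Module ℂ (sub s))

/-- The function of a section. -/
@[coe] def S.fn (u : S s) : V → ℂ := u.1

instance : CoeFun (S s) fun _ => V → ℂ := ⟨S.fn⟩

/-- The section of a function. -/
def S.of (f : V → ℂ) (h : IsSec s f) : S s := ⟨f, h⟩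

@[simp] theorem of_app (f : V → ℂ) (h : IsSec s f) : (S.of f h : V → ℂ) = f := rfl

theorem S.is (u : S s) : IsSec s u := u.2

@[ext] theorem S.ext {u v : S s} (h : ∀ ξ, ξ ≠ 0 → u ξ = v ξ) : u = v :=
  Subtype.ext (funext fun ξ => if e : ξ = 0 then by rw [e]; exact u.is.zero.trans v.is.zero.symm
    else h ξ e)

@[simp] theorem add_app (u v : S s) (ξ : V) : (u + v) ξ = u ξ + v ξ := rfl
@[simp] theorem sub_app (u v : S s) (ξ : V) : (u - v) ξ = u ξ - v ξ := rfl
@[simp] theorem neg_app (u : S s) (ξ : V) : (-u) ξ = -u ξ := rfl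
@[simp] theorem zero_app (ξ : V) : (0 : S s) ξ = 0 := rfl
@[simp] theorem smul_app (z : ℂ) (u : S s) (ξ : V) : (z • u) ξ = z * u ξ := rfl

theorem sum_app {ι : Type} (t : Finset ι) (u : ι → S s) (ξ : V) :
    (∑ i ∈ t, u i) ξ = ∑ i ∈ t, u i ξ := by
  classical
  induction t using Finset.induction_on with
  | empty => rfl
  | insert i t h ih => rw [Finset.sum_insert h, Finset.sum_insert h, add_app, ih]

theorem N_sm : ContDiff ℝ ∞ N :=
  ((contDiff_norm_sq ℝ).comp contDiff_fst).add ((contDiff_norm_sq ℝ).comp contDiff_snd)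

theorem N_nonneg (ξ : V) : 0 ≤ N ξ := by unfold N; positivity

theorem N_pos {ξ : V} (h : ξ ≠ 0) : 0 < N ξ := by
  refine (N_nonneg ξ).lt_of_ne fun e => h ?_
  unfold N at e
  exact Prod.ext (norm_eq_zero.1 (by nlinarith [norm_nonneg ξ.1, sq_nonneg ‖ξ.2‖]))
    (norm_eq_zero.1 (by nlinarith [norm_nonneg ξ.2, sq_nonneg ‖ξ.1‖]))

theorem N_smul (c : ℂ) (ξ : V) : N (c • ξ) = ‖c‖ ^ 2 * N ξ := by
  simp only [N, Prod.smul_fst, Prod.smul_snd, norm_smul]
  ring

theorem norm_sq_le (ξ : V) : ‖ξ‖ ^ 2 ≤ N ξ := by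
  rw [Prod.norm_def, N]
  rcases le_total ‖ξ.1‖ ‖ξ.2‖ with h | h
  · rw [max_eq_right h]; nlinarith [sq_nonneg ‖ξ.1‖]
  · rw [max_eq_left h]; nlinarith [sq_nonneg ‖ξ.2‖]

theorem ip_self (ξ : V) : ip ξ ξ = N ξ := by
  simp only [ip, N, Complex.conj_mul', Complex.ofReal_add, Complex.ofReal_pow]

theorem χ_sm : ContDiff ℝ ∞ χ := bu.contDiff.comp N_sm

theorem χ_nonneg (ξ : V) : 0 ≤ χ ξ := bu.nonneg

theorem χ_le (ξ : V) : χ ξ ≤ 1 := bu.le_one

theorem χ_one {ξ : V} (h : N ξ = 1) : χ ξ = 1 :=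
  bu.one_of_mem_closedBall (by rw [h]; exact Metric.mem_closedBall_self (by norm_num [bu]))

/-- The shell that carries the weight. -/
def K : Set V := {ξ | 1 / 2 ≤ N ξ ∧ N ξ ≤ 3 / 2}

theorem K_ne {ξ : V} (h : ξ ∈ K) : ξ ≠ 0 := fun e => by
  have := h.1
  rw [e] at this
  norm_num [N] at this

theorem K_cpt : IsCompact K := by
  refine Metric.isCompact_of_isClosed_isBounded ((isClosed_le continuous_const N_sm.continuous).inter
    (isClosed_le N_sm.continuous continuous_const)) ((Metric.isBounded_closedBall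
      (x := (0 : V)) (r := 2)).subset fun ξ h => mem_closedBall_zero_iff.2 ?_)
  nlinarith [norm_sq_le ξ, h.2, norm_nonneg ξ]

theorem χ_out {ξ : V} (h : ξ ∉ K) : χ ξ = 0 := by
  refine bu.zero_of_le_dist ?_
  rw [Real.dist_eq, show bu.rOut = 1 / 2 from rfl, le_abs]
  by_contra c
  exact h ⟨by linarith [(not_or.1 c).2], by linarith [(not_or.1 c).1]⟩

/-- The product with the weight of a function that is smooth off the origin is smooth. -/
theorem sm_χ {P E : Type} [NormedAddCommGroup P] [NormedSpace ℝ P] [NormedAddCommGroup E]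
    [NormedSpace ℝ E] {n : WithTop ℕ∞} (hn : n ≤ ∞) {F : P × V → E}
    (h : ContDiffOn ℝ n F {x | x.2 ≠ 0}) : ContDiff ℝ n fun x => χ x.2 • F x := by
  refine contDiff_iff_contDiffAt.2 fun x => ?_
  by_cases c : x.2 ∈ K
  · exact ((χ_sm.of_le hn).comp contDiff_snd).contDiffAt.smul (h.contDiffAt
      ((isOpen_ne_fun continuous_snd continuous_const).mem_nhds (K_ne c)))
  · refine (contDiffAt_const (c := 0)).congr_of_eventuallyEq ?_
    filter_upwards [continuous_snd.continuousAt.eventually (K_cpt.isClosed.isOpen_compl.mem_nhds c)]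
      with y hy
    rw [χ_out hy, zero_smul]

/-- The section times the square root of the weight. -/
noncomputable def gl (u : S s) (ξ : V) : ℂ := χ ξ * u ξ

theorem gl_sm (u : S s) : ContDiff ℝ ∞ (gl u) := by
  have h := (sm_χ (P := ℝ) le_rfl (F := fun x => u x.2)
    (u.is.sm.comp contDiffOn_snd fun _ h => h)).comp (contDiff_prodMk_right (0 : ℝ))
  simp only [Function.comp_def, Complex.real_smul] at h
  exact h

theorem gl_out (u : S s) {ξ : V} (h : ξ ∉ K) : gl u ξ = 0 := by
  rw [gl, χ_out h, Complex.ofReal_zero, zero_mul]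

theorem int_K {E : Type} [NormedAddCommGroup E] {f : V → E} (h : Continuous f)
    (h0 : ∀ ξ ∉ K, f ξ = 0) : Integrable f :=
  h.integrable_of_hasCompactSupport (HasCompactSupport.intro K_cpt h0)

theorem int_ip (u v : S s) : Integrable fun ξ => conj (gl u ξ) * gl v ξ :=
  int_K ((Complex.continuous_conj.comp (gl_sm u).continuous).mul (gl_sm v).continuous)
    fun ξ h => by rw [gl_out v h, mul_zero]

/-- The point of the unit sphere on the ray. -/
theorem ex_unit {ξ : V} (h : ξ ≠ 0) : N ((((√(N ξ))⁻¹ : ℝ) : ℂ) • ξ) = 1 := by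
  rw [N_smul, Complex.norm_real, Real.norm_eq_abs, sq_abs, inv_pow, Real.sq_sqrt (N_nonneg ξ),
    inv_mul_cancel₀ (N_pos h).ne']

theorem ip_re (u : S s) : ∫ ξ, conj (gl u ξ) * gl u ξ = ((∫ ξ, ‖gl u ξ‖ ^ 2 : ℝ) : ℂ) := by
  rw [← integral_complex_ofReal]
  simp only [Complex.conj_mul', Complex.ofReal_pow]

/-- The inner product. -/
noncomputable instance core : InnerProductSpace.Core ℂ (S s) where
  inner u v := ∫ ξ, conj (gl u ξ) * gl v ξ
  conj_inner_symm u v := by
    rw [← integral_conj]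
    simp only [map_mul, Complex.conj_conj, mul_comm]
  re_inner_nonneg u := by
    rw [ip_re]
    exact integral_nonneg fun _ => sq_nonneg _
  add_left u v w := by
    rw [← integral_add (int_ip u w) (int_ip v w)]
    simp only [gl, add_app, mul_add, map_add, add_mul]
  smul_left u v z := by
    rw [← integral_const_mul]
    simp only [gl, smul_app, map_mul, mul_left_comm, mul_assoc]
  definite u h := by
    rw [ip_re, Complex.ofReal_eq_zero] at h
    have c : Continuous fun ξ => ‖gl u ξ‖ ^ 2 := (gl_sm u).continuous.norm.pow 2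
    have e := (c.ae_eq_iff_eq volume continuous_zero).1 ((integral_eq_zero_iff_of_nonneg
      (fun _ => sq_nonneg _) (int_K c fun ξ a => by simp [gl_out u a])).1 h)
    refine S.ext fun ξ a => ?_
    have := congrFun e ((((√(N ξ))⁻¹ : ℝ) : ℂ) • ξ)
    rw [gl, χ_one (ex_unit a), u.is.hom _ (inv_pos.2 (Real.sqrt_pos.2 (N_pos a)))] at this
    simpa using this

noncomputable instance : NormedAddCommGroup (S s) := InnerProductSpace.Core.toNormedAddCommGroup (𝕜 := ℂ)

noncomputable instance : InnerProductSpace ℂ (S s) := InnerProductSpace.ofCore _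

theorem inner_def (u v : S s) : ⟪u, v⟫_ℂ = ∫ ξ, conj (gl u ξ) * gl v ξ := rfl

theorem norm_sq (u : S s) : ‖u‖ ^ 2 = ∫ ξ, ‖gl u ξ‖ ^ 2 := by
  rw [← Complex.ofReal_inj, ← ip_re, ← inner_def, inner_self_eq_norm_sq_to_K]
  simp

end Vale.Agent.P354BO
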