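import Vale.Agent.P354BO.Sec

/-!
The Parseval property of the ring of fields.
-/

open scoped ContDiff InnerProductSpace ComplexConjugate Topology Manifold
open Complex (I)
open MeasureTheory Set Filter

namespace Vale.Agent.P354BO

open P354XG P354XI P354XD P354XR
open P354XT hiding d1

variable {U : Set (ℝ × ℝ)} {s : ℤ}

/-- The bilinear identity of Parseval with a radial weight. -/
theorem JS.hasSum_wt_inner {F F' : ℝ × ℝ → S s} (h : JS F) (h' : JS F') {τ : ℝ} (hτ : 0 < τ)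
    {c : ℝ → ℝ} (hc : Continuous c) {x y : ℝ} (hxy : x ≤ y) :
    HasSum (fun k => ∫ r in x..y, c r * (⟪P354BO.hat τ k fun t => F (t, r),
      P354BO.hat τ k fun t => F' (t, r)⟫_ℂ).re)
      (τ⁻¹ * ∫ r in x..y, ∫ t in (0 : ℝ)..τ, c r * (⟪F (t, r), F' (t, r)⟫_ℂ).re) := by
  have a := fun k => (h.hat τ k).contDiff.continuous
  have b := fun k => (h'.hat τ k).contDiff.continuous
  have i := fun k => (hc.mul (Complex.continuous_re.comp ((a k).inner (𝕜 := ℂ)
    (b k)))).intervalIntegrable (μ := volume) x y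
  have q := (h.hasSum_wt hτ 0 hxy hc.abs.continuousOn fun _ _ => abs_nonneg _).summable.add
    (h'.hasSum_wt hτ 0 hxy hc.abs.continuousOn fun _ _ => abs_nonneg _).summable
  have := hasSum_integral_of_summable_integral_norm (fun k => (i k).1) (q.of_nonneg_of_le
    (fun _ => integral_nonneg fun _ => norm_nonneg _) fun k => by
      have j := (hc.abs.mul ((a k).norm.pow 2)).intervalIntegrable (μ := volume) x y
      have j' := (hc.abs.mul ((b k).norm.pow 2)).intervalIntegrable (μ := volume) x y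
      rw [← intervalIntegral.integral_of_le hxy]
      refine (intervalIntegral.integral_mono_on hxy (i k).norm (j.add j') fun r _ => ?_).trans_eq
        (intervalIntegral.integral_add j j')
      simp only [Pi.mul_apply, Pi.pow_apply, Function.comp_apply, norm_mul, Real.norm_eq_abs,
        ← mul_add]
      refine mul_le_mul_of_nonneg_left ((Complex.abs_re_le_norm _).trans
        ((norm_inner_le_norm _ _).trans ?_)) (abs_nonneg _)
      nlinarith [sq_nonneg (‖P354BO.hat τ k fun t => F (t, r)‖ - ‖P354BO.hat τ k fun t => F' (t, r)‖),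
        sq_nonneg ‖P354BO.hat τ k fun t => F (t, r)‖, sq_nonneg ‖P354BO.hat τ k fun t => F' (t, r)‖])
  simp only [intervalIntegral.integral_of_le hxy, ← integral_const_mul]
  refine (congrArg (HasSum _) (integral_congr_ae (Eventually.of_forall fun r => ?_))).mp this
  have u := h.comp (contDiff_prodMk_left r)
  have u' := h'.comp (contDiff_prodMk_left r)
  refine ((Complex.hasSum_re (u.hasSum_hat_inner u' hτ)).mul_left (c r)).tsum_eq.trans ?_
  rw [Complex.re_ofReal_mul, intervalIntegral.integral_const_mul, mul_left_comm]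
  exact congrArg (fun x => τ⁻¹ * (c r * x)) (Complex.reCLM.intervalIntegral_comp_comm
    ((u.contDiff.continuous.inner u'.contDiff.continuous).intervalIntegrable 0 τ)).symm

theorem ex_cut (hU : IsOpen U) {C : Set (ℝ × ℝ)} (hC : IsCompact C) (sC : C ⊆ U) :
    ∃ (θ : ℝ × ℝ → ℝ) (C' : Set (ℝ × ℝ)), ContDiff ℝ ∞ θ ∧ IsCompact C' ∧ C' ⊆ U ∧
      (∀ z ∉ C', θ z = 0) ∧ ∀ z ∈ C, θ =ᶠ[𝓝 z] fun _ => 1 := by
  obtain ⟨C', a, b, c⟩ := exists_compact_between hC hU sC
  obtain ⟨θ, d, e, -⟩ := exists_contMDiffMap_one_nhds_of_subset_interior 𝓘(ℝ, ℝ × ℝ) (n := ⊤)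
    hC.isClosed b
  exact ⟨θ, C', θ.contMDiff.contDiff, a, c, e, eventually_nhdsSet_iff_forall.1 d⟩

variable (hU : IsOpen U) {f : ℝ → ℝ}
include hU

theorem cl_zero {ta tb : ℝ} {F : Rg U} (h : (fld hU s f).Cl ta tb F) {x : E6}
    (hx : x.1 ∉ Icc ta tb) : fv F x = 0 := by
  by_cases a : x ∈ cyl U
  · have b := ex_unit a.2
    refine ((isSec hU h.1 (tr x)).hom _ (inv_pos.2 (Real.sqrt_pos.2 (N_pos a.2))) _).symm.trans
      (h.2 ⟨⟨(x.1, x.2.1, (((√(N x.2.2))⁻¹ : ℝ) : ℂ) • x.2.2), a.1,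
        K_ne ⟨by rw [b]; norm_num, by rw [b]; norm_num⟩⟩, ?_⟩ hx)
    exact (ev_be _).trans_ne (by simp only [χ_one b]; simp)
  · exact fv_out _ a

/-- The Parseval property. -/
theorem fld_par (hr : ∀ z ∈ U, z.2 ≠ 0) (s : ℤ) (hf : ContDiff ℝ ∞ f) : (fld hU s f).Par := by
  refine ⟨S s, inferInstance, inferInstance, ang s, ang_is s, rfl, fun ta tb ra rb hb => ?_⟩
  obtain ⟨θ, C, hθ, hC, sC, θ0, θ1⟩ := ex_cut hU (isCompact_Icc.prod isCompact_Icc) hb
  have is := fld_is hU hr s hf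
  obtain ⟨τ, hτ, hτ'⟩ : ∃ τ : ℝ, 0 < τ ∧ tb < ta - 1 + τ :=
    ⟨|tb - ta| + 2, by positivity, by linarith [le_abs_self (tb - ta)]⟩
  have dH : ∀ r, HasDerivAt (fun r => ∫ x in (0 : ℝ)..r, f x) (f r) r := fun r =>
    (hf.continuous.integral_hasStrictDerivAt 0 r).hasDerivAt
  have sH : ContDiff ℝ ∞ fun r => ∫ x in (0 : ℝ)..r, f x :=
    contDiff_infty_iff_deriv.2 ⟨fun r => (dH r).differentiableAt, by
      rwa [funext fun r => (dH r).deriv]⟩
  generalize (fun r => ∫ x in (0 : ℝ)..r, f x) = H at dH sH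
  have m : ∀ {F}, F ∈ Sec U s → fz U θ * F ∈ Sec U s := fz_mem hU hθ
  have cs : ∀ F, Cs (fz U θ * F) := cs_fz hθ hC.isClosed sC θ0
  have j0 : ∀ {F}, F ∈ Sec U s → JS (sec s (fz U θ * F)) := fun h => sec_js hU (m h) (cs _)
  have sh : ContDiff ℝ ∞ fun z : ℝ × ℝ => (ta - 1 + z.1, z.2) := by fun_prop
  have j1 : ∀ {F}, F ∈ Sec U s → JS fun z : ℝ × ℝ => sec s (fz U θ * F) (ta - 1 + z.1, z.2) :=
    fun h => (j0 h).comp sh
  have j2 : ∀ {F}, F ∈ Sec U s → ∀ r, JS fun t => sec s (fz U θ * F) (ta - 1 + t, r) :=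
    fun h r => (j1 h).comp (contDiff_prodMk_left r)
  have z0 : ∀ F, (fld hU s f).Cl ta tb F → ∀ t ∉ Icc ta tb, ∀ r, sec s (fz U θ * F) (t, r) = 0 :=
    fun F h t a r => S.ext fun ξ _ => by
      rw [sec_app hU (m h.1), fv_mul, cl_zero hU h a, mul_zero, zero_app]
  have cm : ∀ (a : Fin 5) F, (fld hU s f).Cl ta tb F → ∀ t, ∀ r ∈ Ioo ra rb,
      sec s (fz U θ * (fld hU s f).X a F) (t, r) = sec s ((fld hU s f).X a (fz U θ * F)) (t, r) :=
    fun a F h t r hr => S.ext fun ξ b => by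
      rw [sec_app hU (m (is.spX a F h.1)), sec_app hU (is.spX a _ (m h.1)), D_mul, fv_add,
        fv_mul F, left_eq_add]
      by_cases c : t ∈ Icc ta tb
      · refine mul_eq_zero_of_right _ ((ev_X hU s hf a _
          ⟨(t, r, ξ), hb ⟨c, Ioo_subset_Icc_self hr⟩, b⟩).trans ?_)
        rw [der_fz hU hθ, show fderiv ℝ θ (tr (t, r, ξ)) = _ from
          (θ1 (t, r) ⟨c, Ioo_subset_Icc_self hr⟩).fderiv_eq]
        simp
      · exact mul_eq_zero_of_left (cl_zero hU h c) _
  have dt : ∀ {F}, F ∈ Sec U s → ∀ r, (fun t => fderiv ℝ (sec s (fz U θ * F)) (ta - 1 + t, r)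
      (1, 0)) = deriv fun t => sec s (fz U θ * F) (ta - 1 + t, r) := fun h r => funext fun t =>
    (((j0 h).differentiable _).hasFDerivAt.comp_hasDerivAt t
      (((hasDerivAt_id' t).const_add _).prodMk (hasDerivAt_const t r))).deriv.symm
  have hT : ∀ k F, (fld hU s f).Cl ta tb F → ∀ r, hat τ k (fun t => fderiv ℝ (sec s (fz U θ * F))
      (ta - 1 + t, r) (1, 0)) = (-(I * om τ k.1)) •
        hat τ k fun t => sec s (fz U θ * F) (ta - 1 + t, r) := fun k F h r => by
    rw [dt h.1, (j2 h.1 r).hat_deriv hτ.ne' (by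
      rw [z0 F h _ fun a => hτ'.not_ge a.2, z0 F h _ fun a => by linarith [a.1]])]
  have dE : ∀ (w : ℝ) r, HasDerivAt (fun r => Complex.exp (I * w * H r))
      (Complex.exp (I * w * H r) * (I * w * f r)) r := fun w r =>
    ((dH r).ofReal_comp.const_mul _).cexp
  refine ⟨ℤ × ℤ, fun k => om τ k.1, fun k => k.2, τ⁻¹, fun k F r => Complex.exp (I * om τ k.1 * H r) •
    hat τ k fun t => sec s (fz U θ * F) (ta - 1 + t, r), inv_pos.2 hτ, fun k F h => ⟨?_, fun r => ?_⟩,
    fun k F F' h h' r _ => ?_, fun k z F h r _ => ?_, fun k c F hc h r _ => ?_,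
    fun k F h r hr' => ?_, fun k F h r hr' => ?_, fun k F h r _ => ?_, fun k F h r _ => ?_,
    fun k F h r _ => ?_, fun c x y F F' hc hx hxy hy c0 h h' => ?_⟩
  · exact (((j1 h.1).hat τ k).smul
      (contDiff_const.mul (Complex.ofRealCLM.contDiff.comp sH)).cexp).sm
  · rw [map_smul, ((j1 h.1).md τ k).2 r, smul_comm]
  · simp only [mul_add, sec_add hU (m h.1) (m h'.1), (j2 h.1 r).hat_add (j2 h'.1 r), smul_add]
  · simp only [← Algebra.smul_def, mul_smul_comm, sec_smul hU z (m h.1), (j2 h.1 r).hat_smul,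
      smul_comm z]
  · simp only [Fld.rad, fld, mul_left_comm (fz U θ), sec_fz hU (φ := fun p => c p.2)
      (hc.comp contDiff_snd) (m h.1), (j2 h.1 r).hat_smul, smul_comm (c r : ℂ)]
  · rw [smul_comm, ← hT k F h]
    exact congrArg (_ • hat τ k ·) (funext fun t => (cm 0 F h _ r hr').trans
      (sec_T hU hr (m h.1) (cs F) _))
  · have a : (fun t => sec s (fz U θ * (fld hU s f).R F) (ta - 1 + t, r)) = fun t =>
        deriv (fun q => sec s (fz U θ * F) (ta - 1 + t, q)) r - (f r : ℂ) •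
          fderiv ℝ (sec s (fz U θ * F)) (ta - 1 + t, r) (1, 0) := funext fun t => by
      refine ((cm 1 F h _ r hr').trans (sec_R hU hr hf (m h.1) (cs F) _)).trans ?_
      rw [show deriv (fun q => sec s (fz U θ * F) (ta - 1 + t, q)) r = _ from
        (((j0 h.1).differentiable _).hasFDerivAt.comp_hasDerivAt r ((hasDerivAt_const r _).prodMk
          (hasDerivAt_id' r))).deriv, Complex.coe_smul, ← map_smul, ← map_sub]
      simp
    have b : JS fun t => fderiv ℝ (sec s (fz U θ * F)) (ta - 1 + t, r) (1, 0) :=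
      (((j0 h.1).fderiv (1, 0)).comp sh).comp (contDiff_prodMk_left r)
    have b' : JS fun t => deriv (fun q => sec s (fz U θ * F) (ta - 1 + t, q)) r :=
      ((j1 h.1).pd2 1).comp (contDiff_prodMk_left r)
    rw [a, b'.hat_sub (b.smul contDiff_const), b.hat_smul, hT k F h, ← (j1 h.1).deriv_hat]
    refine Eq.trans ?_ ((dE _ r).smul (((j1 h.1).hat τ k).differentiable r).hasDerivAt).deriv.symm
    module
  · have e : fz U θ * (fld hU s f).L 2 F = Om (kp U) 2 (fz U θ * F) := by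
      rw [D_mul, show Om (kp U) 2 (fz U θ) = 0 from is.Lf θ hθ 2, mul_zero, add_zero]
      rfl
    simp only [e, sec_L hU hr 2 (m h.1), (j2 h.1 r).hat_L2, Complex.ofReal_intCast, smul_comm (I * k.2)]
  · simp only [fld, mul_left_comm (fz U θ), sec_w hU hr 2 (m h.1), (j2 h.1 r).hat_w2, ang, map_smul]
  · have e : ∀ j F, fz U θ * (fld hU s f).L j F = Om (kp U) j (fz U θ * F) := fun j F => by
      rw [D_mul, show Om (kp U) j (fz U θ) = 0 from is.Lf θ hθ j, mul_zero, add_zero]
      rfl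
    have o := fun j => Om_mem hU hr j (Om_mem hU hr j (m h.1))
    rw [map_smul, ← smul_neg, ← (j2 h.1 r).hat_cas, ← (j2 h.1 r).cas.hat_neg]
    simp only [mul_add, e, Fin.sum_univ_three, sec_add hU (add_mem (o 0) (o 1)) (o 2),
      sec_add hU (o 0) (o 1), fun j => sec_L hU hr j (Om_mem hU hr j (m h.1)), sec_L hU hr _ (m h.1),
      P354BF.Ang.cas_apply, neg_neg, ang]
  · have e : ∀ (w r : ℝ) (a b : S s), ⟪Complex.exp (I * w * H r) • a,
        Complex.exp (I * w * H r) • b⟫_ℂ = ⟪a, b⟫_ℂ := fun w r a b => by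
      rw [inner_smul_left, inner_smul_right, ← mul_assoc, ← Complex.exp_conj, ← Complex.exp_add]
      simp
    have y0 : ∀ t ∉ Icc ta tb, ∀ r, sec s F (t, r) = 0 := fun t a r => S.ext fun ξ _ => by
      rw [sec_app hU h.1, cl_zero hU h a, zero_app]
    have q : ∀ F, (fld hU s f).Cl ta tb F → ∀ t, ∀ r ∈ Icc ra rb,
        sec s (fz U θ * F) (t, r) = sec s F (t, r) := fun F h t r a => by
      by_cases b : t ∈ Icc ta tb
      · rw [sec_fz hU hθ h.1, (θ1 (t, r) ⟨b, a⟩).self_of_nhds, Complex.ofReal_one, one_smul]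
      · exact (z0 F h t b r).trans (S.ext fun ξ _ => by
          rw [sec_app hU h.1, cl_zero hU h b, zero_app])
    obtain ⟨i, b⟩ := bil_eq hU f (φ := fun p => c p.2) (hc.comp contDiff_snd) h.1 h'.1
      (isCompact_Icc.prod isCompact_Icc : IsCompact (Icc ta tb ×ˢ Icc x y))
      ((prod_mono le_rfl (Icc_subset_Icc hx.le hy.le)).trans hb) fun z a => by
        by_cases d : z.1 ∈ Icc ta tb
        · rw [c0 _ fun e => a ⟨d, e⟩, Complex.ofReal_zero, zero_mul]
        · rw [cl_zero hU h d, mul_zero]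
    simp only [e]
    refine (congrArg (HasSum _ <| τ⁻¹ * ·) ?_).mp
      ((j1 h.1).hasSum_wt_inner (j1 h'.1) hτ hc.continuous hxy)
    refine Eq.trans ?_ (b.trans (integral_prod_symm _ i)).symm
    rw [intervalIntegral.integral_of_le hxy, ← integral_Icc_eq_integral_Ioc]
    refine (setIntegral_congr_fun measurableSet_Icc fun r a => ?_).trans
      (setIntegral_eq_integral_of_forall_compl_eq_zero fun r a => by simp [c0 r a])
    have a' : r ∈ Icc ra rb := Icc_subset_Icc hx.le hy.le a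
    simp only [q F h _ r a', q F' h' _ r a']
    rw [intervalIntegral.integral_comp_add_left
      (fun t => c r * (⟪sec s F (t, r), sec s F' (t, r)⟫_ℂ).re),
      intervalIntegral.integral_eq_integral_of_support_subset fun t d => ?_]
    by_contra g
    exact d (by simp [y0 t fun k => g ⟨by linarith [k.1], by linarith [k.2]⟩])

end Vale.Agent.P354BO
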