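import Vale.Agent.P354BO.Ops
import Vale.Agent.P284Y.Lib.Par

/-!
Jointly smooth families of sections: derivatives and integrals.
-/

open scoped ContDiff InnerProductSpace ComplexConjugate Topology
open Complex (I)
open MeasureTheory Set Filter

namespace Vale.Agent.P354BO

variable {s : ℤ} {P Q : Type} [NormedAddCommGroup P] [NormedSpace ℝ P] [NormedAddCommGroup Q]
  [NormedSpace ℝ Q]

/-- Jointly smooth families. -/
def JS (F : P → S s) : Prop := ContDiffOn ℝ ∞ (fun x : P × V => F x.1 x.2) {x | x.2 ≠ 0}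

omit [NormedSpace ℝ P] in
theorem op_ne : IsOpen {x : P × V | x.2 ≠ 0} := isOpen_ne_fun continuous_snd continuous_const

variable {F G : P → S s}

theorem JS.const (u : S s) : JS fun _ : P => u := u.is.sm.comp contDiffOn_snd fun _ h => h

theorem JS.add (h : JS F) (h' : JS G) : JS fun p => F p + G p := ContDiffOn.add h h'

theorem JS.sub (h : JS F) (h' : JS G) : JS fun p => F p - G p := ContDiffOn.sub h h'

theorem JS.neg (h : JS F) : JS fun p => -F p := ContDiffOn.neg h

theorem JS.smul {c : P → ℂ} (hc : ContDiff ℝ ∞ c) (h : JS F) : JS fun p => c p • F p :=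
  ContDiffOn.mul (hc.comp contDiff_fst).contDiffOn h

theorem JS.sum {ι : Type} {t : Finset ι} {F : ι → P → S s} (h : ∀ i ∈ t, JS (F i)) :
    JS fun p => ∑ i ∈ t, F i p := by
  simp only [JS, sum_app]
  exact ContDiffOn.sum h

theorem JS.comp (h : JS F) {g : Q → P} (hg : ContDiff ℝ ∞ g) : JS fun q => F (g q) :=
  ContDiffOn.comp h ((hg.comp contDiff_fst).prodMk contDiff_snd).contDiffOn fun _ a => a

theorem JS.w (h : JS F) (i : Fin 3) : JS fun p => w i (F p) :=
  ContDiffOn.mul ((wc_sm i).comp contDiffOn_snd fun _ a => a) h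

theorem JS.der (h : JS F) {x : P × V} (hx : x.2 ≠ 0) :
    HasFDerivAt (fun x : P × V => F x.1 x.2) (fderiv ℝ (fun x : P × V => F x.1 x.2) x) x :=
  ((ContDiffOn.contDiffAt h (op_ne.mem_nhds hx)).differentiableAt (by simp)).hasFDerivAt

theorem JS.fd (h : JS F) :
    ContDiffOn ℝ ∞ (fderiv ℝ fun x : P × V => F x.1 x.2) {x | x.2 ≠ 0} :=
  ContDiffOn.fderiv_of_isOpen h op_ne le_rfl

theorem JS.L (h : JS F) (i : Fin 3) : JS fun p => L i (F p) :=
  (h.fd.clm_apply (contDiff_const (c := (0 : P)).prodMk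
    ((A i).contDiff.comp contDiff_snd)).contDiffOn).congr fun x hx => by
    have := (h.der hx).comp x.2 (f := fun ξ => (x.1, ξ)) (hasFDerivAt_prodMk_right (𝕜 := ℝ) x.1 x.2)
    exact congrArg (· (A i x.2)) this.fderiv

theorem JS.word (h : JS F) (α : List (Fin 3)) : JS fun p => (ang s).word α (F p) := by
  induction α with
  | nil => exact h
  | cons i α ih => exact ih.L i

theorem JS.gl (h : JS F) : ContDiff ℝ ∞ fun x : P × V => gl (F x.1) x.2 := by
  simpa only [Complex.real_smul, P354BO.gl] using sm_χ le_rfl h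

theorem JS.pd (h : JS F) (p : P) {ξ : V} (hx : ξ ≠ 0) : HasFDerivAt (fun q => F q ξ)
    ((fderiv ℝ (fun x : P × V => F x.1 x.2) (p, ξ)).comp (.inl ℝ P V)) p :=
  (h.der (x := (p, ξ)) hx).comp p (f := fun q => (q, ξ)) (hasFDerivAt_prodMk_left (𝕜 := ℝ) p ξ)

theorem JS.dif (h : JS F) (p : P) (ξ : V) : DifferentiableAt ℝ (fun q => F q ξ) p := by
  rcases eq_or_ne ξ 0 with rfl | a
  · simp only [(F _).is.zero]
    exact differentiableAt_const _
  · exact (h.pd p a).differentiableAt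

theorem JS.pd_sm (h : JS F) (k : P) :
    ContDiffOn ℝ ∞ (fun x : P × V => fderiv ℝ (fun q => F q x.2) x.1 k) {x | x.2 ≠ 0} :=
  (h.fd.clm_apply (contDiffOn_const (c := (k, 0)))).congr fun x hx =>
    congrArg (· k) (h.pd x.1 hx).fderiv

theorem JS.isSec_pd (h : JS F) (p k : P) : IsSec s fun ξ => fderiv ℝ (fun q => F q ξ) p k := by
  refine ⟨(h.pd_sm k).comp (contDiff_prodMk_right p).contDiffOn fun _ a => a, ?_,
    fun c hc ξ => ?_, fun ψ ξ => ?_⟩
  · simp [(F _).is.zero]
  · simp only [(F _).is.hom c hc]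
  · simp only [(F _).is.wt]
    rw [fderiv_const_mul (h.dif p ξ)]
    rfl

theorem norm_le_sup : ∃ C : ℝ, 0 < C ∧ ∀ (s : ℤ) (u : S s) (c : ℝ), 0 ≤ c →
    (∀ ξ ∈ K, ‖u ξ‖ ≤ c) → ‖u‖ ≤ C * c := by
  refine ⟨volume.real K + 1, by positivity, fun s u c hc h => ?_⟩
  refine (abs_le_of_sq_le_sq' ?_ (by positivity)).2
  rw [norm_sq, ← setIntegral_eq_integral_of_forall_compl_eq_zero (s := K) fun ξ a => by
    simp [gl_out u a]]
  have := norm_setIntegral_le_of_norm_le_const (f := fun ξ => ‖gl u ξ‖ ^ 2) (C := c ^ 2)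
    (μ := volume) K_cpt.measure_lt_top fun ξ a => by
      rw [Real.norm_of_nonneg (sq_nonneg _), gl, norm_mul, Complex.norm_real,
        Real.norm_of_nonneg (χ_nonneg ξ)]
      exact pow_le_pow_left₀ (mul_nonneg (χ_nonneg ξ) (norm_nonneg _))
        ((mul_le_of_le_one_left (norm_nonneg _) (χ_le ξ)).trans (h ξ a)) 2
  refine ((le_abs_self _).trans this).trans ?_
  have : 0 ≤ volume.real K := measureReal_nonneg
  nlinarith [sq_nonneg c, mul_nonneg this (sq_nonneg c), mul_nonneg (sq_nonneg (volume.real K))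
    (sq_nonneg c)]

theorem rsmul_app (c : ℝ) (u : S s) (ξ : V) : (c • u) ξ = c * u ξ := rfl

variable [FiniteDimensional ℝ P]

theorem JS.hasF (h : JS F) (p : P) : ∃ D : P →L[ℝ] S s, HasFDerivAt F D p ∧
    ∀ k ξ, D k ξ = fderiv ℝ (fun q => F q ξ) p k := by
  refine ⟨LinearMap.toContinuousLinearMap
    { toFun := fun k => S.of _ (h.isSec_pd p k)
      map_add' := fun _ _ => S.ext fun _ _ => map_add _ _ _
      map_smul' := fun _ _ => S.ext fun _ _ => map_smul _ _ _ }, ?_, fun _ _ => rfl⟩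
  obtain ⟨C, hC, hs⟩ := norm_le_sup
  rw [hasFDerivAt_iff_isLittleO, Asymptotics.isLittleO_iff]
  intro ε hε
  have a := K_cpt.eventually_forall_of_forall_eventually (x₀ := p) (P := fun q ξ =>
    ‖fderiv ℝ (fun x : P × V => F x.1 x.2) (q, ξ) - fderiv ℝ (fun x : P × V => F x.1 x.2) (p, ξ)‖ <
      ε / C) fun ξ hξ => by
    have c := h.fd.continuousOn.continuousAt (op_ne.mem_nhds (show (p, ξ).2 ≠ 0 from K_ne hξ))
    have c' := c.comp_of_eq (f := fun z : P × V => (p, z.2)) (x := (p, ξ)) (by fun_prop) rfl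
    exact (c.sub c').norm.eventually_lt continuousAt_const (by simp; positivity)
  obtain ⟨δ, hδ, a⟩ := Metric.eventually_nhds_iff_ball.1 a
  filter_upwards [Metric.ball_mem_nhds p hδ] with q hq
  refine (hs s _ (ε / C * ‖q - p‖) (by positivity) fun ξ hξ => ?_).trans_eq (by field_simp)
  refine (convex_ball p δ).norm_image_sub_le_of_norm_fderiv_le' (f := fun q => F q ξ)
    (fun x _ => h.dif x ξ) (fun x hx => ?_) (Metric.mem_ball_self hδ) hq
  rw [(h.pd x (K_ne hξ)).fderiv, (h.pd p (K_ne hξ)).fderiv, ← ContinuousLinearMap.sub_comp]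
  refine (ContinuousLinearMap.opNorm_comp_le _ _).trans ((mul_le_of_le_one_right (norm_nonneg _)
    (ContinuousLinearMap.norm_inl_le_one _ _ _)).trans (a x hx ξ hξ).le)

theorem JS.differentiable (h : JS F) : Differentiable ℝ F := fun p =>
  let ⟨_, a, _⟩ := h.hasF p
  a.differentiableAt

theorem JS.fderiv_app (h : JS F) (p k : P) (ξ : V) :
    fderiv ℝ F p k ξ = fderiv ℝ (fun q => F q ξ) p k := by
  obtain ⟨D, a, b⟩ := h.hasF p
  rw [a.fderiv, b]

theorem JS.fderiv (h : JS F) (k : P) : JS fun p => fderiv ℝ F p k :=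
  (h.pd_sm k).congr fun x _ => h.fderiv_app x.1 k x.2

theorem JS.contDiff (h : JS F) : ContDiff ℝ ∞ F := by
  refine contDiff_infty.2 fun n => ?_
  induction n generalizing F with
  | zero => exact contDiff_zero.2 h.differentiable.continuous
  | succ n ih =>
    rw [Nat.cast_succ, contDiff_succ_iff_fderiv_apply]
    exact ⟨h.differentiable, by simp, fun k => ih (h.fderiv k)⟩

theorem JS.sm {v : ℝ → S s} (h : JS v) : (ang s).Sm v := fun α => (h.word α).contDiff

theorem JS.deriv {v : ℝ → S s} (h : JS v) : JS (deriv v) := h.fderiv 1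

theorem JS.deriv_app {v : ℝ → S s} (h : JS v) (r : ℝ) (ξ : V) :
    _root_.deriv v r ξ = _root_.deriv (fun q => v q ξ) r := h.fderiv_app r 1 ξ

theorem sm_int {E : Type} [NormedAddCommGroup E] [NormedSpace ℝ E] {g : ℝ × P → E}
    (hg : ContDiff ℝ ∞ g) (a b : ℝ) : ContDiff ℝ ∞ fun p => ∫ t in a..b, g (t, p) := by
  have k : ∀ a b : ℝ, ContDiff ℝ ∞ fun p => ∫ t in Ioc a b, g (t, p) := fun a b =>
    P284Y.Lib.contDiff_integral_param _ (isCompact_Icc (a := a) (b := b)) (by
      rw [Measure.restrict_apply measurableSet_Icc.compl,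
        (disjoint_compl_left.mono_right Ioc_subset_Icc_self).inter_eq, measure_empty])
      (f := fun t p => g (t, p)) hg
  exact (k a b).sub (k b a)

theorem der_int {E : Type} [NormedAddCommGroup E] [NormedSpace ℝ E] [CompleteSpace E]
    {g : ℝ × P → E} (hg : ContDiff ℝ ∞ g) (a b : ℝ) (p k : P) :
    fderiv ℝ (fun p => ∫ t in a..b, g (t, p)) p k =
      ∫ t in a..b, fderiv ℝ (fun q => g (t, q)) p k := by
  have e : ∀ a b : ℝ, HasFDerivAt (fun p => ∫ t in Ioc a b, g (t, p))
      (∫ t in Ioc a b, fderiv ℝ (fun q => g (t, q)) p) p := fun a b =>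
    P284Y.Lib.hasFDerivAt_integral_param _ (isCompact_Icc (a := a) (b := b)) (by
      rw [Measure.restrict_apply measurableSet_Icc.compl,
        (disjoint_compl_left.mono_right Ioc_subset_Icc_self).inter_eq, measure_empty])
      (f := fun t p => g (t, p)) hg p
  have c : Continuous fun t => fderiv ℝ (fun q => g (t, q)) p :=
    (P284Y.Lib.contDiff_fderiv_snd (f := fun t p => g (t, p)) hg).continuous.comp
      (Continuous.prodMk_left p)
  refine (congrArg (· k) ((e a b).sub (e b a)).fderiv).trans ?_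
  exact ContinuousLinearMap.intervalIntegral_apply (c.intervalIntegrable a b) k

omit [FiniteDimensional ℝ P] in
/-- A homogeneous function is smooth if its product with the weight is. -/
theorem sm_of_χ {H : P × V → ℂ} (h0 : ∀ (c : ℝ), 0 < c → ∀ p ξ, H (p, (c : ℂ) • ξ) = H (p, ξ))
    (h : ContDiff ℝ ∞ fun x : P × V => χ x.2 * H x) : ContDiffOn ℝ ∞ H {x | x.2 ≠ 0} := by
  have a : ContDiffOn ℝ ∞ (fun x : P × V => (√(N x.2))⁻¹) {x | x.2 ≠ 0} :=
    ((N_sm.comp contDiff_snd).contDiffOn.sqrt fun _ a => (N_pos a).ne').inv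
      fun _ a => (Real.sqrt_pos.2 (N_pos a)).ne'
  refine (h.comp_contDiffOn (contDiffOn_fst.prodMk (a.smul contDiffOn_snd))).congr fun x hx => ?_
  simp only [Function.comp_apply, Pi.smul_apply', ← Complex.coe_smul]
  rw [χ_one (ex_unit hx), h0 _ (inv_pos.2 (Real.sqrt_pos.2 (N_pos hx)))]
  simp

theorem JS.int_sm {F : ℝ × P → S s} (h : JS F) (a b : ℝ) :
    ContDiffOn ℝ ∞ (fun x : P × V => ∫ t in a..b, F (t, x.1) x.2) {x | x.2 ≠ 0} := by
  refine sm_of_χ (fun c hc p ξ => by simp only [(F _).is.hom c hc]) ?_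
  simp only [← intervalIntegral.integral_const_mul]
  exact sm_int (g := fun y : ℝ × P × V => P354BO.gl (F (y.1, y.2.1)) y.2.2)
    (h.gl.comp (f := fun y : ℝ × P × V => ((y.1, y.2.1), y.2.2)) (by fun_prop)) a b

theorem JS.isSec_int {v : ℝ → S s} (h : JS v) (a b : ℝ) : IsSec s fun ξ => ∫ t in a..b, v t ξ :=
  ⟨((h.comp (contDiff_fst (F := ℝ))).int_sm a b).comp (contDiff_prodMk_right 0).contDiffOn
    fun _ a => a, by simp [(v _).is.zero], fun c hc ξ => by simp only [(v _).is.hom c hc],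
    fun ψ ξ => by simp only [(v _).is.wt, intervalIntegral.integral_const_mul]⟩

open Classical in
/-- The integral of a family. -/
noncomputable def iS (a b : ℝ) (v : ℝ → S s) : S s :=
  if h : JS v then S.of _ (h.isSec_int a b) else 0

theorem JS.iS_app {v : ℝ → S s} (h : JS v) (a b : ℝ) (ξ : V) : iS a b v ξ = ∫ t in a..b, v t ξ := by
  rw [iS, dif_pos h, of_app]

theorem JS.iS {F : ℝ × P → S s} (h : JS F) (a b : ℝ) : JS fun p => iS a b fun t => F (t, p) :=
  (h.int_sm a b).congr fun x _ => (h.comp (contDiff_prodMk_left x.1)).iS_app a b x.2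

theorem int_prod {E : Type} [NormedAddCommGroup E] {g : ℝ × V → E} (hc : Continuous g)
    (h0 : ∀ x, x.2 ∉ K → g x = 0) (a b : ℝ) :
    Integrable g ((volume.restrict (uIoc a b)).prod volume) := by
  rw [Measure.restrict_prod_eq_prod_univ]
  refine (hc.continuousOn.integrableOn_compact ((isCompact_uIcc (a := a) (b := b)).prod
    K_cpt)).of_forall_sdiff_eq_zero (measurableSet_uIoc.prod MeasurableSet.univ) fun x hx =>
      h0 x fun c => hx.2 ⟨uIoc_subset_uIcc hx.1.1, c⟩

theorem JS.inner_iS {v : ℝ → S s} (h : JS v) (a b : ℝ) (u : S s) :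
    ⟪u, P354BO.iS a b v⟫_ℂ = ∫ t in a..b, ⟪u, v t⟫_ℂ := by
  simp only [inner_def]
  rw [intervalIntegral_integral_swap (int_prod (((Complex.continuous_conj.comp
    (gl_sm u).continuous).comp continuous_snd).mul h.gl.continuous) (fun x a => by
      simp [gl_out u a]) a b)]
  simp only [P354BO.gl, h.iS_app, intervalIntegral.integral_const_mul]

theorem JS.fderiv_iS {F : ℝ × P → S s} (h : JS F) (a b : ℝ) (p k : P) :
    _root_.fderiv ℝ (fun p => P354BO.iS a b fun t => F (t, p)) p k =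
      P354BO.iS a b fun t => _root_.fderiv ℝ F (t, p) (0, k) := by
  refine ext_inner_left ℂ fun u => ?_
  have e : ∀ {Q : Type} [NormedAddCommGroup Q] [NormedSpace ℝ Q] {G : Q → S s} {q : Q},
      DifferentiableAt ℝ G q → ∀ k, _root_.fderiv ℝ (fun q => ⟪u, G q⟫_ℂ) q k =
        ⟪u, _root_.fderiv ℝ G q k⟫_ℂ := fun a k =>
    congrArg (· k) (((innerSL ℂ u).restrictScalars ℝ).hasFDerivAt.comp _ a.hasFDerivAt).fderiv
  rw [← e ((h.iS a b).differentiable p), ((h.fderiv (0, k)).comp
    (contDiff_prodMk_left p)).inner_iS]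
  simp only [fun p => (h.comp (contDiff_prodMk_left p)).inner_iS a b u]
  rw [der_int (g := fun x => ⟪u, F x⟫_ℂ) (((innerSL ℂ u).restrictScalars ℝ).contDiff.comp
    h.contDiff)]
  refine intervalIntegral.integral_congr fun t _ => ?_
  have := (h.differentiable (t, p)).hasFDerivAt.comp p (hasFDerivAt_prodMk_right t p)
  exact (e this.differentiableAt k).trans (congrArg (⟪u, · k⟫_ℂ) this.fderiv)

end Vale.Agent.P354BO
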