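import Vale.Agent.P354BO.Hat
import Vale.Agent.P354XT.Mode
import Vale.Agent.P354XI.Inst
import Vale.Agent.P354XR.Su
import Vale.Agent.P354XD.Fun

/-!
The ring of smooth functions of (t, r, xi) as a ring of fields.
-/

open scoped ContDiff InnerProductSpace ComplexConjugate Topology
open Complex (I)
open MeasureTheory Set Filter

namespace Vale.Agent.P354BO

open P354XG P354XI P354XD P354XR
open P354XT hiding d1

instance haar6 : (volume : Measure E6).IsAddHaarMeasure :=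
  have : (volume : Measure (ℝ × V)).IsAddHaarMeasure := Measure.prod.instIsAddHaarMeasure _ _
  Measure.prod.instIsAddHaarMeasure _ _

/-- The projection to (t, r). -/
def tr (x : E6) : ℝ × ℝ := (x.1, x.2.1)

theorem tr_sm : ContDiff ℝ ∞ tr := contDiff_fst.prodMk contDiff_snd.fst

/-- The domain over U. -/
def cyl (U : Set (ℝ × ℝ)) : Set E6 := {x | tr x ∈ U ∧ x.2.2 ≠ 0}

/-- The ring and the chart. -/
abbrev Rg (U : Set (ℝ × ℝ)) : Type := Sm (on (cyl U))
noncomputable abbrev kp (U : Set (ℝ × ℝ)) : Hp (Rg U) := hp (on (cyl U))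

variable {U : Set (ℝ × ℝ)}

/-- Functions of (t, r). -/
noncomputable def fz (U : Set (ℝ × ℝ)) (φ : ℝ × ℝ → ℝ) : Rg U := gm _ fun p => (φ (tr p.2) : ℂ)

/-- The density. -/
noncomputable def be (U : Set (ℝ × ℝ)) : Rg U := gm _ fun p => (χ p.2.2.2 : ℂ) ^ 2

/-- The sections of spin s. -/
def Sec (U : Set (ℝ × ℝ)) (s : ℤ) : Submodule ℂ (Rg U) where
  carrier := {u | (kp U).H u = (s : ℂ) • u ∧ (kp U).B u = -((s : ℂ) • u)}
  add_mem' a b := by simp only [mem_ofPred, map_add, a.1, a.2, b.1, b.2, smul_add, neg_add, and_self]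
  zero_mem' := by simp
  smul_mem' z _ a := by
    simp only [mem_ofPred, Derivation.map_smul, a.1, a.2, smul_neg, smul_comm z, and_self]

theorem sec_mul {s : ℤ} {a u : Rg U} (h : (kp U).H a = 0) (h' : (kp U).B a = 0) (hu : u ∈ Sec U s) :
    a * u ∈ Sec U s :=
  ⟨by rw [D_mul, hu.1, h]; simp, by rw [D_mul, hu.2, h']; simp⟩

theorem cyl_open (hU : IsOpen U) : IsOpen (cyl U) :=
  (hU.preimage tr_sm.continuous).inter (isOpen_ne_fun continuous_snd.snd continuous_const)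

/-- The model. -/
noncomputable def fld (hU : IsOpen U) (s : ℤ) (f : ℝ → ℝ) : Fld (Rg U) where
  B := (box volume (cyl_open hU)).rew (be U)
  T := (kp U).d 0
  R := (kp U).d 1 - fz U (fun p => f p.2) • (kp U).d 0
  L := Om (kp U)
  w := ww (kp U)
  pr x := tr x.1.1
  Om := U
  fn := fz U
  Sp := Sec U s
  s := s
  f := f

theorem ev_rs {a : Rg U} {g : Unit × E6 → ℂ} (h : Rs a g) (x : cyl U) : evO x a = g ((), x) :=
  (fv_in a x.2).trans (ev_on h x.2)

theorem ev_alg (z : ℂ) (x : cyl U) : evO x (algebraMap ℂ (Rg U) z) = z := fv_alg z x.2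

theorem ev_smul (z : ℂ) (u : Rg U) (x : cyl U) : evO x (z • u) = z * evO x u := fv_smul z u x

theorem ev_z (i : Fin 6) (x : cyl U) : evO x ((kp U).z i) = zc i x := ev_rs (rs_z i) x

theorem fz_sm {φ : ℝ × ℝ → ℝ} (h : ContDiff ℝ ∞ φ) : ContDiff ℝ ∞ fun x => (φ (tr x) : ℂ) :=
  Complex.ofRealCLM.contDiff.comp (h.comp tr_sm)

theorem ev_fz {φ : ℝ × ℝ → ℝ} (h : ContDiff ℝ ∞ φ) (x : cyl U) : evO x (fz U φ) = φ (tr x) :=
  ev_rs (rs_gm (f := fun p => (φ (tr p.2) : ℂ))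
    (Eventually.of_forall fun _ => (fz_sm h).contDiffAt)) x

theorem be_sm : ContDiff ℝ ∞ fun x : E6 => (χ x.2.2 : ℂ) ^ 2 :=
  (Complex.ofRealCLM.contDiff.comp (χ_sm.comp contDiff_snd.snd)).pow 2

theorem ev_be (x : cyl U) : evO x (be U) = (χ x.1.2.2 : ℂ) ^ 2 :=
  ev_rs (g := fun p => (χ p.2.2.2 : ℂ) ^ 2) (rs_gm (Eventually.of_forall fun p =>
    show ContDiffAt ℝ ∞ (fun x : E6 => (χ x.2.2 : ℂ) ^ 2) p.2 from be_sm.contDiffAt)) x

/-- The directions of the five letters. -/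
noncomputable def vec (f : ℝ → ℝ) (x : E6) : Fin 5 → E6 :=
  ![(1, 0, 0), (-f x.2.1, 1, 0), (0, 0, A 0 x.2.2), (0, 0, A 1 x.2.2), (0, 0, A 2 x.2.2)]

variable (hU : IsOpen U)
include hU

theorem ext_ev {a b : Rg U} (h : ∀ x : cyl U, evO x a = evO x b) : a = b :=
  ext_fv (cyl_open hU) fun x hx => h ⟨x, hx⟩

theorem ev_d (i : Fin 6) (u : Rg U) (x : cyl U) : evO x ((kp U).d i u) =
    d1 i * fderiv ℝ (fv u) x (v1 i) + d2 i * fderiv ℝ (fv u) x (v2 i) := by
  rw [hp_d, map_add, map_mul, map_mul, ev_alg, ev_alg, ← fv_pd (cyl_open hU) _ u x.2,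
    ← fv_pd (cyl_open hU) _ u x.2]
  rfl

theorem ev_ver (u : Rg U) (x : cyl U) (η : V) : fderiv ℝ (fv u) x (0, 0, η) =
    η.1 * evO x ((kp U).d 2 u) + η.2 * evO x ((kp U).d 3 u) +
      conj η.1 * evO x ((kp U).d 4 u) + conj η.2 * evO x ((kp U).d 5 u) := by
  have e : ((0, 0, η) : E6) = η.1.re • v1 2 + η.1.im • v2 2 + η.2.re • v1 3 + η.2.im • v2 3 := by
    simp [v1, v2]
  rw [e]
  simp only [map_add, map_smul, ev_d hU, show v1 4 = v1 2 from rfl, show v1 5 = v1 3 from rfl,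
    show v2 4 = v2 2 from rfl, show v2 5 = v2 3 from rfl]
  apply Complex.ext <;> simp [d1, d2] <;> ring

theorem ev_Om (j : Fin 3) (u : Rg U) (x : cyl U) :
    evO x (Om (kp U) j u) = fderiv ℝ (fv u) x (0, 0, A j x.1.2.2) := by
  have a : evO x (Geo.hf (Rg U)) = 1 / 2 := ev_alg _ x
  have b : evO x (ii (Rg U)) = I := ev_alg _ x
  rw [ev_ver hU]
  induction j using fin3 <;> simp [Om, A0, A1, A2, a, b, ev_z, zc, map_ofNat] <;> ring

theorem ev_HB (c : ℂ) (u : Rg U) (x : cyl U) : fderiv ℝ (fv u) x (0, 0, c • x.1.2.2) =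
    c * evO x ((kp U).H u) + conj c * evO x ((kp U).B u) := by
  rw [ev_ver hU]
  simp [Hp.H_ap, Hp.B_ap, ev_z, zc]
  ring

theorem ev_X (s : ℤ) {f : ℝ → ℝ} (hf : ContDiff ℝ ∞ f) (a : Fin 5) (u : Rg U) (x : cyl U) :
    evO x ((fld hU s f).X a u) = fderiv ℝ (fv u) x (vec f x a) := by
  fin_cases a
  · exact (ev_d hU 0 u x).trans (by simp [d1, d2, v1, vec, Prod.mk_zero_zero])
  · have e : vec f x 1 = v1 1 - f x.1.2.1 • v1 0 := by simp [vec, v1, Prod.mk_zero_zero]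
    refine Eq.trans ?_ (congrArg _ e.symm)
    simp [Fld.X, fld, ev_d hU, ev_fz (φ := fun p => f p.2) (hf.comp contDiff_snd), d1, d2, tr]
  exacts [ev_Om hU 0 u x, ev_Om hU 1 u x, ev_Om hU 2 u x]

theorem der_of {a : Rg U} {g : E6 → ℂ} (h : ∀ x : cyl U, evO x a = g x) (x : cyl U) :
    fderiv ℝ (fv a) x = fderiv ℝ g x :=
  Filter.EventuallyEq.fderiv_eq (((cyl_open hU).eventually_mem x.2).mono fun y hy => h ⟨y, hy⟩)

theorem der_fz {φ : ℝ × ℝ → ℝ} (h : ContDiff ℝ ∞ φ) (x : cyl U) (v : E6) :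
    fderiv ℝ (fv (fz U φ)) x v = fderiv ℝ φ (tr x) (tr v) := by
  rw [der_of hU (g := fun x => (φ (tr x) : ℂ)) (ev_fz h)]
  exact congrArg (· v) (Complex.ofRealCLM.hasFDerivAt.comp x.1 ((h.differentiable (by simp)
    (tr x)).hasFDerivAt.comp x.1 (f := tr) (hasFDerivAt_fst.prodMk
      (hasFDerivAt_snd (𝕜 := ℝ) (p := x.1)).fst))).fderiv

theorem der_be (x : cyl U) (v : E6) :
    fderiv ℝ (fv (be U)) x v = 2 * χ x.1.2.2 * fderiv ℝ χ x.1.2.2 v.2.2 := by
  rw [der_of hU (g := fun x => (χ x.2.2 : ℂ) ^ 2) ev_be]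
  refine (congrArg (· v) ((Complex.ofRealCLM.hasFDerivAt.comp x.1 ((χ_sm.differentiable (by simp)
    x.1.2.2).hasFDerivAt.comp x.1 (hasFDerivAt_snd (𝕜 := ℝ) (p := x.1)).snd)).pow 2).fderiv).trans ?_
  simp

theorem d_fz {φ : ℝ × ℝ → ℝ} (h : ContDiff ℝ ∞ φ) (i : Fin 4) :
    (kp U).d i.succ.succ (fz U φ) = 0 := ext_ev hU fun x => by
  rw [ev_d hU, der_fz hU h, der_fz hU h]
  fin_cases i <;> simp [v1, v2, tr, Prod.mk_zero_zero]

theorem H_fz {φ : ℝ × ℝ → ℝ} (h : ContDiff ℝ ∞ φ) :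
    (kp U).H (fz U φ) = 0 ∧ (kp U).B (fz U φ) = 0 := by
  have a := d_fz hU h 0
  have b := d_fz hU h 1
  have c := d_fz hU h 2
  have d := d_fz hU h 3
  simp only [Fin.reduceSucc, Fin.succ_zero_eq_one, Fin.succ_one_eq_two] at a b c d
  simp [Hp.H_ap, Hp.B_ap, a, b, c, d]

omit hU in
theorem dv_sub {A : Type} [CommRing A] [Algebra ℂ A] {B : Ibp A} {D D' : Der A} {d d' : A}
    (h : B.Dv D d) (h' : B.Dv D' d') : B.Dv (D - D') (d - d') :=
  ⟨fun f hf => B.K.sub_mem (h.K_D f hf) (h'.K_D f hf), fun f hf => by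
    rw [Derivation.sub_apply, map_sub, h.ibp f hf, h'.ibp f hf, sub_mul, map_sub]
    ring⟩

theorem dv_d (i : Fin 6) : (box volume (cyl_open hU)).Dv ((kp U).d i) 0 :=
  (((box_skew volume _ (v1 i)).dv.smul _).add ((box_skew volume _ (v2 i)).dv.smul _)).congr
    (by simp)

theorem kp_is (hr : ∀ z ∈ U, z.2 ≠ 0) : (kp U).Is :=
  hp_is (on_of (cyl_open hU) fun _ hx => ⟨hr _ hx.1, hx.2⟩)

theorem fld_is (hr : ∀ z ∈ U, z.2 ≠ 0) (s : ℤ) {f : ℝ → ℝ} (hf : ContDiff ℝ ∞ f) :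
    (fld hU s f).Is := by
  have h := kp_is hU hr
  have k := h.kc
  have hf' : ContDiff ℝ ∞ fun p : ℝ × ℝ => f p.2 := hf.comp contDiff_snd
  have re : ∀ φ, ContDiff ℝ ∞ φ → cj (fz U φ) = fz U φ := fun φ a => ext_ev hU fun x =>
    (fv_cj _ _).trans ((congrArg conj (ev_fz a x)).trans ((Complex.conj_ofReal _).trans
      (ev_fz a x).symm))
  have df : ∀ φ : ℝ × ℝ → ℝ, ContDiff ℝ ∞ φ → ∀ v, ContDiff ℝ ∞ v →
      ContDiff ℝ ∞ fun p : ℝ × ℝ => fderiv ℝ φ p (v p) := fun φ a v b =>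
    (a.fderiv_right (m := ∞) le_rfl).clm_apply b
  have Lf : ∀ φ, ContDiff ℝ ∞ φ → ∀ i, Om (kp U) i (fz U φ) = 0 := fun φ a i =>
    ext_ev hU fun x => by rw [ev_Om hU, der_fz hU a]; simp [tr, Prod.mk_zero_zero]
  have T0 : (kp U).d 0 (fz U fun p => f p.2) = 0 := ext_ev hU fun x => by
    rw [ev_d hU, der_fz hU hf', der_fz hU hf', show fderiv ℝ (fun p : ℝ × ℝ => f p.2) (tr x) = _ from
      ((hf.differentiable (by simp) _).hasFDerivAt.comp (tr x) (f := Prod.snd) hasFDerivAt_snd).fderiv]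
    simp [v1, v2, tr]
  have R : ∀ u, (fld hU s f).R u = (kp U).d 1 u - fz U (fun p => f p.2) * (kp U).d 0 u :=
    fun u => by simp [fld]
  have s0 : (box volume (cyl_open hU)).Skew ((kp U).d 0) := ⟨dv_d hU 0, h.c0⟩
  have z := fun i j => (dv_d hU i).smul ((kp U).z j)
  refine
    { B := (box_is volume _).rew (ext_ev hU fun x => (fv_cj _ _).trans ((congrArg conj
          (ev_be x)).trans (by rw [map_pow, Complex.conj_ofReal, ev_be]))) fun x => by
          rw [Ibp.val, show (box volume (cyl_open hU)).ev x (be U) = _ from ev_be x,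
            ← Complex.ofReal_pow, Complex.ofReal_re]
          exact sq_nonneg _
      sk := fun a => Ibp.Skew.rew ?_ (ext_ev hU fun x => by
        rw [ev_X hU s hf, der_be hU]
        fin_cases a <;> simp [vec, χ_A])
      sf := hf
      TR := fun u => ?_
      TL := fun i u => (Om_comm h i u).1
      RL := fun i u => ?_
      LL := Om_Om h
      wre := fun i => h.c_om i.succ
      Tw := fun i => (tw h i).1
      Rw := fun i => (R _).trans (by
        rw [show (fld hU s f).w i = ww (kp U) i from rfl, (tw h i).1, (tw h i).2.1]; simp)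
      Lw0 := fun i => (Om_ww h i).1
      Lw1 := fun i => (Om_ww h i).2.1
      Lw2 := fun i => (Om_ww h i).2.2
      one := (pw h).1
      spX := fun a u hu => ?_
      spw := fun i u hu => sec_mul (tw h i).2.2.2.2.1 (tw h i).2.2.2.2.2.1 hu
      spf := fun φ a u hu => sec_mul (H_fz hU a).1 (H_fz hU a).2 hu
      spin := fun u hu => (spin h u).trans (ext_ev hU fun x => by
        simp only [Sp, hu.1, hu.2, map_neg, map_mul, map_sub, ii, P354XG.Geo.hf, ev_alg, ev_smul, fld]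
        push_cast
        ring)
      ev := fun φ a x => ev_fz a x.1
      re := re
      add := fun φ ψ a b => ext_ev hU fun x => (ev_fz (a.add b) x).trans (by
        simp only [fld, map_add, ev_fz a, ev_fz b, Complex.ofReal_add])
      mul := fun φ ψ a b => ext_ev hU fun x => (ev_fz (a.mul b) x).trans (by
        simp only [fld, map_mul, ev_fz a, ev_fz b, Complex.ofReal_mul])
      cst := fun c => ext_ev hU fun x => (ev_fz contDiff_const x).trans (ev_alg _ x).symm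
      Tf := fun φ a => ext_ev hU fun x => (ev_X hU s hf 0 _ x).trans
        ((der_fz hU a x _).trans (ev_fz (df φ a _ contDiff_const) x).symm)
      Rf := fun φ a => ext_ev hU fun x => (ev_X hU s hf 1 _ x).trans
        ((der_fz hU a x _).trans (ev_fz (df φ a _ (hf'.neg.prodMk contDiff_const)) x).symm)
      Lf := Lf
      cs := fun C hC sC F hF => ⟨(fun y : (ℝ × ℝ) × V => (y.1.1, y.1.2, y.2)) '' C ×ˢ K,
        (hC.prod K_cpt).image (by fun_prop), ?_, fun x hx => ?_⟩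
      loc := fun W hW a F hF x hx => ?_ }
  · fin_cases a
    · exact s0
    · exact ⟨(dv_sub (dv_d hU 1) (s0.smul (re _ hf') T0).dv).congr (sub_zero 0), fun u => by
        simp only [Fld.X, Fin.mk_one, Matrix.cons_val_one, Matrix.cons_val_zero, R, map_sub, map_mul]
        exact congrArg₂ (· - ·) (h.c1 u) (congrArg₂ (· * ·) (re _ hf') (h.c0 u))⟩
    · exact ⟨((dv_sub (dv_sub ((z 4 5).add (z 5 4)) (z 2 3)) (z 3 2)).smul _).congr
        (by simp [h.dz, Hp.D_hf, D_ii]), c_Om h 0⟩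
    · exact ⟨((dv_sub ((dv_sub (z 3 2) (z 2 3)).add (z 5 4)) (z 4 5)).smul _).congr
        (by simp [h.dz, Hp.D_hf]), c_Om h 1⟩
    · exact ⟨((dv_sub ((dv_sub (z 3 3) (z 2 2)).add (z 4 4)) (z 5 5)).smul _).congr
        (by simp [h.dz, Hp.D_hf, D_ii]), c_Om h 2⟩
  · rw [R, R]
    simp only [fld, D_sub, D_mul, T0, h.comm 0 1, mul_zero, add_zero]
  · rw [R, R]
    simp only [fld, D_sub, D_mul, Lf _ hf', Om_comm h i u, mul_zero, add_zero]
  · have c : ∀ D : Der (Rg U), (∀ v, (kp U).H (D v) = D ((kp U).H v)) →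
        (∀ v, (kp U).B (D v) = D ((kp U).B v)) → D u ∈ Sec U s := fun D a b =>
      ⟨by rw [a, hu.1, D.map_smul], by rw [b, hu.2, map_neg, D.map_smul]⟩
    have o := fun i => c _ (fun v => (Om_comm h i v).2.2.2.2.1) fun v => (Om_comm h i v).2.2.2.2.2
    fin_cases a
    · exact c _ k.H_T k.B_T
    · refine c (fld hU s f).R (fun v => ?_) fun v => ?_
      · rw [R, R, D_sub, D_mul, (H_fz hU hf').1, mul_zero, add_zero]
        exact congrArg₂ (· - ·) (k.H_R v) (congrArg _ (k.H_T v))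
      · rw [R, R, D_sub, D_mul, (H_fz hU hf').2, mul_zero, add_zero]
        exact congrArg₂ (· - ·) (k.B_R v) (congrArg _ (k.B_T v))
    exacts [o 0, o 1, o 2]
  · rintro _ ⟨y, hy, rfl⟩
    exact ⟨sC hy.1, K_ne hy.2⟩
  · refine (fv_mul _ _ x).trans ?_
    by_cases a : x ∈ cyl U
    · by_cases b : evO ⟨x, a⟩ (be U) = 0
      · exact mul_eq_zero_of_left b _
      · refine mul_eq_zero_of_right _ (hF ⟨⟨x, a⟩, b⟩ fun c => hx ⟨(tr x, x.2.2), ⟨c, ?_⟩, rfl⟩)
        by_contra d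
        exact b (by simp [ev_be, χ_out d])
    · rw [fv_out _ a, zero_mul]
  · refine (ev_X hU s hf a F x.1).trans ?_
    have b : ∀ᶠ y in 𝓝 x.1.1, (χ y.2.2 : ℂ) ^ 2 ≠ 0 :=
      be_sm.continuous.continuousAt.eventually_ne ((ev_be x.1).symm.trans_ne x.2)
    rw [Filter.EventuallyEq.fderiv_eq (f := fun _ => 0) (by
      filter_upwards [b, (cyl_open hU).eventually_mem x.1.2,
        (hW.preimage tr_sm.continuous).eventually_mem hx] with y b c d
      exact hF ⟨⟨y, c⟩, (ev_be ⟨y, c⟩).trans_ne b⟩ d)]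
    simp

/-- The radial field and the operator are those of the chart algebra of Kerr. -/
theorem R_kk (s : ℤ) (f : ℝ → ℝ) {p : Pm (Rg U)} (h1 : p.h1 = fz U fun z => f z.2) (j1 : p.j1 = 0) :
    (kk (kp U) p).R = (fld hU s f).R := by
  ext u
  rw [kk_R, h1, j1]
  simp [fld, Hp.kc]

theorem P_kk (hr : ∀ z ∈ U, z.2 ≠ 0) (s : ℤ) (f : ℝ → ℝ) {p : Pm (Rg U)} {M a : ℝ}
    (h1 : p.h1 = fz U fun z => f z.2) (j1 : p.j1 = 0) (hM : p.M = Ibp.rl _ M)
    (ha : p.a = Ibp.rl _ a) (σ : ℝ) {u : Rg U} (hu : u ∈ Sec U s) :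
    (fld hU s f).P σ s M a u = (kk (kp U) p).Pk (Ibp.rl _ σ) (Ibp.rl _ s) u := by
  have h := kp_is hU hr
  have e1 : (fld hU s f).r = (kp U).z 1 := ext_ev hU fun x =>
    (ev_fz (φ := fun z => id z.2) contDiff_snd x).trans ((ev_z 1 x).trans (by simp [zc, tr])).symm
  have e2 : ∀ v ∈ Sec U s, Sp (kp U) v = Ibp.rl _ s * v := fun v hv => by
    rw [Sp, hv.1, hv.2, Algebra.smul_def, Ibp.rl, Complex.ofReal_intCast]
    linear_combination (algebraMap ℂ (Rg U) s * v) * Geo.two_hf (A := Rg U)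
  have e3 := Cas_eq h u
  rw [e2 u hu, e2 _ (sec_mul (Ibp.D_rl _ _) (Ibp.D_rl _ _) hu), Cas] at e3
  have e4 := h.kc.hs
  have e5 : algebraMap ℂ (Rg U) (2 * (s : ℝ) * a * I) = 2 * Ibp.rl _ s * Ibp.rl _ a * ii _ := by
    simp only [map_mul, map_ofNat, Ibp.rl, ii]
  simp only [Fld.P, Fld.De, Fld.Kh, e1, e5, KC.Pk, KC.De, KC.W, R_kk hU s f h1 j1, kk_F2, F2_Om h,
    sq, Ibp.rl_mul, Ibp.rl_sub, Ibp.rl_two, Ibp.rl_one]
  simp only [kk, hM, ha, fld, ww_two, D_mul, D_num, Hp.kc] at e4 ⊢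
  linear_combination -e3 - Ibp.rl _ a * Ibp.rl _ a * (kp U).d 0 ((kp U).d 0 u) * e4

end Vale.Agent.P354BO
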