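import Vale.Agent.P354BO.TwO

/-!
The ring of smooth functions on an open set O, with the twisted chart, as a ring of fields.
-/

open scoped ContDiff ComplexConjugate Topology
open Complex (I)
open MeasureTheory Set Filter

namespace Vale.Agent.P354BO

open P354XG P354XI P354XD P354XR
open P354XT hiding d1

/-- Functions of (t, r), the density, and the sections of spin s. -/
noncomputable def fzO (O : Set E6) (φ : ℝ × ℝ → ℝ) : Sm (on O) := gm _ fun p => (φ (tr p.2) : ℂ)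
noncomputable def beO (O : Set E6) : Sm (on O) := gm _ fun p => (χ p.2.2.2 : ℂ) ^ 2
def SecO (O : Set E6) (s : ℤ) : Submodule ℂ (Sm (on O)) where
  carrier := {u | (hp (on O)).H u = (s : ℂ) • u ∧ (hp (on O)).B u = -((s : ℂ) • u)}
  add_mem' a b := by simp only [mem_ofPred, map_add, a.1, a.2, b.1, b.2, smul_add, neg_add, and_self]
  zero_mem' := by simp
  smul_mem' z _ a := by
    simp only [mem_ofPred, Derivation.map_smul, a.1, a.2, smul_neg, smul_comm z, and_self]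

variable {O : Set E6}

/-- The model. -/
noncomputable def fldO (hO : IsOpen O) (U : Set (ℝ × ℝ)) (s : ℤ) (f j : ℝ → ℝ) :
    Fld (Sm (on O)) where
  B := (box volume hO).rew (beO O)
  T := (kt O j).d 0
  R := (kt O j).d 1 - fzO O (fun p => f p.2) • (kt O j).d 0
  L := Om (kt O j)
  w := ww (kt O j)
  pr x := tr x.1.1
  Om := U
  fn := fzO O
  Sp := SecO O s
  s := s
  f := f

theorem fr1_fzO (f : ℝ → ℝ) : fr1 O (fun r => f r) = fzO O fun z => f z.2 := rfl

theorem secO_mul {s : ℤ} {a u : Sm (on O)} (h : (hp (on O)).H a = 0) (h' : (hp (on O)).B a = 0)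
    (hu : u ∈ SecO O s) : a * u ∈ SecO O s :=
  ⟨by rw [D_mul, hu.1, h]; simp, by rw [D_mul, hu.2, h']; simp⟩

theorem fv_fzO {φ : ℝ × ℝ → ℝ} (h : ContDiff ℝ ∞ φ) {x : E6} (hx : x ∈ O) :
    fv (fzO O φ) x = φ (tr x) :=
  (fv_in _ hx).trans (ev_on (rs_gm (G := on O) (f := fun p => (φ (tr p.2) : ℂ))
    (Eventually.of_forall fun p => show ContDiffAt ℝ ∞ (fun x : E6 => (φ (tr x) : ℂ)) p.2 from
      (fz_sm h).contDiffAt)) hx)

theorem fv_beO {x : E6} (hx : x ∈ O) : fv (beO O) x = (χ x.2.2 : ℂ) ^ 2 :=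
  (fv_in _ hx).trans (ev_on (rs_gm (G := on O) (f := fun p => (χ p.2.2.2 : ℂ) ^ 2)
    (Eventually.of_forall fun p => show ContDiffAt ℝ ∞ (fun x : E6 => (χ x.2.2 : ℂ) ^ 2) p.2 from
      be_sm.contDiffAt)) hx)

variable (hO : IsOpen O)
include hO

theorem fv_Om (i : Fin 3) (u : Sm (on O)) (x : O) :
    evO x (Om (hp (on O)) i u) = fderiv ℝ (fv u) x (0, 0, A i x.1.2.2) := by
  have a : evO x (Geo.hf _) = 1 / 2 := fv_alg _ x.2
  have b : evO x (ii _) = I := fv_alg _ x.2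
  have c : ∀ k, evO x ((hp (on O)).z k) = zc k x := fun k => fv_z k x.2
  rw [fd_all hO u x.2]
  change _ = ∑ k, _ * evO x _
  induction i using fin3 <;> simp [Fin.sum_univ_six, Om, A0, A1, A2, a, b, c, zc, map_ofNat] <;> ring

theorem d_fzO {φ : ℝ × ℝ → ℝ} (h : ContDiff ℝ ∞ φ) :
    (hp (on O)).d 0 (fzO O φ) = fzO O (fun p => fderiv ℝ φ p (1, 0)) ∧
    (hp (on O)).d 1 (fzO O φ) = fzO O (fun p => fderiv ℝ φ p (0, 1)) ∧
    (hp (on O)).d 2 (fzO O φ) = 0 ∧ (hp (on O)).d 3 (fzO O φ) = 0 ∧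
    (hp (on O)).d 4 (fzO O φ) = 0 ∧ (hp (on O)).d 5 (fzO O φ) = 0 := by
  have e : ∀ x ∈ O, ∀ v, fderiv ℝ (fv (fzO O φ)) x v = fderiv ℝ φ (tr x) (tr v) := fun x hx v => by
    rw [EventuallyEq.fderiv_eq (f := fun y => (φ (tr y) : ℂ))
      ((hO.eventually_mem hx).mono fun y hy => fv_fzO h hy)]
    exact congrArg (· v) (Complex.ofRealCLM.hasFDerivAt.comp x ((h.differentiable (by simp)
      (tr x)).hasFDerivAt.comp x (f := tr) (hasFDerivAt_fst.prodMk
        (hasFDerivAt_snd (𝕜 := ℝ) (p := x)).fst))).fderiv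
  have df := fun v => (h.fderiv_right (m := ∞) le_rfl).clm_apply (contDiff_const (c := v))
  refine ⟨?_, ?_, ?_, ?_, ?_, ?_⟩ <;> refine ext_fv hO fun x hx => ?_ <;>
    simp [fv_d hO _ _ hx, e x hx, fv_zero, fv_fzO (df _) hx, v1, v2, d1, d2, tr, Prod.mk_zero_zero]

theorem d_beO : (hp (on O)).d 0 (beO O) = 0 ∧ (hp (on O)).d 1 (beO O) = 0 ∧
    ∀ i, Om (hp (on O)) i (beO O) = 0 := by
  have e : ∀ x ∈ O, ∀ v, fderiv ℝ (fv (beO O)) x v = 2 * χ x.2.2 * fderiv ℝ χ x.2.2 v.2.2 :=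
    fun x hx v => by
    rw [EventuallyEq.fderiv_eq (f := fun y : E6 => (χ y.2.2 : ℂ) ^ 2)
      ((hO.eventually_mem hx).mono fun y hy => fv_beO hy)]
    refine (congrArg (· v) ((Complex.ofRealCLM.hasFDerivAt.comp x ((χ_sm.differentiable (by simp)
      x.2.2).hasFDerivAt.comp x (hasFDerivAt_snd (𝕜 := ℝ) (p := x)).snd)).pow 2).fderiv).trans ?_
    simp
  refine ⟨ext_fv hO fun x hx => ?_, ext_fv hO fun x hx => ?_, fun i => ext_fv hO fun x hx =>
    (fv_Om hO i _ ⟨x, hx⟩).trans ?_⟩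
  · simp [fv_d hO _ _ hx, e x hx, fv_zero, v1, d2, Prod.mk_zero_zero]
  · simp [fv_d hO _ _ hx, e x hx, fv_zero, v1, d2, Prod.mk_zero_zero]
  · simp [e x hx, fv_zero, χ_A]

theorem dv_dO (i : Fin 6) : (box volume hO).Dv ((hp (on O)).d i) 0 :=
  (((box_skew volume _ (v1 i)).dv.smul _).add ((box_skew volume _ (v2 i)).dv.smul _)).congr
    (by simp)

omit hO in
theorem dv_Om {A : Type} [CommRing A] [Algebra ℂ A] {B : Ibp A} {K : Hp A} (h : K.Is)
    (d : ∀ i, B.Dv (K.d i) 0) (i : Fin 3) : B.Dv (Om K i) 0 := by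
  have z := fun i j => (d i).smul (K.z j)
  fin_cases i
  · exact ((dv_sub (dv_sub ((z 4 5).add (z 5 4)) (z 2 3)) (z 3 2)).smul _).congr
      (by simp [h.dz, Hp.D_hf, D_ii])
  · exact ((dv_sub ((dv_sub (z 3 2) (z 2 3)).add (z 5 4)) (z 4 5)).smul _).congr
      (by simp [h.dz, Hp.D_hf])
  · exact ((dv_sub ((dv_sub (z 3 3) (z 2 2)).add (z 4 4)) (z 5 5)).smul _).congr
      (by simp [h.dz, Hp.D_hf, D_ii])

/-- Elements which vanish off a set whose part in the shell is compact. -/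
theorem memK (U : Set (ℝ × ℝ)) (s : ℤ) (f j : ℝ → ℝ) {C : Set E6} (hC : IsCompact C) (sC : C ⊆ O)
    {F : Sm (on O)} (h : ∀ x ∈ O, x.2.2 ∈ K → x ∉ C → χ x.2.2 ≠ 0 → fv F x = 0) :
    F ∈ (fldO hO U s f j).B.K := by
  refine ⟨C, hC, sC, fun x hx => (fv_mul _ _ x).trans ?_⟩
  by_cases a : x ∈ O
  · by_cases b : χ x.2.2 = 0
    · simp [fv_beO a, b]
    · rw [h x a (by_contra fun c => b (χ_out c)) hx b, mul_zero]
  · rw [fv_out _ a, zero_mul]

/-- The integral. -/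
theorem fldO_J (U : Set (ℝ × ℝ)) (s : ℤ) (f j : ℝ → ℝ) {F : Sm (on O)}
    (h : F ∈ (fldO hO U s f j).B.K) : (Integrable fun x => χ x.2.2 ^ 2 * (fv F x).re) ∧
      (fldO hO U s f j).B.J F = ∫ x, χ x.2.2 ^ 2 * (fv F x).re := by
  have e : ∀ x, (fv (beO O * F) x).re = χ x.2.2 ^ 2 * (fv F x).re := fun x => by
    by_cases a : x ∈ O
    · rw [fv_mul, fv_beO a, ← Complex.ofReal_pow, Complex.re_ofReal_mul]
    · simp [fv_out _ a]
  exact ⟨funext e ▸ (cs_int volume hO h).re, (box_J volume hO h).trans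
    (integral_congr_ae (Eventually.of_forall e))⟩

theorem fldO_is (k : ∀ x ∈ O, x.2.1 ≠ 0 ∧ x.2.2 ≠ 0) {U : Set (ℝ × ℝ)} (sU : cyl U ⊆ O) (s : ℤ)
    {f j : ℝ → ℝ} (hf : ContDiff ℝ ∞ f) (hj : ContDiff ℝ ∞ j) : (fldO hO U s f j).Is := by
  have t := twI hO k hj
  have h : (kt O j).Is := t.is
  have c := h.kc
  have eH : (kt O j).H = _ := t.H_eq
  have eB : (kt O j).B = _ := t.B_eq
  have da : ∀ u, (kt O j).d 0 u = _ ∧ (kt O j).d 1 u = _ ∧ (kt O j).d 2 u = _ ∧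
    (kt O j).d 3 u = _ ∧ (kt O j).d 4 u = _ ∧ (kt O j).d 5 u = _ := t.d_ap
  have oa : ∀ u, Om (kt O j) 0 u = _ ∧ Om (kt O j) 1 u = _ ∧ Om (kt O j) 2 u = _ := t.Om_eq
  have hf' : ContDiff ℝ ∞ fun p : ℝ × ℝ => f p.2 := hf.comp contDiff_snd
  have re : ∀ φ, ContDiff ℝ ∞ φ → cj (fzO O φ) = fzO O φ := fun φ a => ext_fv hO fun x hx => by
    rw [fv_cj, fv_fzO a hx, Complex.conj_ofReal]
  have df : ∀ φ : ℝ × ℝ → ℝ, ContDiff ℝ ∞ φ → ∀ v, ContDiff ℝ ∞ v →
      ContDiff ℝ ∞ fun p : ℝ × ℝ => fderiv ℝ φ p (v p) := fun φ a v b =>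
    (a.fderiv_right (m := ∞) le_rfl).clm_apply b
  have Lf : ∀ φ, ContDiff ℝ ∞ φ → ∀ i, Om (kt O j) i (fzO O φ) = 0 := fun φ a i => by
    fin_cases i <;> simp [Om, da, d_fzO hO a]
  have HB : ∀ φ, ContDiff ℝ ∞ φ → (hp (on O)).H (fzO O φ) = 0 ∧ (hp (on O)).B (fzO O φ) = 0 :=
    fun φ a => by simp [Hp.H_ap, Hp.B_ap, d_fzO hO a]
  have T0 : (kt O j).d 0 (fzO O fun p => f p.2) = 0 :=
    (d_fr1 hO (re_sm hf)).1 0 (by simp)
  have R : ∀ u, (fldO hO U s f j).R u = (kt O j).d 1 u - fzO O (fun p => f p.2) * (kt O j).d 0 u :=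
    fun u => by simp [fldO]
  have F2 : (hp (on O)).kc.F2 = (2 : Sm (on O)) • Om (hp (on O)) 2 := by
    ext u
    rw [F2_Om t.h, Derivation.smul_apply, smul_eq_mul]
  have dv : ∀ i, (box volume hO).Dv ((kt O j).d i) 0 := fun i => by
    have z := fun i a => (dv_dO hO i).smul a
    fin_cases i
    exacts [dv_dO hO 0, (dv_sub (dv_dO hO 1) ((F2 ▸ (dv_Om t.h (dv_dO hO) 2).smul 2).smul _)).congr
      (by simp [D_num, (kill t.dj).2.2.2.2.2]), (z 2 _).congr (by simp [t.tab]),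
      (z 3 _).congr (by simp [t.tab]), (z 4 _).congr (by simp [t.tab]),
      (z 5 _).congr (by simp [t.tab])]
  have s0 : (box volume hO).Skew ((kt O j).d 0) := ⟨dv 0, h.c0⟩
  obtain ⟨b0, b1, b2⟩ := d_beO hO
  refine
    { B := (box_is volume _).rew (ext_fv hO fun x hx => (fv_cj _ _).trans (by
          rw [fv_beO hx, map_pow, Complex.conj_ofReal])) fun x => by
          rw [Ibp.val, show (box volume hO).ev x (beO O) = _ from fv_beO x.2,
            ← Complex.ofReal_pow, Complex.ofReal_re]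
          exact sq_nonneg _
      sk := fun a => Ibp.Skew.rew ?_ ?_
      sf := hf
      TR := fun u => ?_
      TL := fun i u => (Om_comm h i u).1
      RL := fun i u => ?_
      LL := Om_Om h
      wre := fun i => h.c_om i.succ
      Tw := fun i => (tw h i).1
      Rw := fun i => (R _).trans (by
        rw [show (fldO hO U s f j).w i = ww (kt O j) i from rfl, (tw h i).1, (tw h i).2.1]; simp)
      Lw0 := fun i => (Om_ww h i).1
      Lw1 := fun i => (Om_ww h i).2.1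
      Lw2 := fun i => (Om_ww h i).2.2
      one := (pw h).1
      spX := fun a u hu => ?_
      spw := fun i u hu => secO_mul (eH ▸ (tw h i).2.2.2.2.1) (eB ▸ (tw h i).2.2.2.2.2.1) hu
      spf := fun φ a u hu => secO_mul (HB φ a).1 (HB φ a).2 hu
      spin := fun u hu => (spin h u).trans (by
        rw [Sp, eH, eB, hu.1, hu.2, Algebra.smul_def]
        simp only [fldO, map_neg, map_mul, Complex.ofReal_intCast, ii]
        linear_combination -(algebraMap ℂ _ I * algebraMap ℂ _ (s : ℂ) * u) * Geo.two_hf (A := Sm (on O)))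
      ev := fun φ a x => fv_fzO a x.1.2
      re := re
      add := fun φ ψ a b => ext_fv hO fun x hx => (fv_fzO (a.add b) hx).trans (by
        simp only [fldO, fv_add, fv_fzO a hx, fv_fzO b hx, Complex.ofReal_add])
      mul := fun φ ψ a b => ext_fv hO fun x hx => (fv_fzO (a.mul b) hx).trans (by
        simp only [fldO, fv_mul, fv_fzO a hx, fv_fzO b hx, Complex.ofReal_mul])
      cst := fun c => ext_fv hO fun x hx => (fv_fzO contDiff_const hx).trans (fv_alg _ hx).symm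
      Tf := fun φ a => (d_fzO hO a).1
      Rf := fun φ a => (R _).trans ?_
      Lf := Lf
      cs := fun C hC sC F hF => memK hO U s f j ((hC.prod K_cpt).image
        (f := fun y : (ℝ × ℝ) × V => (y.1.1, y.1.2, y.2)) (by fun_prop)) ?_ fun x a b c d =>
          hF ⟨⟨x, a⟩, (fv_beO a).trans_ne (by simpa using d)⟩ fun e => c ⟨(tr x, x.2.2), ⟨e, b⟩, rfl⟩
      loc := fun W hW a F hF x hx => ?_ }
  · fin_cases a
    · exact s0
    · exact ⟨(dv_sub (dv 1) (s0.smul (re _ hf') T0).dv).congr (sub_zero 0), fun u => by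
        simp only [Fld.X, Fin.mk_one, Matrix.cons_val_one, Matrix.cons_val_zero, R, map_sub, map_mul]
        exact congrArg₂ (· - ·) (h.c1 u) (congrArg₂ (· * ·) (re _ hf') (h.c0 u))⟩
    exacts [⟨dv_Om h dv 0, c_Om h 0⟩, ⟨dv_Om h dv 1, c_Om h 1⟩, ⟨dv_Om h dv 2, c_Om h 2⟩]
  · fin_cases a
    exacts [b0, (R _).trans (by rw [(da _).1, b0]; simp [kt, twi, F2, b1, b2]),
      (oa _).1.trans (by simp [b2]), (oa _).2.1.trans (by simp [b2]), (oa _).2.2.trans (b2 2)]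
  · rw [R, R]
    simp only [fldO, D_sub, D_mul, T0, h.comm 0 1, mul_zero, add_zero]
  · rw [R, R]
    simp only [fldO, D_sub, D_mul, Lf _ hf', Om_comm h i u, mul_zero, add_zero]
  · have e : ∀ D : Der (Sm (on O)), (∀ v, (kt O j).H (D v) = D ((kt O j).H v)) →
        (∀ v, (kt O j).B (D v) = D ((kt O j).B v)) → D u ∈ SecO O s := fun D a b =>
      ⟨by rw [← eH, a, eH, hu.1, D.map_smul], by rw [← eB, b, eB, hu.2, map_neg, D.map_smul]⟩
    have u1 : (kt O j).H (fzO O fun p => f p.2) = 0 := by rw [eH, (HB _ hf').1]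
    have u2 : (kt O j).B (fzO O fun p => f p.2) = 0 := by rw [eB, (HB _ hf').2]
    have o := fun i => e _ (fun v => (Om_comm h i v).2.2.2.2.1) fun v => (Om_comm h i v).2.2.2.2.2
    fin_cases a
    · exact e _ c.H_T c.B_T
    · refine e (fldO hO U s f j).R (fun v => ?_) fun v => ?_
      · rw [R, R, D_sub, D_mul, u1, mul_zero, add_zero]
        exact congrArg₂ (· - ·) (c.H_R v) (congrArg _ (c.H_T v))
      · rw [R, R, D_sub, D_mul, u2, mul_zero, add_zero]
        exact congrArg₂ (· - ·) (c.B_R v) (congrArg _ (c.B_T v))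
    exacts [o 0, o 1, o 2]
  · simp only [fldO, da, d_fzO hO a, mul_zero, sub_zero, add_zero]
    refine ext_fv hO fun x hx => ?_
    have e : ((-f (tr x).2, 1) : ℝ × ℝ) = (0, 1) - f (tr x).2 • (1, 0) := by simp
    rw [fv_fzO (df φ a _ (hf'.neg.prodMk contDiff_const)) hx, e, map_sub, map_smul]
    refine ((evO ⟨x, hx⟩).map_sub _ _).trans ?_
    change fv _ x - fv _ x = _
    simp [fv_mul, fv_fzO (df φ a _ contDiff_const) hx, fv_fzO hf' hx]
  · rintro _ ⟨y, hy, rfl⟩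
    exact sU ⟨sC hy.1, K_ne hy.2⟩
  · have b : ∀ᶠ y in 𝓝 x.1.1, (χ y.2.2 : ℂ) ^ 2 ≠ 0 :=
      be_sm.continuous.continuousAt.eventually_ne ((fv_beO x.1.2).symm.trans_ne x.2)
    have e : ∀ i, evO x.1 ((hp (on O)).d i F) = 0 := fun i => (fv_d hO i F x.1.2).trans (by
      rw [Filter.EventuallyEq.fderiv_eq (f := fun _ => 0) (by
        filter_upwards [b, hO.eventually_mem x.1.2,
          (hW.preimage tr_sm.continuous).eventually_mem hx] with y b c d
        exact hF ⟨⟨y, c⟩, (fv_beO c).trans_ne b⟩ d)]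
      simp)
    change evO x.1 _ = 0
    fin_cases a <;> simp [Fld.X, fldO, Om, da, e]

/-- The letters are those of the chart algebra of Kerr on the twisted chart. -/
theorem fldO_X (U : Set (ℝ × ℝ)) (s : ℤ) (f j : ℝ → ℝ) {p : Pm (Sm (on O))}
    (h1 : p.h1 = fr1 O fun r => f r) (j1 : p.j1 = 0) : (fldO hO U s f j).X =
      ![(kk (kt O j) p).T, (kk (kt O j) p).R, Om (kt O j) 0, Om (kt O j) 1, Om (kt O j) 2] := by
  have : (kk (kt O j) p).R = (fldO hO U s f j).R := by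
    ext u
    rw [kk_R, h1, j1, fr1_fzO]
    simp [fldO, Hp.kc]
  rw [this]
  rfl

theorem fldO_r (U : Set (ℝ × ℝ)) (s : ℤ) (f j : ℝ → ℝ) : (fldO hO U s f j).r = (kt O j).z 1 :=
  ext_fv hO fun x hx => (fv_fzO (φ := fun z => id z.2) contDiff_snd hx).trans
    ((fv_z 1 hx).trans (by simp [zc, tr])).symm

end Vale.Agent.P354BO
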