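import Vale.Agent.P354BO.Cap
import Vale.Agent.P354BO.Fam
import Vale.Agent.P354BF.Gen

/-!
Polynomial sections: finite dimensional invariant subspaces with dense union.
-/

open scoped ContDiff InnerProductSpace ComplexConjugate Topology Real
open Complex (I)
open MeasureTheory Set Filter

namespace Vale.Agent.P354BO

open P354BF

/-- Compactness and a dense union of invariant subspaces give Galerkin spaces. -/
theorem gal_of {S : Type} [NormedAddCommGroup S] [InnerProductSpace ℂ S] {A : Ang S} (h : A.Cap)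
    {W : ℕ → Submodule ℂ S} (mo : Monotone W) (fin : ∀ k, FiniteDimensional ℂ (W k))
    (inv : ∀ k i, ∀ u ∈ W k, A.L i u ∈ W k)
    (de : ∀ (u : S) (ε : ℝ), 0 < ε → ∃ k, ∃ v ∈ W k, ‖u - v‖ ≤ ε) : A.Gal := by
  have k : ∀ (l : S →L[ℂ] ℂ) (ε : ℝ), 0 < ε → ∀ᶠ k in atTop, ∀ u ∈ (W k)ᗮ, ‖l u‖ ≤ ε * ‖u‖ := by
    intro l ε hε
    obtain ⟨y, hy⟩ := (InnerProductSpace.toDual ℂ (UniformSpace.Completion S)).surjective
      (l.extend UniformSpace.Completion.toComplL)
    obtain ⟨x, hx⟩ := UniformSpace.Completion.denseRange_coe.exists_dist_lt y (half_pos hε)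
    obtain ⟨n, v, hv, e⟩ := de x _ (half_pos hε)
    filter_upwards [eventually_ge_atTop n] with k hk u hu
    have a : l u = ⟪y - x, (u : UniformSpace.Completion S)⟫_ℂ + ⟪x - v, u⟫_ℂ := by
      rw [inner_sub_left, inner_sub_left, hu v (mo hk hv), UniformSpace.Completion.inner_coe,
        sub_zero, sub_add_cancel, ← InnerProductSpace.toDual_apply_apply, hy]
      exact (l.extend_eq UniformSpace.Completion.denseRange_coe
        (UniformSpace.Completion.isUniformInducing_coe S) u).symm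
    have b := norm_inner_le_norm (𝕜 := ℂ) (y - x) (u : UniformSpace.Completion S)
    have c := norm_inner_le_norm (𝕜 := ℂ) (x - v) u
    rw [UniformSpace.Completion.norm_coe, ← dist_eq_norm] at b
    rw [a]
    refine (norm_add_le _ _).trans ?_
    nlinarith [norm_nonneg u]
  intro η hη
  obtain ⟨n, l, hl⟩ := h (η / 2) (half_pos hη)
  obtain ⟨m, hm⟩ := (eventually_all.2 fun j => k (l j) (1 / (2 * n + 1)) (by positivity)).exists
  refine ⟨W m, fin m, inv m, fun u hu => ?_⟩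
  have a : ∑ j, ‖l j u‖ ^ 2 ≤ ∑ _j : Fin n, (1 / (2 * n + 1) * ‖u‖) ^ 2 :=
    Finset.sum_le_sum fun j _ => pow_le_pow_left₀ (norm_nonneg _) (hm j u hu) 2
  have b : (n : ℝ) * (1 / (2 * n + 1)) ^ 2 ≤ 1 / 2 := by
    rw [div_pow, mul_div, div_le_iff₀ (by positivity)]
    nlinarith [sq_nonneg (n : ℝ), Nat.cast_nonneg (α := ℝ) n]
  simp only [Finset.sum_const, Finset.card_univ, Fintype.card_fin, nsmul_eq_mul, mul_pow,
    ← mul_assoc] at a
  nlinarith [hl u, mul_le_mul_of_nonneg_right b (sq_nonneg ‖u‖)]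

/-- The coordinates and their conjugates. -/
noncomputable def cd : Fin 4 → V →L[ℝ] ℂ :=
  ![.fst ℝ ℂ ℂ, .snd ℝ ℂ ℂ, Complex.conjCLE.toContinuousLinearMap ∘L .fst ℝ ℂ ℂ,
    Complex.conjCLE.toContinuousLinearMap ∘L .snd ℝ ℂ ℂ]

/-- The weights of the coordinates. -/
def sg : Fin 4 → ℤ := ![1, 1, -1, -1]

theorem cd_wt (p : Fin 4) (ψ : ℝ) (ξ : V) :
    cd p (Complex.exp (I * ψ / 2) • ξ) = Complex.exp (I * sg p / 2 * ψ) * cd p ξ := by
  fin_cases p <;> simp [cd, sg, ← Complex.exp_conj, map_ofNat] <;> left <;> ring_nf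

theorem cd_A (p : Fin 4) (i : Fin 3) : ∃ (c : ℂ) (q : Fin 4), ∀ ξ, cd p (A i ξ) = c * cd q ξ := by
  induction i using fin3 <;> fin_cases p <;> simp only [A0, A1, A2]
  exacts [⟨_, 1, fun _ => rfl⟩, ⟨_, 0, fun _ => rfl⟩, ⟨_, 3, fun _ => map_mul conj _ _⟩,
    ⟨_, 2, fun _ => map_mul conj _ _⟩, ⟨_, 1, fun _ => rfl⟩, ⟨_, 0, fun _ => rfl⟩,
    ⟨_, 3, fun _ => map_mul conj _ _⟩, ⟨_, 2, fun _ => map_mul conj _ _⟩, ⟨_, 0, fun _ => rfl⟩,
    ⟨_, 1, fun _ => rfl⟩, ⟨_, 2, fun _ => map_mul conj _ _⟩, ⟨_, 3, fun _ => map_mul conj _ _⟩]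

/-- Monomials. -/
noncomputable def mon : List (Fin 4) → V → ℂ
  | [] => 1
  | p :: l => ⇑(cd p) * mon l

theorem mon_append (l l' : List (Fin 4)) : mon (l ++ l') = mon l * mon l' := by
  induction l with
  | nil => exact (one_mul _).symm
  | cons p l ih => rw [List.cons_append, mon, mon, ih, mul_assoc]

theorem mon_sm (l : List (Fin 4)) : ContDiff ℝ ∞ (mon l) := by
  induction l with
  | nil => exact contDiff_const
  | cons p l ih => exact (cd p).contDiff.mul ih

theorem mon_wt (l : List (Fin 4)) (ψ : ℝ) (ξ : V) : mon l (Complex.exp (I * ψ / 2) • ξ) =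
    Complex.exp (I * ((l.map sg).sum : ℤ) / 2 * ψ) * mon l ξ := by
  induction l with
  | nil => simp [mon]
  | cons p l ih =>
    rw [mon, Pi.mul_apply, Pi.mul_apply, ih, cd_wt, mul_mul_mul_comm, ← Complex.exp_add]
    simp only [List.map_cons, List.sum_cons]
    push_cast
    ring_nf

/-- Polynomials of degree at most k. -/
noncomputable def Pol (k : ℕ) : Submodule ℂ (V → ℂ) := Submodule.span ℂ (mon '' {l | l.length ≤ k})

theorem mon_mem {l : List (Fin 4)} {k : ℕ} (h : l.length ≤ k) : mon l ∈ Pol k :=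
  Submodule.subset_span ⟨l, h, rfl⟩

theorem Pol_mono : Monotone Pol := fun _ _ h =>
  Submodule.span_mono (image_mono fun _ a => le_trans a h)

theorem Pol_mul {k k' : ℕ} {f g : V → ℂ} (hf : f ∈ Pol k) (hg : g ∈ Pol k') :
    f * g ∈ Pol (k + k') := by
  have := Submodule.mul_mem_mul hf hg
  rw [Pol, Pol, Submodule.span_mul_span] at this
  refine Submodule.span_le.2 ?_ this
  rintro _ ⟨_, ⟨l, a, rfl⟩, _, ⟨l', b, rfl⟩, rfl⟩
  exact (congrArg (· ∈ Pol (k + k')) (mon_append l l')).mp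
    (mon_mem (by rw [List.length_append]; exact add_le_add a b))

theorem Pol_sm {k : ℕ} {f : V → ℂ} (hf : f ∈ Pol k) : ContDiff ℝ ∞ f := by
  induction hf using Submodule.span_induction with
  | mem _ h => obtain ⟨l, -, rfl⟩ := h; exact mon_sm l
  | zero => exact contDiff_const
  | add _ _ _ _ a b => exact a.add b
  | smul c _ _ a => exact a.const_smul c

theorem cd_mem (p : Fin 4) : ⇑(cd p) ∈ Pol 1 := mul_one ⇑(cd p) ▸ mon_mem (l := [p]) le_rfl

theorem mon_D (i : Fin 3) (l : List (Fin 4)) :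
    (fun ξ => fderiv ℝ (mon l) ξ (A i ξ)) ∈ Pol l.length := by
  induction l with
  | nil => simp [mon, ← Pi.zero_def]
  | cons p l ih =>
    obtain ⟨c, q, e⟩ := cd_A p i
    have : (fun ξ => fderiv ℝ (mon (p :: l)) ξ (A i ξ)) =
        ⇑(cd p) * (fun ξ => fderiv ℝ (mon l) ξ (A i ξ)) + c • mon (q :: l) := funext fun ξ => by
      rw [mon, fderiv_mul (cd p).differentiableAt ((mon_sm l).differentiable (by simp) ξ)]
      simp [e, mon]
      ring
    rw [this]
    exact add_mem (by simpa only [add_comm 1, List.length_cons] using Pol_mul (cd_mem p) ih)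
      (Submodule.smul_mem _ _ (mon_mem le_rfl))

theorem Pol_D (i : Fin 3) {k : ℕ} {f : V → ℂ} (hf : f ∈ Pol k) :
    (fun ξ => fderiv ℝ f ξ (A i ξ)) ∈ Pol k := by
  induction hf using Submodule.span_induction with
  | mem _ h => obtain ⟨l, a, rfl⟩ := h; exact Pol_mono a (mon_D i l)
  | zero => simp [← Pi.zero_def]
  | add _ _ a b a' b' =>
    simp only [fun ξ => fderiv_add ((Pol_sm a).differentiable (by simp) ξ)
      ((Pol_sm b).differentiable (by simp) ξ)]
    exact add_mem a' b'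
  | smul c _ a a' =>
    simp only [fun ξ => fderiv_const_smul ((Pol_sm a).differentiable (by simp) ξ) c]
    exact Submodule.smul_mem _ c a'

/-- The unit sphere. -/
def Sph : Set V := {ξ | N ξ = 1}

theorem Sph_K : Sph ⊆ K := fun ξ h => by
  rw [K, mem_ofPred, show N ξ = 1 from h]
  norm_num

theorem weier (g : V → ℝ) (hg : Continuous g) {ε : ℝ} (hε : 0 < ε) :
    ∃ (k : ℕ) (f : V → ℝ), (fun ξ => (f ξ : ℂ)) ∈ Pol k ∧ ∀ ξ ∈ K, ‖f ξ - g ξ‖ < ε := by
  let B : Subalgebra ℝ C(V, ℝ) :=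
    { carrier := {f | ∃ k, (fun ξ => (f ξ : ℂ)) ∈ Pol k}
      mul_mem' := fun ⟨k, a⟩ ⟨k', b⟩ => ⟨k + k', by simpa [Pi.mul_def] using Pol_mul a b⟩
      add_mem' := fun ⟨k, a⟩ ⟨k', b⟩ => ⟨k + k', by
        simpa [Pi.add_def] using add_mem (Pol_mono le_self_add a) (Pol_mono le_add_self b)⟩
      algebraMap_mem' := fun c => ⟨0, by
        simpa [Pi.smul_def, mon] using Submodule.smul_mem _ (c : ℂ) (mon_mem (l := []) le_rfl)⟩ }
  have re : ∀ (p q : Fin 4) (z : ℂ), (∀ ξ, cd q ξ = conj (cd p ξ)) →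
      (⟨fun ξ => (z * cd p ξ).re, by fun_prop⟩ : C(V, ℝ)) ∈ B := fun p q z e => ⟨1, by
    have := add_mem (Submodule.smul_mem _ (z / 2) (cd_mem p))
      (Submodule.smul_mem _ (conj z / 2) (cd_mem q))
    refine (congrArg (· ∈ Pol 1) (funext fun ξ => ?_)).mp this
    show _ = ((z * cd p ξ).re : ℂ)
    simp only [Pi.add_apply, Pi.smul_apply, smul_eq_mul, e, Complex.re_eq_add_conj, map_mul]
    ring⟩
  obtain ⟨f, ⟨k, a⟩, b⟩ :=
    ContinuousMap.exists_mem_subalgebra_near_continuous_of_isCompact_of_separatesPoints (A := B)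
      (fun x y h => by
        by_contra c
        have e : ∀ f ∈ B, f x = f y := fun f hf => by_contra fun d => c ⟨f, ⟨f, hf, rfl⟩, d⟩
        refine h (Prod.ext (Complex.ext ?_ ?_) (Complex.ext ?_ ?_))
        · simpa [cd] using e _ (re 0 2 1 fun _ => rfl)
        · simpa [cd] using e _ (re 0 2 I fun _ => rfl)
        · simpa [cd] using e _ (re 1 3 1 fun _ => rfl)
        · simpa [cd] using e _ (re 1 3 I fun _ => rfl)) ⟨g, hg⟩ K_cpt hε
  exact ⟨k, f, a, b⟩

variable {s : ℤ}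

/-- The average with weight s. -/
noncomputable def av (s : ℤ) (f : V → ℂ) (ξ : V) : ℂ := (4 * π : ℝ)⁻¹ • ∫ ψ in (0 : ℝ)..4 * π,
  Complex.exp (-(I * s * ψ)) * f (Complex.exp (I * ψ / 2) • ξ)

theorem av_int {f : V → ℂ} (h : Continuous f) (ξ : V) : IntervalIntegrable
    (fun ψ : ℝ => Complex.exp (-(I * s * ψ)) * f (Complex.exp (I * ψ / 2) • ξ)) volume 0 (4 * π) :=
  Continuous.intervalIntegrable (by fun_prop) _ _

theorem av_pol {k : ℕ} {f : V → ℂ} (hf : f ∈ Pol k) : av s f ∈ Pol k ∧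
    ∀ (ψ : ℝ) ξ, av s f (Complex.exp (I * ψ / 2) • ξ) = Complex.exp (I * s * ψ) * av s f ξ := by
  induction hf using Submodule.span_induction with
  | mem _ h =>
    obtain ⟨l, a, rfl⟩ := h
    generalize hm : (l.map sg).sum = m
    have e : av s (mon l) = ((4 * π : ℝ)⁻¹ • ∫ ψ in (0 : ℝ)..4 * π,
        Complex.exp ((I * (m - 2 * s : ℤ) / 2) * ψ)) • mon l := funext fun ξ => by
      simp only [av, mon_wt, hm, ← mul_assoc, ← Complex.exp_add, Pi.smul_apply, smul_eq_mul,
        intervalIntegral.integral_mul_const, smul_mul_assoc]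
      push_cast
      ring_nf
    refine ⟨e ▸ Submodule.smul_mem _ _ (mon_mem a), fun ψ ξ => ?_⟩
    rw [e]
    rcases eq_or_ne (m - 2 * s) 0 with b | b
    · simp only [Pi.smul_apply, smul_eq_mul, mon_wt, hm, sub_eq_zero.1 b]
      push_cast
      ring_nf
    · rw [integral_exp_mul_complex (div_ne_zero (mul_ne_zero Complex.I_ne_zero
        (Int.cast_ne_zero.2 b)) two_ne_zero),
        show I * (m - 2 * s : ℤ) / 2 * (4 * π : ℝ) = (m - 2 * s : ℤ) * (2 * π * I) by push_cast; ring,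
        Complex.exp_int_mul_two_pi_mul_I]
      simp
  | zero =>
    rw [show av s 0 = 0 from funext fun _ => by simp [av]]
    exact ⟨zero_mem _, fun _ _ => (mul_zero _).symm⟩
  | add f g a b a' b' =>
    have e : av s (f + g) = av s f + av s g := funext fun ξ => by
      simp only [av, Pi.add_apply, mul_add, smul_add, intervalIntegral.integral_add
        (av_int (Pol_sm a).continuous ξ) (av_int (Pol_sm b).continuous ξ)]
    exact ⟨e ▸ add_mem a'.1 b'.1, fun ψ ξ => by simp only [e, Pi.add_apply, a'.2, b'.2, mul_add]⟩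
  | smul c f a a' =>
    have e : av s (c • f) = c • av s f := funext fun ξ => by
      simp only [av, Pi.smul_apply, smul_eq_mul, mul_left_comm _ c,
        intervalIntegral.integral_const_mul, mul_smul_comm]
    exact ⟨e ▸ Submodule.smul_mem _ _ a'.1, fun ψ ξ => by
      simp only [e, Pi.smul_apply, a'.2, smul_eq_mul, mul_left_comm]⟩

/-- The projection to the unit sphere. -/
noncomputable def nu (ξ : V) : V := (((√(N ξ))⁻¹ : ℝ) : ℂ) • ξ

theorem nu_sm : ContDiffOn ℝ ∞ nu {0}ᶜ :=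
  (Complex.ofRealCLM.contDiff.comp_contDiffOn ((N_sm.contDiffOn.sqrt fun _ a => (N_pos a).ne').inv
    fun _ a => (Real.sqrt_pos.2 (N_pos a)).ne')).smul contDiffOn_id

theorem nu_eq {ξ : V} (h : ξ ∈ Sph) : nu ξ = ξ := by simp [nu, show N ξ = 1 from h]

theorem S.nu (u : S s) {ξ : V} (h : ξ ≠ 0) : u (nu ξ) = u ξ :=
  u.is.hom _ (inv_pos.2 (Real.sqrt_pos.2 (N_pos h))) ξ

theorem nu_smul (z : ℂ) (ξ : V) : nu (z • ξ) = (z / ‖z‖) • nu ξ := by
  rw [nu, nu, N_smul, Real.sqrt_mul (sq_nonneg _), Real.sqrt_sq (norm_nonneg _), smul_smul,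
    smul_smul]
  push_cast
  ring_nf

open Classical in
/-- The section with given values on the unit sphere. -/
noncomputable def toS (f : V → ℂ) (hf : ContDiff ℝ ∞ f)
    (hw : ∀ (ψ : ℝ) ξ, f (Complex.exp (I * ψ / 2) • ξ) = Complex.exp (I * s * ψ) * f ξ) : S s :=
  S.of (fun ξ => if ξ = 0 then 0 else f (nu ξ)) ⟨(hf.comp_contDiffOn nu_sm).congr
    fun _ h => if_neg h, if_pos rfl, fun c hc ξ => by
      have : (c : ℂ) ≠ 0 := by exact_mod_cast hc.ne'
      simp only [nu_smul, smul_eq_zero, this, false_or, Complex.norm_real, Real.norm_eq_abs,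
        abs_of_pos hc, div_self this, one_smul], fun ψ ξ => by
      have : ‖Complex.exp (I * ψ / 2)‖ = 1 := by simp [Complex.norm_exp]
      simp [nu_smul, this, hw]⟩

/-- The restriction to the unit sphere. -/
noncomputable def res : (V → ℂ) →ₗ[ℂ] Sph → ℂ := LinearMap.funLeft ℂ ℂ Subtype.val

/-- The restriction of a section to the unit sphere. -/
noncomputable def rs (s : ℤ) : S s →ₗ[ℂ] Sph → ℂ where
  toFun u ξ := u ξ
  map_add' _ _ := rfl
  map_smul' _ _ := rfl

/-- The polynomial sections of degree at most k. -/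
noncomputable def PS (s : ℤ) (k : ℕ) : Submodule ℂ (S s) :=
  ((Pol k).map res).comap (rs s)

theorem mem_PS {k : ℕ} {u : S s} : u ∈ PS s k ↔ ∃ p ∈ Pol k, ∀ ξ ∈ Sph, p ξ = u ξ :=
  ⟨fun ⟨p, a, b⟩ => ⟨p, a, fun ξ h => congrFun b ⟨ξ, h⟩⟩,
    fun ⟨p, a, b⟩ => ⟨p, a, funext fun ξ => b ξ ξ.2⟩⟩

theorem PS_fin (s : ℤ) (k : ℕ) : FiniteDimensional ℂ (PS s k) := by
  have : FiniteDimensional ℂ (Pol k) :=
    FiniteDimensional.span_of_finite ℂ ((List.finite_length_le _ k).image _)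
  refine FiniteDimensional.of_injective (((rs s).domRestrict (PS s k)).codRestrict
    ((Pol k).map res) fun x => x.2) fun u v h => Subtype.ext (S.ext fun ξ a => ?_)
  rw [← u.1.nu a, ← v.1.nu a]
  exact congrFun (congrArg Subtype.val h) ⟨nu ξ, ex_unit a⟩

theorem PS_inv {k : ℕ} (i : Fin 3) {u : S s} (h : u ∈ PS s k) : L i u ∈ PS s k := by
  obtain ⟨p, a, b⟩ := mem_PS.1 h
  refine mem_PS.2 ⟨_, Pol_D i a, fun ξ c => ?_⟩
  have h0 := K_ne (Sph_K c)
  obtain ⟨D, d, e⟩ := ip_der (M := ContinuousLinearMap.id ℝ V) ξ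
  have f := Complex.reCLM.hasFDerivAt.comp ξ d
  rw [show (Complex.reCLM ∘ fun x => ip x (ContinuousLinearMap.id ℝ V x)) = N from
    funext fun x => by simp [ip_self]] at f
  have g := (Complex.ofRealCLM.hasFDerivAt.comp ξ ((hasFDerivAt_inv' (𝕜 := ℝ) (Real.sqrt_pos.2
    (N_pos h0)).ne').comp ξ (f := fun x => √(N x)) (f.sqrt (N_pos h0).ne'))).smul
      (hasFDerivAt_id ξ)
  have j := (((Pol_sm a).differentiable (by simp) (nu ξ)).hasFDerivAt.comp ξ
    (f := nu) g).congr_of_eventuallyEq (f₁ := u) (by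
      filter_upwards [isOpen_compl_singleton.mem_nhds h0] with x hx
      exact ((b _ (ex_unit hx)).trans (u.nu hx)).symm)
  rw [L_app, j.fderiv, nu_eq c]
  simp [e, ip_A, show N ξ = 1 from c]

theorem PS_dense (u : S s) (ε : ℝ) (hε : 0 < ε) : ∃ k, ∃ v ∈ PS s k, ‖u - v‖ ≤ ε := by
  obtain ⟨C, hC, hs⟩ := norm_le_sup
  have h0 : 0 < ε / C / 2 := by positivity
  obtain ⟨k, f, a, a'⟩ := weier _ (Complex.continuous_re.comp (gl_sm u).continuous) h0
  obtain ⟨k', g, b, b'⟩ := weier _ (Complex.continuous_im.comp (gl_sm u).continuous) h0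
  have c := add_mem (Pol_mono le_self_add a) (Submodule.smul_mem _ I (Pol_mono le_add_self b))
  generalize hp : ((fun ξ => (f ξ : ℂ)) + I • fun ξ => (g ξ : ℂ)) = p at c
  have d : ∀ ξ ∈ Sph, ‖u ξ - p ξ‖ ≤ ε / C := fun ξ h => by
    have a1 := a' ξ (Sph_K h)
    have b1 := b' ξ (Sph_K h)
    simp only [Function.comp_apply, gl, χ_one h, Complex.ofReal_one, one_mul,
      Real.norm_eq_abs] at a1 b1
    rw [abs_sub_comm] at a1 b1
    refine (Complex.norm_le_abs_re_add_abs_im _).trans ?_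
    simp [← hp]
    linarith
  refine ⟨_, toS _ (Pol_sm (av_pol c).1) (av_pol c).2,
    mem_PS.2 ⟨av s p, (av_pol c).1, fun ξ h => ?_⟩,
    (hs _ _ (ε / C) (by positivity) fun ξ h => ?_).trans_eq (by field_simp)⟩
  · simp [toS, K_ne (Sph_K h), nu_eq h]
  · have h1 := K_ne h
    have h2 : 0 < 4 * π := by positivity
    have e : (u - toS _ (Pol_sm (av_pol c).1) (av_pol c).2 : S s) ξ = (4 * π : ℝ)⁻¹ •
        ∫ ψ in (0 : ℝ)..4 * π, Complex.exp (-(I * s * ψ)) *
          (u (Complex.exp (I * ψ / 2) • nu ξ) - p (Complex.exp (I * ψ / 2) • nu ξ)) := by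
      simp only [mul_sub, u.is.wt, ← mul_assoc, ← Complex.exp_add, neg_add_cancel, Complex.exp_zero,
        one_mul]
      rw [intervalIntegral.integral_sub intervalIntegrable_const (av_int (Pol_sm c).continuous _),
        intervalIntegral.integral_const, smul_sub, sub_zero, inv_smul_smul₀ h2.ne', u.nu h1]
      simp [toS, h1, av]
    rw [e, norm_smul, Real.norm_of_nonneg (inv_pos.2 h2).le, inv_mul_le_iff₀ h2]
    refine (intervalIntegral.norm_integral_le_of_norm_le_const (C := ε / C) fun ψ _ => ?_).trans_eq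
      (by rw [sub_zero, abs_of_pos h2, mul_comm])
    rw [norm_mul, show ‖Complex.exp (-(I * s * ψ))‖ = 1 by simp [Complex.norm_exp], one_mul]
    refine d _ ?_
    rw [Sph, mem_ofPred, N_smul, show N (nu ξ) = 1 from ex_unit h1]
    simp [Complex.norm_exp]

/-- The Galerkin spaces of the model. -/
theorem ang_gal (s : ℤ) : (ang s).Gal :=
  gal_of (ang_cap s) (fun _ _ h => Submodule.comap_mono (Submodule.map_mono (Pol_mono h)))
    (PS_fin s) (fun _ i _ h => PS_inv i h) PS_dense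

end Vale.Agent.P354BO
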