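import Vale.Agent.P354BO.Q2

/-!
Families of functions whose jets q2 are bounded by a constant times the square of a weight.
-/

open Finset Matrix

namespace Vale.Agent.P354BO

open P354XG P354XI P354XR P354Z

variable {J ι : Type} [Fintype ι] {O : J → Set E6}

/-- The jets of order n of f j at x j are at most C (mu j)^2. -/
def Oq (X : ∀ j, ι → Der (Sm (on (O j)))) (x : J → E6) (n : ℕ) (μ : J → ℝ)
    (f : ∀ j, Sm (on (O j))) : Prop :=
  ∃ C, 0 ≤ C ∧ ∀ j, q2 (X j) (x j) n (f j) ≤ C * μ j ^ 2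

variable {X : ∀ j, ι → Der (Sm (on (O j)))} {x : J → E6} {n m : ℕ} {μ ν : J → ℝ}
  {f g u : ∀ j, Sm (on (O j))}

namespace Oq

theorem of {B : ℝ} (h : ∀ j, q2 (X j) (x j) n (f j) ≤ B * μ j ^ 2) : Oq X x n μ f :=
  ⟨|B|, abs_nonneg _, fun j => (h j).trans (mul_le_mul_of_nonneg_right (le_abs_self B) (sq_nonneg _))⟩

theorem of1 {B : ℝ} (h : ∀ j, q2 (X j) (x j) n (f j) ≤ B) : Oq X x n 1 f :=
  of (B := B) fun j => by simpa using h j

theorem congr (h : Oq X x n μ f) (e : ∀ j, g j = f j) : Oq X x n μ g := funext e ▸ h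

theorem ix {I : Type} (h : Oq X x n μ f) (φ : I → J) :
    Oq (fun i => X (φ i)) (fun i => x (φ i)) n (fun i => μ (φ i)) fun i => f (φ i) :=
  let ⟨C, c, hC⟩ := h
  ⟨C, c, fun _ => hC _⟩

theorem le (h : Oq X x n μ f) (hm : m ≤ n) : Oq X x m μ f :=
  let ⟨C, c, hC⟩ := h
  ⟨C, c, fun j => (q2_mono _ _ hm _).trans (hC j)⟩

theorem wt (h : Oq X x n μ f) (e : ∀ j, μ j ^ 2 ≤ ν j ^ 2) : Oq X x n ν f :=
  let ⟨C, c, hC⟩ := h
  ⟨C, c, fun j => (hC j).trans (mul_le_mul_of_nonneg_left (e j) c)⟩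

theorem val (h : Oq X x n μ f) : ∃ C, 0 ≤ C ∧ ∀ j, ‖fv (f j) (x j)‖ ^ 2 ≤ C * μ j ^ 2 :=
  h.le n.zero_le

theorem der (h : Oq X x (n + 1) μ f) (a : ι) : Oq X x n μ fun j => X j a (f j) :=
  let ⟨C, c, hC⟩ := h
  ⟨C, c, fun j => (q2_der _ _ n a _).trans (hC j)⟩

theorem succ (h : Oq X x n μ f) (h' : ∀ a, Oq X x n μ fun j => X j a (f j)) :
    Oq X x (n + 1) μ f := by
  obtain ⟨C, -, hC⟩ := h
  choose D _ hD using h'
  exact of (B := C + ∑ a, D a) fun j => by
    rw [q2_succ, add_mul, sum_mul]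
    exact add_le_add (hC j) (sum_le_sum fun a _ => hD a j)

theorem add (h : Oq X x n μ f) (h' : Oq X x n μ g) : Oq X x n μ fun j => f j + g j :=
  let ⟨C, _, hC⟩ := h
  let ⟨D, _, hD⟩ := h'
  of (B := 2 * (C + D)) fun j => (q2_add _ _ n _ _).trans (by linarith [hC j, hD j])

theorem neg (h : Oq X x n μ f) : Oq X x n μ fun j => -f j :=
  let ⟨C, c, hC⟩ := h
  ⟨C, c, fun j => (q2_neg _ _ n _).le.trans (hC j)⟩

theorem sub (h : Oq X x n μ f) (h' : Oq X x n μ g) : Oq X x n μ fun j => f j - g j :=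
  (h.add h'.neg).congr fun _ => sub_eq_add_neg _ _

theorem mul' (h : Oq X x n μ f) (h' : Oq X x n ν g) : Oq X x n (μ * ν) fun j => f j * g j :=
  let ⟨C, c, hC⟩ := h
  let ⟨D, _, hD⟩ := h'
  of (B := 2 ^ n * (C * D)) fun j => (q2_mul _ _ n _ _).trans ((mul_le_mul_of_nonneg_left
    (mul_le_mul (hC j) (hD j) (q2_nonneg _ _ _ _) (by positivity)) (by positivity)).trans_eq (by
      rw [Pi.mul_apply]; ring))

theorem mul (h : Oq X x n 1 f) (h' : Oq X x n μ g) : Oq X x n μ fun j => f j * g j := by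
  simpa only [one_mul] using h.mul' h'

theorem mull (h : Oq X x n μ f) (h' : Oq X x n 1 g) : Oq X x n μ fun j => f j * g j := by
  simpa only [mul_one] using h.mul' h'

theorem alg {c : J → ℂ} {B : ℝ} (h : ∀ j, ‖c j‖ ≤ B) : Oq X x n 1 fun j => algebraMap ℂ _ (c j) :=
  of1 (B := B ^ 2) fun j => (q2_alg _ _ _ n).trans (pow_le_pow_left₀ (norm_nonneg _) (h j) 2)

theorem cst (z : ℂ) : Oq X x n 1 fun _ => algebraMap ℂ _ z := alg (c := fun _ => z) fun _ => le_rfl
theorem zero : Oq X x n μ fun _ => 0 := of (B := 0) fun j => by rw [q2_zero, zero_mul]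
theorem one : Oq X x n 1 fun _ => 1 := (cst 1).congr fun _ => (map_one _).symm
theorem two : Oq X x n 1 fun _ => 2 := (cst 2).congr fun _ => (map_ofNat _ 2).symm
theorem ii : Oq X x n 1 fun _ => ii _ := cst _
theorem hf : Oq X x n 1 fun _ => Geo.hf _ := cst _
theorem int (k : ℤ) : Oq X x n 1 fun _ => k := (cst k).congr fun _ => (map_intCast _ k).symm

theorem sum {κ : Type} (s : Finset κ) {F : κ → ∀ j, Sm (on (O j))} (h : ∀ i, Oq X x n μ (F i)) :
    Oq X x n μ fun j => ∑ i ∈ s, F i j := by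
  induction s using Finset.cons_induction with
  | empty => exact zero
  | cons i s hi ih => exact ((h i).add ih).congr fun j => sum_cons hi

theorem prod {κ : Type} (s : Finset κ) {F G : κ → ∀ j, Sm (on (O j))} (h : ∀ i, Oq X x n 1 (F i))
    (h' : ∀ i, Oq X x n 1 (G i)) (d : ∀ i, Oq X x n μ fun j => F i j - G i j) :
    (Oq X x n 1 fun j => ∏ i ∈ s, F i j) ∧
      Oq X x n μ fun j => ∏ i ∈ s, F i j - ∏ i ∈ s, G i j := by
  induction s using Finset.cons_induction with
  | empty => exact ⟨one, zero.congr fun _ => sub_self _⟩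
  | cons i s hi ih => exact ⟨((h i).mul ih.1).congr fun j => prod_cons hi,
      (((d i).mull ih.1).add ((h' i).mul ih.2)).congr fun j => by simp only [prod_cons]; ring⟩

/-- A family which is stable under the letters. -/
theorem stab {κ : Type} {F : κ → ∀ j, Sm (on (O j))} (h : ∀ i, Oq X x 0 μ (F i))
    (s : ∀ n, (∀ i, Oq X x n μ (F i)) → ∀ i a, Oq X x n μ fun j => X j a (F i j)) :
    ∀ n i, Oq X x n μ (F i)
  | 0, i => h i
  | n + 1, i => (stab h s n i).succ (s n (stab h s n) i)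

/-- Division. -/
theorem div {c : ℝ} (hc : 0 < c) (l : ∀ j, c ≤ ‖fv (u j) (x j)‖) (hu : Oq X x m 1 u) :
    ∀ n ≤ m, ∀ {f : ∀ j, Sm (on (O j))}, (Oq X x n μ fun j => u j * f j) → Oq X x n μ f
  | 0, _, f, ⟨C, _, hC⟩ => of (B := C / c ^ 2) fun j => by
      have := hC j
      rw [q2, fv_mul, norm_mul, mul_pow] at this
      rw [q2, div_mul_eq_mul_div, le_div_iff₀ (by positivity), mul_comm]
      exact (mul_le_mul_of_nonneg_right (pow_le_pow_left₀ hc.le (l j) 2) (sq_nonneg _)).trans this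
  | n + 1, hn, f, h =>
    have a := div hc l hu n (by omega) (h.le n.le_succ)
    a.succ fun b => div hc l hu n (by omega) (((h.der b).sub (a.mull ((hu.le hn).der b))).congr
      fun j => by rw [D_mul, add_sub_cancel_right])

theorem inv {c : ℝ} (hc : 0 < c) (l : ∀ j, c ≤ ‖fv (u j) (x j)‖) (hu : Oq X x n 1 u)
    (e : ∀ j, u j * f j = 1) : Oq X x n 1 f := div hc l hu n le_rfl (one.congr e)

/-- The change of the letters. -/
theorem chg {κ : Type} [Fintype κ] {Y : ∀ j, κ → Der (Sm (on (O j)))}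
    {c : κ → ι → ∀ j, Sm (on (O j))} (e : ∀ j a f, Y j a f = ∑ b, c a b j * X j b f)
    (hc : ∀ a b, Oq X x n 1 (c a b)) (h : Oq X x n μ f) : Oq Y x n μ f := by
  choose D d hD using hc
  obtain ⟨C, -, hC⟩ := h
  have b : 0 ≤ ∑ a, ∑ b, D a b := sum_nonneg fun a _ => sum_nonneg fun b _ => d a b
  exact of (B := _ * C) fun j => (q2_chg (X j) (x j) (e j) b (fun a b => (hD a b j).trans
    ((by simp : _ = D a b).le.trans ((single_le_sum (fun b _ => d a b) (mem_univ b)).trans
      (single_le_sum (f := fun a => ∑ b, D a b) (fun a _ => sum_nonneg fun b _ => d a b)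
        (mem_univ a))))) n n.le_succ _).trans
    ((mul_le_mul_of_nonneg_left (hC j) (by positivity)).trans_eq (mul_assoc _ _ _).symm)

end Oq

/-- Families of matrices. -/
def Oqm {k : Type} (X : ∀ j, ι → Der (Sm (on (O j)))) (x : J → E6) (n : ℕ) (μ : J → ℝ)
    (U : ∀ j, Matrix k k (Sm (on (O j)))) : Prop := ∀ a b, Oq X x n μ fun j => U j a b

namespace Oqm
variable {k : Type} [Fintype k] [DecidableEq k] {U V g gK E EK : ∀ j, Matrix k k (Sm (on (O j)))}

omit [DecidableEq k] in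
theorem mul (h : Oqm X x n 1 U) (h' : Oqm X x n μ V) : Oqm X x n μ fun j => U j * V j :=
  fun a b => Oq.sum univ fun c => (h a c).mul (h' c b)

omit [DecidableEq k] in
theorem mull (h : Oqm X x n μ U) (h' : Oqm X x n 1 V) : Oqm X x n μ fun j => U j * V j :=
  fun a b => Oq.sum univ fun c => (h a c).mull (h' c b)

omit [Fintype k] [DecidableEq k] in
theorem tr (h : Oqm X x n μ U) : Oqm X x n μ fun j => (U j)ᵀ := fun a b => h b a

theorem det (h : Oqm X x n 1 U) (h' : Oqm X x n 1 V) (d : Oqm X x n μ fun j => U j - V j) :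
    (Oq X x n 1 fun j => (U j).det) ∧ Oq X x n μ fun j => (U j).det - (V j).det :=
  have p := fun σ : Equiv.Perm k => Oq.prod univ (fun i => h (σ i) i) (fun i => h' (σ i) i)
    fun i => d (σ i) i
  ⟨(Oq.sum univ fun σ => (Oq.int (Equiv.Perm.sign σ)).mul (p σ).1).congr fun _ => det_apply' _,
    (Oq.sum univ fun σ => (Oq.int (Equiv.Perm.sign σ)).mul (p σ).2).congr fun _ => by
      simp only [det_apply', mul_sub, sum_sub_distrib]⟩

theorem det1 (h : Oqm X x n 1 U) : Oq X x n 1 fun j => (U j).det :=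
  (h.det h (μ := 1) fun a b => (h a b).sub (h a b)).1

theorem adj (h : Oqm X x n 1 U) : Oqm X x n 1 fun j => (U j).adjugate := fun a b =>
  (det1 (U := fun j => (U j).updateRow b (Pi.single a 1)) fun c d => by
    simp only [updateRow_apply, Pi.single_apply]
    split_ifs
    exacts [Oq.one, Oq.zero, h c d]).congr fun _ => adjugate_apply _ _ _

variable (hK : Oqm X x n 1 gK) (hE : Oqm X x n 1 E) (hF : Oqm X x n 1 EK)
  (d : Oqm X x n μ fun j => E j - EK j)
include hK hE hF d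

theorem near (e : ∀ j, (EK j).det * (EK j).det * (gK j).det = 1) :
    Oq X x n μ fun j => (E j).det * (E j).det * (gK j).det - 1 :=
  (((hE.det hF d).2.mull (hE.det1.add hF.det1)).mull hK.det1).congr fun j => by
    linear_combination e j

/-- The frame determines the metric. -/
theorem met (e : ∀ j, E j * g j * (E j)ᵀ = EK j * gK j * (EK j)ᵀ) {c : ℝ} (hc : 0 < c)
    (l : ∀ j, c ≤ ‖fv ((E j).det * (E j).det * (gK j).det) (x j)‖) :
    Oqm X x n μ fun j => g j - gK j := fun a b => by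
  have z1 := (hE.adj.mul ((d.mull hK).mull hF.tr)).mull hE.adj.tr a b
  have z2 := (hE.adj.mul ((hE.mul hK).mul d.tr)).mull hE.adj.tr a b
  refine Oq.div hc l ((hE.det1.mul hE.det1).mul hK.det1) n le_rfl
    ((hK.det1.mul (z1.add z2).neg).congr fun j => ?_)
  have k : (E j).adjugate * (E j * (g j - gK j) * (E j)ᵀ) * (E j).adjugateᵀ =
      ((E j).det * (E j).det) • (g j - gK j) := by
    rw [adjugate_transpose, Matrix.mul_assoc, Matrix.mul_assoc, mul_adjugate, ← Matrix.mul_assoc,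
      ← Matrix.mul_assoc, adjugate_mul, det_transpose]
    simp [smul_smul]
  have k2 : E j * (g j - gK j) * (E j)ᵀ =
      -((E j - EK j) * gK j * (EK j)ᵀ + E j * gK j * (E j - EK j)ᵀ) := by
    rw [transpose_sub, Matrix.mul_sub, Matrix.sub_mul, e]
    noncomm_ring
  have := congrFun (congrFun k a) b
  rw [k2, Matrix.mul_neg, Matrix.neg_mul, Matrix.mul_add, Matrix.add_mul, Matrix.neg_apply,
    Matrix.add_apply, Matrix.smul_apply, smul_eq_mul] at this
  beta_reduce
  rw [this]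
  ring

end Oqm

end Vale.Agent.P354BO
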