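import Vale.Agent.P354BO.Tw
import Vale.Agent.P354XR.Met

/-!
The chart with the time shifted by a function of r, and null frames as matrices.
-/

set_option linter.unusedSimpArgs false

open Matrix

namespace Vale.Agent.P354BO

open P354XG P354XG.Geo P354XD P354XR

variable {A : Type*} [CommRing A] [Algebra ℂ A]

/-- The shifted chart. -/
noncomputable def shf (K : Hp A) (al a1 : A) : Hp A where
  c := K.c
  d := ![K.d 0, K.d 1 - a1 • K.d 0, K.d 2, K.d 3, K.d 4, K.d 5]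
  z := ![K.z 0 + al, K.z 1, K.z 2, K.z 3, K.z 4, K.z 5]
  ri := K.ri
  Ni := K.Ni

/-- The shift al has the derivative a1. -/
structure ShI (K : Hp A) (al a1 : A) : Prop where
  h : K.Is
  ca : K.c al = al
  c1 : K.c a1 = a1
  da : ∀ i, i ≠ 1 → K.d i al = 0
  db : ∀ i, i ≠ 1 → K.d i a1 = 0
  d1 : K.d 1 al = a1

variable {K : Hp A} {al a1 : A}

namespace ShI
variable (t : ShI K al a1)
include t

theorem is : (shf K al a1).Is := by
  have h := t.h
  refine { h with c1 := fun f => ?_, z0 := ?_, comm := fun a b f => ?_, dz := fun a b => ?_ }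
  · simp [shf, h.c0, h.c1, t.c1]
  · simp [shf, h.z0, t.ca]
  · fin_cases a <;> fin_cases b <;>
      simp [shf, D_sub, D_mul, t.db, h.comm 1 0, h.comm 2 0, h.comm 3 0, h.comm 4 0, h.comm 5 0,
        h.comm 2 1, h.comm 3 1, h.comm 4 1, h.comm 5 1, h.comm 3 2, h.comm 4 2, h.comm 5 2,
        h.comm 4 3, h.comm 5 3, h.comm 5 4]
  · fin_cases a <;> fin_cases b <;> simp [shf, h.dz, t.da, t.d1]

omit t in
theorem kk_eq (p : Pm A) (h1 : A) (hp : p.h1 = h1 + a1) :
    kk (shf K al a1) { p with h1 := h1 } = kk K p := by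
  have a : (kk (shf K al a1) { p with h1 := h1 }).R = (kk K p).R := by
    ext f
    have e : (shf K al a1).kc.F2 f = K.kc.F2 f := by
      simp only [KC.F2, KC.V_ap, zero_mul]; rfl
    rw [kk_R, kk_R, e, hp]
    simp only [Hp.kc, shf, Matrix.cons_val, Derivation.sub_apply, Derivation.smul_apply, smul_eq_mul]
    ring
  rw [show kk (shf K al a1) { p with h1 := h1 } =
    { kk K p with R := (kk (shf K al a1) { p with h1 := h1 }).R } from rfl, a]

theorem pm_is {p : Pm A} (q : p.Is K) : Pm.Is { p with h1 := 1 } (shf K al a1) where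
  ca := q.ca
  cM := q.cM
  ch := map_one _
  cj := q.cj
  da i := by fin_cases i <;> simp [shf, q.da]
  dM i := by fin_cases i <;> simp [shf, q.dM]
  dh _ _ := D_one _
  dj i hi := by fin_cases i <;> simp [shf, q.dj] at hi ⊢
  hg := q.hg

end ShI

/-- The products of a null frame. -/
def eta (A : Type*) [CommRing A] : Matrix (Fin 4) (Fin 4) A :=
  !![0, -1, 0, 0; -1, 0, 0, 0; 0, 0, 0, 1; 0, 0, 1, 0]

omit [Algebra ℂ A] in
theorem eta_det : (eta A).det = 1 := by
  simp [eta, det_succ_row_zero, Fin.sum_univ_succ, Fin.succAbove]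

theorem null_mat {S : Geo A} {l n m mb : Vec A} (cg : ∀ a b, S.c (S.g a b) = S.g a b)
    (sy : ∀ a b, S.g a b = S.g b a) (N : Null S l n m mb) :
    of ![l, n, m, mb] * of S.g * (of ![l, n, m, mb])ᵀ = eta A := by
  have c : ∀ Y Z, S.c (S.dot Y Z) = S.dot (S.cv Y) (S.cv Z) := fun Y Z => by
    simp only [dot, cv, map_sum, map_mul, cg]
  have s : ∀ Y Z, S.dot Y Z = S.dot Z Y := fun Y Z => by
    simp only [dot]
    rw [Finset.sum_comm]
    exact Finset.sum_congr rfl fun a _ => Finset.sum_congr rfl fun b _ => by rw [sy]; ring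
  have e1 := congrArg S.c N.mm
  have e2 := congrArg S.c N.lm
  have e3 := congrArg S.c N.nm
  rw [c, N.c_m, map_zero] at e1 e2 e3
  rw [N.c_l] at e2
  rw [N.c_n] at e3
  ext i k
  have e : (of ![l, n, m, mb] * of S.g * (of ![l, n, m, mb])ᵀ) i k =
      S.dot (![l, n, m, mb] i) (![l, n, m, mb] k) := by
    simp only [mul_apply, dot, of_apply, transpose_apply, Fin.sum_univ_four]
    ring
  rw [e]
  fin_cases i <;> fin_cases k <;>
    simp [eta, N.ll, N.nn, N.mm, N.ln, N.lm, N.nm, N.mmb, e1, e2, e3, s n l, s m l, s m n, s mb l,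
      s mb n, s mb m]

variable {p : Pm A}

theorem gK_symm (a b : Fin 4) : gK K p a b = gK K p b a := by
  simp only [gK, KC.gB]; ring

theorem c_gK (h : K.Is) (q : p.Is K) (a b : Fin 4) : K.c (gK K p a b) = gK K p a b := by
  have k := kk_is h q
  have e1 : K.c K.kc.s = K.kc.sb := k.c_s
  have e2 : K.c K.kc.sb = K.kc.s := k.c_sb
  have e3 : K.c K.kc.x = K.kc.x := k.c_x
  have e4 : K.c p.sg = p.sg := k.c_sg
  have e5 : K.c K.kc.r = K.kc.r := k.c_r
  simp only [gK, KC.gB, KC.qf, kk, c1, c3, c4, map_add, map_sub, map_mul, map_neg, map_ofNat, h.c_hf,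
    h.c_ii, h.c_e0, h.c_om, h.c_mu, h.c_mub, h.c_ri, q.ca, q.cM, q.ch, q.cj, e1, e2, e3, e4, e5]
  ring

/-- The frame of Kerr. -/
theorem kerr_mat (h : K.Is) (q : p.Is K) :
    of ![K.prj (kk K p).th, K.prj (kk K p).tp, K.prj (kk K p).et, K.prj (kk K p).ep] * of (gK K p) *
      (of ![K.prj (kk K p).th, K.prj (kk K p).tp, K.prj (kk K p).et, K.prj (kk K p).ep])ᵀ = eta A :=
  null_mat (S := K.geo (gK K p) fun _ _ _ => 0) (c_gK h q) gK_symm (frK_wn h q _).toNull

theorem L_V (j : p.j1 = 0) (a : Fin 4) :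
    K.L a = (kk K p).V (c1 K p a) (K.om a) (c3 K p a) (c4 K p a) 0 0 := by
  rw [kk_V, Hp.L]
  simp [c1, c3, c4, j]

theorem bs_co (h : K.Is) (j : p.j1 = 0) (a : Fin 4) : (kk K p).T (K.co a) = Hp.e0 A a ∧
    (kk K p).R (K.co a) = K.om a - p.h1 * Hp.e0 A a ∧ (kk K p).P (K.co a) = K.z 1 * K.mub a ∧
    (kk K p).Q (K.co a) = K.z 1 * K.mu a ∧ (kk K p).H (K.co a) = 0 ∧ (kk K p).B (K.co a) = 0 := by
  obtain ⟨a1, a2, a3⟩ := h.tco a
  refine ⟨a1, (kk_R K p _).trans ?_, a3⟩
  rw [j, zero_mul, sub_zero]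
  exact congrArg₂ (· - p.h1 * ·) a2 a1

end Vale.Agent.P354BO
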