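import Vale.Agent.P354BO.TwO
import Vale.Agent.P354BO.Shf
import Vale.Agent.P354CV.Bas
import Vale.Agent.P354YO.Sh

/-!
The coordinates sh A B (pj x) as a chart on an open set O, and the functions of these coordinates.
-/

open scoped ContDiff ComplexConjugate Topology
open Complex (I)
open Set Filter

namespace Vale.Agent.P354BO

open P354XG P354XI P354XD P354XR P354Z P354CV
open P354n (R4)
open P354RC (bs cv sum_bs)
open P354XE (gin rd Tw)
open P354YO (sh sh_cd rd_sh sh_inv)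

section alg
variable {A A2 : Type} [CommRing A] [Algebra ℂ A] [CommRing A2] [Algebra ℂ A2] {π : A →ₐ[ℂ] A2}
  {K : Hp A} {K2 : Hp A2} (z : ∀ i, π (K.z i) = K2.z i) (h : K.Is) (h2 : K2.Is)

theorem map_inv' {u v : A} {u' v' : A2} (a : u * v = 1) (c : u' * v' = 1) (d : π u = u') :
    π v = v' := by
  have := congrArg π a
  rw [map_mul, map_one, d] at this
  linear_combination v' * this - π v * c

include z h h2

theorem map_om (a : Fin 4) : π (Hp.e0 A a) = Hp.e0 A2 a ∧ π (K.om a) = K2.om a ∧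
    π (K.mu a) = K2.mu a ∧ π (K.mub a) = K2.mub a ∧ π K.ri = K2.ri ∧ π K.kc.x = K2.kc.x ∧
    π K.kc.s = K2.kc.s ∧ π K.kc.sb = K2.kc.sb := by
  have n : π K.Ni = K2.Ni := map_inv' h.hN h2.hN (by simp only [Hp.N, map_add, map_mul, z])
  have r : π K.ri = K2.ri := map_inv' h.hr h2.hr (z 1)
  fin_cases a <;> simp [Hp.e0, Hp.om, Hp.mu, Hp.mub, Hp.kc, z, n, r, Hm.ii_hf π, map_ofNat]

theorem map_co (a : Fin 4) : π (K.co a) = K2.co a := by
  simp only [Hp.co, map_add, map_mul, z, map_om z h h2 a]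

theorem map_gK {p : Pm A} {p2 : Pm A2} (q : p.Is K) (q2 : p2.Is K2) (pa : π p.a = p2.a)
    (pM : π p.M = p2.M) (p1 : π p.h1 = p2.h1) (pj : π p.j1 = p2.j1) (a b : Fin 4) :
    π (gK K p a b) = gK K2 p2 a b := by
  have r : π K.kc.r = K2.kc.r := z 1
  have s : π p.sg = p2.sg := map_inv' ((mul_comm _ _).trans q.hg) ((mul_comm _ _).trans q2.hg)
    (by simp only [map_add, map_mul, z, pa, map_om z h h2 a])
  simp only [gK, KC.gB, KC.qf, kk, c1, c3, c4, map_add, map_sub, map_mul, map_neg, map_ofNat,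
    Hm.ii_hf π, map_om z h h2 a, map_om z h h2 b, pa, pM, p1, pj, r, s]

end alg

/-- The phase exp (i c B / 2). -/
noncomputable def pe (B : ℝ → ℝ) (c r : ℝ) : ℂ := Complex.exp (I * c * (B r / 2 : ℝ))

variable {A B : ℝ → ℝ} {O : Set E6}

theorem pe_sm (hB : ContDiff ℝ ∞ B) (c : ℝ) : ContDiff ℝ ∞ (pe B c) :=
  (contDiff_const.mul (re_sm (hB.div_const 2))).cexp

theorem pe_der (hB : ContDiff ℝ ∞ B) (c r : ℝ) :
    deriv (pe B c) r = I * c * (deriv B r / 2 : ℝ) * pe B c r :=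
  ((((hB.differentiable (by simp) r).hasDerivAt.div_const 2).ofReal_comp.const_mul
    (I * c)).cexp.congr_deriv (mul_comm _ _)).deriv

theorem pe_cj (c r : ℝ) : conj (pe B c r) = pe B (-c) r := by
  simp [pe, ← Complex.exp_conj, map_ofNat]

theorem pe_norm (c r : ℝ) : ‖pe B c r‖ = 1 := by
  rw [pe, mul_assoc, mul_comm, ← Complex.ofReal_mul, Complex.norm_exp_ofReal_mul_I]

theorem d_sm (h : ContDiff ℝ ∞ A) : ContDiff ℝ ∞ (deriv A) := (contDiff_infty_iff_deriv.1 h).2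

/-- The chart, and the lift of sh A B. -/
noncomputable def kW (O : Set E6) (B : ℝ → ℝ) : Hp (Sm (on O)) :=
  twi (hp (on O)) (fr1 O (pe B (-1))) (fr1 O (pe B 1)) (rf O fun r => deriv B r / 2)
noncomputable def kS (O : Set E6) (A B : ℝ → ℝ) : Hp (Sm (on O)) :=
  shf (kW O B) (rf O A) (rf O (deriv A))
noncomputable def lsh (A B : ℝ → ℝ) (x : E6) : E6 :=
  (x.1 + A x.2.1, x.2.1, pe B (-1) x.2.1 * x.2.2.1, pe B 1 x.2.1 * x.2.2.2)

theorem lsh_nq (x : E6) : nq (lsh A B x) = nq x := by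
  simp [nq, lsh, Complex.normSq_eq_norm_sq, pe_norm]

theorem lsh_pj {x : E6} (h : 0 < x.2.1) (h' : x.2.2 ≠ 0) : pj (lsh A B x) = sh A B (pj x) := by
  have e : conj (lsh A B x).2.2.1 * (lsh A B x).2.2.2 =
      Complex.exp (B x.2.1 * I) * (conj x.2.2.1 * x.2.2.2) := by
    simp only [lsh, map_mul, pe_cj, neg_neg]
    rw [pe, show (B x.2.1 : ℂ) * I = I * (1 : ℝ) * (B x.2.1 / 2 : ℝ) + I * (1 : ℝ) * (B x.2.1 / 2 : ℝ) by
      push_cast; ring, Complex.exp_add]
    ring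
  rw [sh, rd_pj h h', pj, lsh_nq, e]
  simp only [pj, Complex.mul_re, Complex.mul_im, Complex.exp_ofReal_mul_I_re,
    Complex.exp_ofReal_mul_I_im, lsh, Complex.normSq_eq_norm_sq, norm_mul, pe_norm, one_mul]
  ext <;> simp only <;> ring

/-- The largest cone. -/
def U0 : Set E6 := {x | 0 < x.2.1 ∧ x.2.2 ≠ 0}

theorem U0_cone : Cone U0 :=
  ⟨(isOpen_lt continuous_const continuous_snd.fst).inter
    (isOpen_ne_fun continuous_snd.snd continuous_const), fun _ h => h,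
    fun _ h _ hc => ⟨h.1, smul_ne_zero hc h.2⟩⟩

variable (c : Cone O) (hA : ContDiff ℝ ∞ A) (hB : ContDiff ℝ ∞ B)
include c hB

theorem kW_I : TwI (hp (on O)) (fr1 O (pe B (-1))) (fr1 O (pe B 1)) (rf O fun r => deriv B r / 2) where
  h := cone_hp c
  inv := ext_fv c.op fun x hx => by
    rw [fv_mul, fv_fr1 (pe_sm hB _) hx, fv_fr1 (pe_sm hB _) hx]
    exact Eq.trans (by simp [pe, ← Complex.exp_add]) (evO ⟨x, hx⟩).map_one.symm
  ce := (cj_fr1 c.op (pe_sm hB _)).trans (by simp only [pe_cj, neg_neg])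
  cj := cj_rf c ((d_sm hB).div_const 2).contDiffOn
  de := (d_fr1 c.op (pe_sm hB _)).1
  dj := d_rf c ((d_sm hB).div_const 2).contDiffOn
  d1 := (d_fr1 c.op (pe_sm hB _)).2.trans (ext_fv c.op fun x hx => by
    rw [fv_fr1 (contDiff_infty_iff_deriv.1 (pe_sm hB _)).2 hx, pe_der hB]
    refine Eq.trans ?_ ((evO ⟨x, hx⟩).map_neg _).symm
    rw [show evO ⟨x, hx⟩ _ = fv _ x from rfl, fv_mul, fv_mul, fv_fr1 (pe_sm hB _) hx,
      fv_rf c ((d_sm hB).div_const 2).contDiffOn hx, ii, fv_alg _ hx]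
    push_cast
    ring)

include hA

theorem kS_I : ShI (kW O B) (rf O A) (rf O (deriv A)) := by
  have t := kW_I c hB
  have e : (deriv fun r => (A r : ℂ)) = fun r => ((deriv A r : ℝ) : ℂ) := funext fun r =>
    ((hA.differentiable (by simp) r).hasDerivAt.ofReal_comp).deriv
  refine ⟨t.is, cj_rf c hA.contDiffOn, cj_rf c (d_sm hA).contDiffOn,
    (t.kill (d_rf c hA.contDiffOn)).1, (t.kill (d_rf c (d_sm hA).contDiffOn)).1,
    (t.kill (d_rf c hA.contDiffOn)).2.trans ?_⟩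
  rw [show rf O A = fr1 O fun r => A r from rfl, (d_fr1 c.op (re_sm hA)).2, e]
  rfl

theorem kS_is : (kS O A B).Is := (kS_I c hA hB).is

theorem kS_pm (M a : ℝ) : (pm (on O) (fun _ => M) fun _ => a).Is (kS O A B) :=
  (kS_I c hA hB).pm_is ((kW_I c hB).pm_is (pm_is (cone_pos c) (fun _ => M) fun _ => a))

omit hA in
theorem kS_kk {p : Pm (Sm (on O))} (h1 : p.h1 = 1 + rf O (deriv A))
    (j1 : p.j1 = rf O fun r => deriv B r / 2) :
    kk (kS O A B) { p with h1 := 1, j1 := 0 } = kk (hp (on O)) p :=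
  (ShI.kk_eq { p with j1 := 0 } 1 h1).trans ((kW_I c hB).kk_eq p j1)

theorem mq_lsh : Mq O U0 (lsh A B) :=
  ⟨U0_cone.op, c.op, (contDiff_fst.add (hA.comp contDiff_snd.fst)).prodMk (contDiff_snd.fst.prodMk
    ((((pe_sm hB _).comp contDiff_snd.fst).mul contDiff_snd.snd.fst).prodMk
      (((pe_sm hB _).comp contDiff_snd.fst).mul contDiff_snd.snd.snd))), fun x hx =>
    ⟨(c.pos x hx).1, fun e => (nq_pos (c.pos x hx).2).ne' (by
      rw [← lsh_nq (A := A) (B := B), nq, e]; simp)⟩⟩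

theorem lsh_z (i : Fin 6) : (mq_lsh c hA hB).pb ((hp _).z i) = (kS O A B).z i :=
  ext_fv c.op fun x hx => by
    rw [Mq.fv_pb _ _ hx, fv_z i ((mq_lsh c hA hB).mp hx)]
    fin_cases i <;> simp [kS, kW, shf, twi, fv_add, fv_mul, fv_z _ hx, fv_fr1 (pe_sm hB _) hx,
      fv_rf c hA.contDiffOn hx, zc, lsh, pe_cj]

theorem fv_co (a : Fin 4) {x : E6} (hx : x ∈ O) :
    fv ((kS O A B).co a) x = cv a (sh A B (pj x)) := by
  rw [← map_co (lsh_z c hA hB) (cone_hp U0_cone) (kS_is c hA hB), Mq.fv_pb _ _ hx,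
    fv_rs (rs_co (cone_pos U0_cone).off a) ((mq_lsh c hA hB).mp hx),
    lsh_pj (c.pos x hx).1 (c.pos x hx).2]

/-- The Kerr metric in the chart. -/
theorem fv_gK (M a : ℝ) (b d : Fin 4) {x : E6} (hx : x ∈ O) :
    fv (2 * gK (kS O A B) (pm (on O) (fun _ => M) fun _ => a) b d) x =
      gc (gin M a) b d (sh A B (pj x)) := by
  have m := (mq_lsh c hA hB).mp hx
  have u := cone_pos U0_cone
  rw [← map_gK (lsh_z c hA hB) (cone_hp U0_cone) (kS_is c hA hB) (pm_is u (fun _ => M) fun _ => a)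
    (kS_pm c hA hB M a) (AlgHom.commutes _ (a : ℂ)) (AlgHom.commutes _ (M : ℂ)) (map_one _)
    (map_zero _), ← gin_eq u, ← map_ofNat (mq_lsh c hA hB).pb, ← map_mul, Mq.fv_pb _ _ hx,
    ← lsh_pj (c.pos x hx).1 (c.pos x hx).2]
  refine (fv_rs ((rs_num 2).mul ((rs_alg _).mul (rs_pb u.off (f := fun _ => gc (gin M a) b d)
    (on_of U0_cone.op fun y hy => (P354YO.sb_gin (by rw [rd_pj hy.1 hy.2]; exact hy.1)).sm _ _))))
      m).trans ?_
  push_cast
  ring

omit c hA hB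

/-- Functions of the coordinates. -/
noncomputable def pq (O : Set E6) (A B : ℝ → ℝ) (f : R4 → ℝ) : Sm (on O) :=
  pb (on O) fun _ y => f (sh A B y)

/-- f is smooth at the points of the chart. -/
def Sq (O : Set E6) (A B : ℝ → ℝ) (f : R4 → ℝ) : Prop := ∀ x ∈ O, ContDiffAt ℝ ∞ f (sh A B (pj x))

variable {f : R4 → ℝ}

theorem Sq.db (h : Sq O A B f) (a : Fin 4) : Sq O A B (db a f) :=
  fun x hx => (P354RC.at_fd (h x hx)).clm_apply contDiffAt_const

include c hA hB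

theorem sh_at {x : E6} (hx : x ∈ O) : ContDiffAt ℝ ∞ (sh A B) (pj x) :=
  sh_cd (by rw [rd_pj (c.pos x hx).1 (c.pos x hx).2]; exact (c.pos x hx).1.ne') hA.contDiffAt
    hB.contDiffAt

theorem fv_pq (h : Sq O A B f) {x : E6} (hx : x ∈ O) : fv (pq O A B f) x = f (sh A B (pj x)) :=
  fv_rs (rs_pb (cone_pos c).off (f := fun _ y => f (sh A B y))
    (on_of c.op fun y hy => (h y hy).comp (pj y) (sh_at c hA hB hy))) hx

/-- The chain rule. -/
theorem D_pq (h : Sq O A B f) {D : Der (Sm (on O))} (hD : Spn (hp _) D) :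
    D (pq O A B f) = ∑ a, pq O A B (db a f) * D ((kS O A B).co a) := by
  have e : ∀ i, (hp _).d i (pq O A B f) = ∑ a, pq O A B (db a f) * (hp _).d i ((kS O A B).co a) :=
    fun i => ext_fv c.op fun x hx => by
    have s := (((sh_at c hA hB hx).comp x (cd_pj (c.pos x hx).2)).differentiableAt
      (by simp)).hasFDerivAt
    have k : ∀ {u : Sm (on O)} {g : R4 → ℝ}, ContDiffAt ℝ ∞ g (sh A B (pj x)) →
        (∀ y ∈ O, fv u y = g (sh A B (pj y))) → ∀ v, fderiv ℝ (fv u) x v =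
          fderiv ℝ g (sh A B (pj x)) (fderiv ℝ (sh A B ∘ pj) x v) := fun {u g} a b v => by
      rw [EventuallyEq.fderiv_eq (f := fun y => (g (sh A B (pj y)) : ℂ))
        ((c.op.eventually_mem hx).mono b)]
      exact congrArg (· v) (Complex.ofRealCLM.hasFDerivAt.comp x
        ((a.differentiableAt (by simp)).hasFDerivAt.comp x s)).fderiv
    have k1 := k (h x hx) fun _ => fv_pq c hA hB h
    have k2 := fun a => k (cv a).contDiff.contDiffAt fun _ => fv_co c hA hB a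
    have k3 : ∀ w, fderiv ℝ f (sh A B (pj x)) w = ∑ a, db a f (sh A B (pj x)) * cv a w := fun w => by
      conv_lhs => rw [← sum_bs w]
      simp only [map_sum, map_smul, smul_eq_mul, db, mul_comm]
    simp only [Fin.sum_univ_four, fv_add, fv_mul, fv_d c.op i _ hx, k1, k2, k3,
      fv_pq c hA hB (h.db _) hx, ContinuousLinearMap.fderiv]
    push_cast
    ring
  rw [hD]
  simp only [e, Finset.mul_sum, hD ((kS O A B).co _)]
  rw [Finset.sum_comm]
  simp only [mul_left_comm]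

omit hA in
theorem spn_L (a : Fin 4) : Spn (hp _) ((kS O A B).L a) := by
  let p : Pm (Sm (on O)) := ⟨0, 0, 0, 1 + rf O (deriv A), rf O fun r => deriv B r / 2⟩
  rw [L_V (p := { p with h1 := 1, j1 := 0 }) rfl, kS_kk c hB rfl rfl]
  exact spn_V (cone_hp c) _ _ _ _ _ _

theorem L_pq (h : Sq O A B f) (a : Fin 4) : (kS O A B).L a (pq O A B f) = pq O A B (db a f) := by
  simp [D_pq c hA hB h (spn_L c hB a), (kS_is c hA hB).L_co]

end Vale.Agent.P354BO
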