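import Vale.Agent.P354BO.TwE
import Vale.Agent.P354BO.Oq
import Vale.Agent.P354BO.Th

/-!
The functions of Kerr have bounded jets along the letters of the state.
-/

open scoped ContDiff
open Set

namespace Vale.Agent.P354BO

open P354XG P354XI P354XD P354XR P354Z P354CV

section gen
variable {J ι : Type} [Fintype ι] {O : J → Set E6} {X : ∀ j, ι → Der (Sm (on (O j)))} {x : J → E6}
  {n : ℕ}

/-- The generators of a family of charts are bounded. -/
structure Gz (X : ∀ j, ι → Der (Sm (on (O j)))) (x : J → E6) (n : ℕ)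
    (K : ∀ j, Hp (Sm (on (O j)))) : Prop where
  z1 : Oq X x n 1 fun j => (K j).z 1
  z2 : Oq X x n 1 fun j => (K j).z 2
  z3 : Oq X x n 1 fun j => (K j).z 3
  z4 : Oq X x n 1 fun j => (K j).z 4
  z5 : Oq X x n 1 fun j => (K j).z 5
  Ni : Oq X x n 1 fun j => (K j).Ni
  ri : Oq X x n 1 fun j => (K j).ri

/-- The parameters are bounded. -/
structure Gp (X : ∀ j, ι → Der (Sm (on (O j)))) (x : J → E6) (n : ℕ)
    (p : ∀ j, Pm (Sm (on (O j)))) : Prop where
  a : Oq X x n 1 fun j => (p j).a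
  M : Oq X x n 1 fun j => (p j).M
  sg : Oq X x n 1 fun j => (p j).sg
  h1 : Oq X x n 1 fun j => (p j).h1
  j1 : Oq X x n 1 fun j => (p j).j1

variable {K : ∀ j, Hp (Sm (on (O j)))} {p : ∀ j, Pm (Sm (on (O j)))}

theorem oq_e0 (a : Fin 4) : Oq X x n 1 fun _ => Hp.e0 _ a := by
  fin_cases a
  exacts [Oq.one, Oq.zero, Oq.zero, Oq.zero]

theorem Gz.om (h : Gz X x n K) (a : Fin 4) : (Oq X x n 1 fun j => (K j).om a) ∧
    (Oq X x n 1 fun j => (K j).mu a) ∧ Oq X x n 1 fun j => (K j).mub a := by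
  obtain ⟨-, _, _, _, _, _, -⟩ := h
  fin_cases a <;> simp only [Hp.om, Hp.mu, Hp.mub, Fin.reduceFinMk, Matrix.cons_val] <;>
    refine ⟨?_, ?_, ?_⟩ <;> with_reducible repeat' first
      | assumption | exact Oq.zero | exact Oq.ii | exact Oq.two | apply Oq.neg | apply Oq.mul
      | apply Oq.add | apply Oq.sub

theorem Gz.kc (h : Gz X x n K) : (Oq X x n 1 fun j => (K j).kc.x) ∧
    (Oq X x n 1 fun j => (K j).kc.s) ∧ (Oq X x n 1 fun j => (K j).kc.sb) ∧
    Oq X x n 1 fun j => (K j).N :=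
  ⟨(h.om 3).1, (h.om 3).2.1.neg.congr fun _ => (neg_neg _).symm,
    (h.om 3).2.2.neg.congr fun _ => (neg_neg _).symm, (h.z2.mul h.z4).add (h.z3.mul h.z5)⟩

theorem Gz.c (h : Gz X x n K) (q : Gp X x n p) (a : Fin 4) :
    (Oq X x n 1 fun j => c1 (K j) (p j) a) ∧ (Oq X x n 1 fun j => c3 (K j) (p j) a) ∧
    Oq X x n 1 fun j => c4 (K j) (p j) a :=
  ⟨(oq_e0 a).add ((h.om a).1.mul q.h1),
    ((Oq.hf.mul h.ri).mul (h.om a).2.1).add (((h.om a).1.mul q.j1).mul (Oq.ii.mul h.kc.2.1)),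
    ((Oq.hf.mul h.ri).mul (h.om a).2.2).sub (((h.om a).1.mul q.j1).mul (Oq.ii.mul h.kc.2.2.1))⟩

theorem Gz.gK (h : Gz X x n K) (q : Gp X x n p) (a b : Fin 4) :
    Oq X x n 1 fun j => gK (K j) (p j) a b := by
  obtain ⟨_, _, _⟩ := h.c q a
  obtain ⟨_, _, _⟩ := h.c q b
  obtain ⟨_, _, _, -⟩ := h.kc
  have := (h.om a).1
  have := (h.om b).1
  have : Oq X x n 1 fun j => (K j).kc.r := h.z1
  obtain ⟨_, _, _, -⟩ := q
  simp only [P354XR.gK, KC.gB, KC.qf, kk]
  with_reducible repeat' first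
    | assumption | exact Oq.ii | exact Oq.hf | exact Oq.two | apply Oq.neg | apply Oq.mul
    | apply Oq.add | apply Oq.sub

/-- The frame of Kerr. -/
theorem Gz.kerr (h : Gz X x n K) (q : Gp X x n p) {u : ∀ j, Sm (on (O j))}
    (hu : ∀ e, Oq X x n 1 fun j => (kk (K j) (p j)).bs e (u j)) (b : Fin 4) :
    Oq X x n 1 fun j => f4 (kk (K j) (p j)).kerr b (u j) := by
  have : Oq X x n 1 fun j => (kk (K j) (p j)).T (u j) := hu 0
  have : Oq X x n 1 fun j => (kk (K j) (p j)).R (u j) := hu 1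
  have : Oq X x n 1 fun j => (kk (K j) (p j)).P (u j) := hu 2
  have : Oq X x n 1 fun j => (kk (K j) (p j)).Q (u j) := hu 3
  have : Oq X x n 1 fun j => (kk (K j) (p j)).H (u j) := hu 4
  have : Oq X x n 1 fun j => (kk (K j) (p j)).B (u j) := hu 5
  have : Oq X x n 1 fun j => (kk (K j) (p j)).r := h.z1
  have : Oq X x n 1 fun j => (kk (K j) (p j)).x := h.kc.1
  have : Oq X x n 1 fun j => (kk (K j) (p j)).s := h.kc.2.1
  have : Oq X x n 1 fun j => (kk (K j) (p j)).sb := h.kc.2.2.1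
  have : Oq X x n 1 fun j => (kk (K j) (p j)).N := h.kc.2.2.2
  have : Oq X x n 1 fun j => (kk (K j) (p j)).Ni := h.Ni
  have : Oq X x n 1 fun j => (kk (K j) (p j)).sg := q.sg
  have : Oq X x n 1 fun j => (kk (K j) (p j)).a := q.a
  have : Oq X x n 1 fun j => (kk (K j) (p j)).M := q.M
  fin_cases b <;> simp only [f4, KC.kerr, Fin.reduceFinMk, Matrix.cons_val, KC.th, KC.tp, KC.et,
    KC.ep, KC.V_ap, KC.W, KC.De, KC.ee, KC.z, KC.zb] <;> with_reducible repeat' first
      | assumption | exact Oq.zero | exact Oq.ii | exact Oq.two | apply Oq.neg | apply Oq.mul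
      | apply Oq.add | apply Oq.sub

end gen

theorem lt_rad {A : Type} [CommRing A] [Algebra ℂ A] {K : Hp A} (p : Pm A) {u : A}
    (k : ∀ i, i ≠ 1 → K.d i u = 0) (b : Fin 5) : lt K p b u = if b = 1 then K.d 1 u else 0 := by
  fin_cases b
  · exact k 0 (by simp)
  · refine (kk_R K p _).trans ?_
    rw [(kill k).1, (kill k).2.2.2.2.2, mul_zero, mul_zero, sub_zero, sub_zero]
    rfl
  all_goals simp [lt, Om, k]

variable {J : Type} {O : J → Set E6} {M a : J → ℝ} {x : J → E6} {M0 r1 ρ : ℝ}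

/-- A family of unit spinors in cones, with bounded radius and parameters. -/
structure Ft (M0 r1 ρ : ℝ) (O : J → Set E6) (M a : J → ℝ) (x : J → E6) : Prop where
  m0 : 0 < M0
  p1 : 0 < r1
  co : ∀ j, Cone (O j)
  par : ∀ j, |M j| ≤ 2 * M0 ∧ |a j| ≤ 2 * M0
  mem : ∀ j, x j ∈ O j
  un : ∀ j, nq (x j) = 1
  rr : ∀ j, r1 ≤ (x j).2.1 ∧ (x j).2.1 ≤ ρ

/-- The letters. -/
noncomputable abbrev lI (M0 : ℝ) (O : J → Set E6) (M a : J → ℝ) (j : J) :
    Fin 5 → Der (Sm (on (O j))) := lt (hp _) (pI (O j) M0 (M j) (a j))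

namespace Ft
variable (h : Ft M0 r1 ρ O M a x)
include h

theorem rf {f : ℝ × ℝ × ℝ → ℝ} (hf : ContDiff ℝ ∞ f) (n : ℕ) :
    Oq (lI M0 O M a) x n 1 fun j => rf (O j) fun r => f (M j, a j, r) :=
  let ⟨_, _, hB⟩ := q2_fr1 (((isCompact_Icc (a := -(2 * M0)) (b := 2 * M0)).prod
    ((isCompact_Icc (a := -(2 * M0)) (b := 2 * M0)).prod (isCompact_Icc (a := r1) (b := ρ))))) n hf
  .of1 fun j => hB _ _ (lt_hp (h.co j).op _) _ _ _ ⟨abs_le.1 (h.par j).1, abs_le.1 (h.par j).2, h.rr j⟩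

theorem gz (n : ℕ) : Gz (lI M0 O M a) x n fun j => hp (on (O j)) := by
  have k := fun j => cone_hp (h.co j)
  have z := Oq.stab (X := lI M0 O M a) (x := x) (μ := 1)
    (F := fun (i : Fin 4) j => (hp (on (O j))).z i.succ.succ) (fun i => .of1 (B := 1) fun j => by
      have := h.un j
      have a1 := sq_nonneg ‖(x j).2.2.1‖
      have a2 := sq_nonneg ‖(x j).2.2.2‖
      rw [q2, fv_z _ (h.mem j)]
      simp only [P354XD.nq, Complex.normSq_eq_norm_sq] at this
      fin_cases i <;> simp [zc, -sq_le_one_iff_abs_le_one] <;> linarith) (fun n H i b => by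
      have h2 : Oq (lI M0 O M a) x n 1 fun j => (hp (on (O j))).z 2 := H 0
      have h3 : Oq (lI M0 O M a) x n 1 fun j => (hp (on (O j))).z 3 := H 1
      have h4 : Oq (lI M0 O M a) x n 1 fun j => (hp (on (O j))).z 4 := H 2
      have h5 : Oq (lI M0 O M a) x n 1 fun j => (hp (on (O j))).z 5 := H 3
      have : Oq (lI M0 O M a) x n 1 fun j => (pI (O j) M0 (M j) (a j)).j1 := h.rf (js_sm h.m0) n
      have T : ∀ j u, (hp (on (O j))).kc.T u = (hp (on (O j))).d 0 u := fun _ _ => rfl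
      have R : ∀ j u, (hp (on (O j))).kc.R u = (hp (on (O j))).d 1 u := fun _ _ => rfl
      generalize hX : lI M0 O M a = X at *
      conv => enter [5, j]; rw [← hX]
      fin_cases i <;> fin_cases b <;>
        simp [lt, kk_R, fun j => F2_ap (k j), Om, fun j => (k j).dz, T, R] <;>
        with_reducible repeat' first
          | assumption | exact Oq.zero | exact Oq.ii | exact Oq.hf | apply Oq.neg | apply Oq.mul) n
  have r := (h.rf (f := fun p => p.2.2) contDiff_snd.snd n).congr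
    (g := fun j => (hp (on (O j))).z 1) fun j => ext_fv (h.co j).op fun y hy =>
      (fv_z 1 hy).trans (fv_rf (h.co j) contDiffOn_id hy).symm
  exact ⟨r, z 0, z 1, z 2, z 3, .inv (u := fun j => (hp _).N) one_pos (fun j => by
      rw [fv_rs rs_N (h.mem j), h.un j]; simp) (((z 0).mul (z 2)).add ((z 1).mul (z 3)))
      fun j => (k j).hN, .inv h.p1 (fun j => by
      rw [fv_z 1 (h.mem j)]; exact (h.rr j).1.trans (by simp [zc, le_abs_self])) r fun j => (k j).hr⟩

theorem gp (n : ℕ) : Gp (lI M0 O M a) x n fun j => pI (O j) M0 (M j) (a j) := by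
  have z := h.gz n
  have a1 : Oq (lI M0 O M a) x n 1 fun j => (pI (O j) M0 (M j) (a j)).a :=
    .alg (c := fun j => a j) fun j => (Complex.norm_real _).le.trans (h.par j).2
  refine ⟨a1, .alg (c := fun j => M j) fun j => (Complex.norm_real _).le.trans (h.par j).1,
    .inv (mul_pos h.p1 h.p1) (fun j => ?_) ((z.z1.mul z.z1).add (((a1.mul a1).mul z.kc.1).mul z.kc.1))
      fun j => (mul_comm _ _).trans (P354CV.pI_is (h.co j) h.m0 _ _).hg, h.rf (hs_sm h.m0) n,
    h.rf (js_sm h.m0) n⟩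
  refine le_trans ?_ (congrArg norm (fv_rs (rs_Sg (cone_pos (h.co j)).off fun _ => a j)
    (h.mem j))).ge
  rw [Complex.norm_real]
  refine le_trans ?_ (le_abs_self _)
  nlinarith [(h.rr j).1, h.p1, mul_self_nonneg (a j * oc (x j) 3)]

/-- The generators of the chart sh A B. -/
theorem gS {A B : J → ℝ → ℝ} (hB : ∀ j, ContDiff ℝ ∞ (B j))
    (e : ∀ j, (fun r => deriv (B j) r / 2) = fun r => js M0 (M j, a j, r)) (n : ℕ) :
    Gz (lI M0 O M a) x n fun j => kS (O j) (A j) (B j) := by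
  have t := fun j => kW_I (h.co j) (hB j)
  have z := h.gz n
  have k := Oq.stab (X := lI M0 O M a) (x := x) (μ := 1)
    (F := fun (i : Bool) j => fr1 (O j) (pe (B j) (cond i 1 (-1)))) (fun i => .of1 (B := 1) fun j => by
      rw [q2, fv_fr1 (pe_sm (hB j) _) (h.mem j), pe_norm, one_pow]) (fun n H i b => by
      have u := Oq.ii.mul (h.rf (js_sm h.m0) n)
      by_cases hb : b = 1 <;> cases i
      exacts [(u.mul (H false)).neg.congr fun j => by
          rw [lI, cond, lt_rad _ (t j).de, if_pos hb, (t j).d1, e],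
        (u.mul (H true)).congr fun j => by rw [lI, cond, lt_rad _ (t j).db, if_pos hb, (t j).b1, e],
        Oq.zero.congr fun j => by rw [lI, cond, lt_rad _ (t j).de, if_neg hb],
        Oq.zero.congr fun j => by rw [lI, cond, lt_rad _ (t j).db, if_neg hb]]) n
  exact ⟨z.z1, (k false).mul z.z2, (k true).mul z.z3, (k true).mul z.z4, (k false).mul z.z5, z.Ni,
    z.ri⟩

end Ft

end Vale.Agent.P354BO
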