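import Vale.Agent.P354BO.Rot

/-!
The coefficients of exp (- i om t + i m phi) and the identity of Parseval.
-/

open scoped ContDiff InnerProductSpace ComplexConjugate Topology Real
open Complex (I)
open MeasureTheory Set Filter

namespace Vale.Agent.P354BO

open P354BF

variable {s s' : ℤ} {P : Type} [NormedAddCommGroup P] [NormedSpace ℝ P] [FiniteDimensional ℝ P]

/-- The coefficient of the frequency om τ k.1 and the axial number k.2. -/
noncomputable def hat (τ : ℝ) (k : ℤ × ℤ) (v : ℝ → S s) : S s := pr k.2 (co τ k.1 v)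

variable {v v' : ℝ → S s} {τ : ℝ} {k : ℤ × ℤ}

theorem eig_hat (τ : ℝ) (k : ℤ × ℤ) (v : ℝ → S s) : Eig k.2 (hat τ k v) := eig_pr _ _

theorem JS.hat {F : ℝ × P → S s} (h : JS F) (τ : ℝ) (k : ℤ × ℤ) :
    JS fun p => hat τ k fun t => F (t, p) := (h.co τ k.1).pr k.2

theorem JS.md {F : ℝ × ℝ → S s} (h : JS F) (τ : ℝ) (k : ℤ × ℤ) :
    (ang s).Md k.2 fun r => P354BO.hat τ k fun t => F (t, r) :=
  ⟨(h.hat τ k).sm, fun _ => (eig_hat τ k _).trans (by rw [Complex.ofReal_intCast])⟩

theorem JS.hat_add (h : JS v) (h' : JS v') :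
    P354BO.hat τ k (fun t => v t + v' t) = P354BO.hat τ k v + P354BO.hat τ k v' := by
  simp only [P354BO.hat, h.co_add h', map_add]

theorem JS.hat_sub (h : JS v) (h' : JS v') :
    P354BO.hat τ k (fun t => v t - v' t) = P354BO.hat τ k v - P354BO.hat τ k v' := by
  simp only [P354BO.hat, h.co_sub h', map_sub]

theorem JS.hat_smul (h : JS v) (z : ℂ) :
    P354BO.hat τ k (fun t => z • v t) = z • P354BO.hat τ k v := by
  simp only [P354BO.hat, h.co_smul, map_smul]

theorem JS.hat_neg (h : JS v) : P354BO.hat τ k (fun t => -v t) = -P354BO.hat τ k v := by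
  simpa only [neg_smul, one_smul] using h.hat_smul (τ := τ) (k := k) (-1)

theorem JS.hat_sum {ι : Type} {t : Finset ι} {v : ι → ℝ → S s} (h : ∀ i ∈ t, JS (v i)) :
    P354BO.hat τ k (fun x => ∑ i ∈ t, v i x) = ∑ i ∈ t, P354BO.hat τ k (v i) := by
  classical
  induction t using Finset.induction_on with
  | empty => simpa using (JS.const (P := ℝ) (0 : S s)).hat_smul (τ := τ) (k := k) 0
  | insert i t a ih =>
    have b := fun j hj => h j (Finset.mem_insert_of_mem hj)
    simp only [Finset.sum_insert a, (h i (Finset.mem_insert_self i t)).hat_add (JS.sum b), ih b]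

/-- The derivative in the parameter acts as - i om. -/
theorem JS.hat_deriv (h : JS v) (hτ : τ ≠ 0) (hp : v τ = v 0) :
    P354BO.hat τ k (_root_.deriv v) = (-(I * om τ k.1)) • P354BO.hat τ k v := by
  simp only [P354BO.hat, h.co_deriv hτ hp, map_smul]

theorem JS.hat_L2 (h : JS v) :
    P354BO.hat τ k (fun t => P354BO.L 2 (v t)) = (I * k.2) • P354BO.hat τ k v := by
  simp only [P354BO.hat, h.co_L, pr_L2]

theorem JS.hat_w2 (h : JS v) :
    P354BO.hat τ k (fun t => P354BO.w 2 (v t)) = P354BO.w 2 (P354BO.hat τ k v) := by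
  simp only [P354BO.hat, h.co_w, pr_w2]

omit [FiniteDimensional ℝ P] in
theorem JS.cas {F : P → S s} (h : JS F) : JS fun p => (ang s).cas (F p) := by
  simp only [Ang.cas_apply]
  exact (JS.sum fun i _ => (h.L i).L i).neg

/-- Operators that commute with the axial rotation and have a formal adjoint. -/
theorem JS.hat_op (h : JS v) {T : S s →ₗ[ℂ] S s'} {T' : S s' →ₗ[ℂ] S s}
    (hT : ∀ x y, ⟪x, T y⟫_ℂ = ⟪T' x, y⟫_ℂ) (hL : ∀ y, P354BO.L 2 (T y) = T (P354BO.L 2 y))
    (h' : JS fun t => T (v t)) : P354BO.hat τ k (fun t => T (v t)) = T (P354BO.hat τ k v) := by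
  simp only [P354BO.hat, h.co_op hT h', pr_comm hT hL]

theorem JS.hat_cas (h : JS v) :
    P354BO.hat τ k (fun t => (ang s).cas (v t)) = (ang s).cas (P354BO.hat τ k v) :=
  h.hat_op (T := (ang s).cas) (T' := (ang s).cas) (fun x y => ((ang_is s).cas_symm x y).symm)
    (ang_is s).L2_cas h.cas

theorem JS.fderiv_hat {F : ℝ × P → S s} (h : JS F) (τ : ℝ) (k : ℤ × ℤ) (p e : P) :
    _root_.fderiv ℝ (fun p => P354BO.hat τ k fun t => F (t, p)) p e =
      P354BO.hat τ k fun t => _root_.fderiv ℝ (fun q => F (t, q)) p e :=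
  (fderiv_pr ((h.co τ k.1).differentiable p) k.2 e).trans (congrArg _ (h.fderiv_co τ k.1 p e))

theorem JS.pd2 {Q : Type} [NormedAddCommGroup Q] [NormedSpace ℝ Q] [FiniteDimensional ℝ Q]
    {F : Q × P → S s} (h : JS F) (e : P) :
    JS fun x : Q × P => _root_.fderiv ℝ (fun q => F (x.1, q)) x.2 e := by
  have : (fun x : Q × P => _root_.fderiv ℝ (fun q => F (x.1, q)) x.2 e) =
      fun x => _root_.fderiv ℝ F x (0, e) := funext fun x => congrArg (fun D : P →L[ℝ] S s => D e)
    ((h.differentiable x).hasFDerivAt.comp x.2 (f := fun q => (x.1, q))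
      (hasFDerivAt_prodMk_right x.1 x.2)).fderiv
  rw [this]
  exact h.fderiv _

theorem JS.pd1 {Q : Type} [NormedAddCommGroup Q] [NormedSpace ℝ Q] [FiniteDimensional ℝ Q]
    {F : Q × P → S s} (h : JS F) (e : Q) :
    JS fun x : Q × P => _root_.fderiv ℝ (fun q => F (q, x.2)) x.1 e :=
  ((h.comp (g := fun x : P × Q => (x.2, x.1)) (contDiff_snd.prodMk contDiff_fst)).pd2 e).comp
    (g := fun x : Q × P => (x.2, x.1)) (contDiff_snd.prodMk contDiff_fst)

theorem JS.iter2 {F : P × ℝ → S s} (h : JS F) (j : ℕ) :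
    JS fun x : P × ℝ => iteratedDeriv j (fun r => F (x.1, r)) x.2 := by
  induction j with
  | zero => exact h
  | succ j ih =>
    simp only [iteratedDeriv_succ]
    exact ih.pd2 1

theorem JS.deriv_hat {F : ℝ × ℝ → S s} (h : JS F) (τ : ℝ) (k : ℤ × ℤ) (r : ℝ) :
    _root_.deriv (fun r => P354BO.hat τ k fun t => F (t, r)) r =
      P354BO.hat τ k fun t => _root_.deriv (fun q => F (t, q)) r := h.fderiv_hat τ k r 1

theorem JS.iter_hat {F : ℝ × ℝ → S s} (h : JS F) (τ : ℝ) (k : ℤ × ℤ) (j : ℕ) (r : ℝ) :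
    iteratedDeriv j (fun r => P354BO.hat τ k fun t => F (t, r)) r =
      P354BO.hat τ k fun t => iteratedDeriv j (fun q => F (t, q)) r := by
  induction j generalizing r with
  | zero => rfl
  | succ j ih =>
    simp only [iteratedDeriv_succ, funext ih]
    exact (h.iter2 j).deriv_hat τ k r

/-- The identity of Parseval. -/
theorem JS.hasSum_hat (h : JS v) (hτ : 0 < τ) :
    HasSum (fun k => ‖P354BO.hat τ k v‖ ^ 2) (τ⁻¹ * ∫ t in (0 : ℝ)..τ, ‖v t‖ ^ 2) := by
  have a := fun k => hasSum_pr (P354BO.co τ k v)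
  have b : Summable fun k : ℤ × ℤ => ‖P354BO.hat τ k v‖ ^ 2 :=
    (summable_prod_of_nonneg fun _ => sq_nonneg _).2 ⟨fun k => (a k).summable,
      (h.hasSum_co hτ).summable.congr fun k => (a k).tsum_eq.symm⟩
  rw [← (b.hasSum.prod_fiberwise a).unique (h.hasSum_co hτ)]
  exact b.hasSum

theorem JS.hasSum_hat_inner (h : JS v) (h' : JS v') (hτ : 0 < τ) :
    HasSum (fun k => ⟪P354BO.hat τ k v, P354BO.hat τ k v'⟫_ℂ)
      ((τ⁻¹ : ℝ) * ∫ t in (0 : ℝ)..τ, ⟪v t, v' t⟫_ℂ) := by
  rw [← h.pol_int h' 0 τ τ⁻¹ fun _ => rfl]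
  refine pol (q := fun z => τ⁻¹ * ∫ t in (0 : ℝ)..τ, ‖v t + z • v' t‖ ^ 2) fun z => ?_
  have a := h'.smul (contDiff_const (c := z))
  simpa only [h.hat_add a, h'.hat_smul] using (h.add a).hasSum_hat hτ

/-- The sum of the squares of all words of length n in the rotations. -/
noncomputable def nw : ℕ → S s → ℝ
  | 0, u => ‖u‖ ^ 2
  | n + 1, u => ∑ i, nw n (L i u)

theorem nw_nonneg (n : ℕ) (u : S s) : 0 ≤ nw n u := by
  induction n generalizing u with
  | zero => exact sq_nonneg _
  | succ n ih => exact Finset.sum_nonneg fun _ _ => ih _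

theorem word_le (α : List (Fin 3)) (u : S s) : ‖(ang s).word α u‖ ^ 2 ≤ nw α.length u := by
  induction α using List.reverseRecOn generalizing u with
  | nil => exact le_rfl
  | append_singleton α i ih =>
    have e : ∀ α : List (Fin 3), (ang s).word (α ++ [i]) u = (ang s).word α (L i u) := fun α => by
      induction α with
      | nil => rfl
      | cons j α ih => exact congrArg (L j) ih
    rw [e, List.length_append]
    exact (ih _).trans (Finset.single_le_sum (f := fun i => nw α.length (L i u))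
      (fun _ _ => nw_nonneg _ _) (Finset.mem_univ i))

theorem L_cas (i : Fin 3) (u : S s) : L i ((ang s).cas u) = (ang s).cas (L i u) := by
  have a := (ang_is s).L01
  have b := (ang_is s).L12
  have c := (ang_is s).L20
  simp only [ang] at a b c
  have a' : ∀ u : S s, L 1 (L 0 u) = L 0 (L 1 u) + L 2 u := fun u => by rw [a]; abel
  have b' : ∀ u : S s, L 2 (L 1 u) = L 1 (L 2 u) + L 0 u := fun u => by rw [b]; abel
  induction i using fin3 <;>
    simp only [Ang.cas_apply, Fin.sum_univ_three, ang, map_neg, map_add, map_sub, a', b', c] <;> abel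

theorem nw_eq (n : ℕ) (u : S s) : (nw n u : ℂ) = ⟪u, ((ang s).cas ^ n) u⟫_ℂ := by
  induction n generalizing u with
  | zero => exact (P354BF.ip_self u).symm
  | succ n ih =>
    have e : ∀ i n, L i (((ang s).cas ^ n) u) = ((ang s).cas ^ n) (L i u) := fun i n => by
      induction n with
      | zero => rfl
      | succ n ih => simp only [pow_succ', Module.End.mul_apply, L_cas, ih]
    rw [pow_succ', Module.End.mul_apply, (ang_is s).cas_ip, nw, Complex.ofReal_sum]
    exact Finset.sum_congr rfl fun i _ => (ih _).trans (congrArg _ (e i n).symm)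

theorem JS.cas_pow (h : JS v) (n : ℕ) : (JS fun t => ((ang s).cas ^ n) (v t)) ∧
    P354BO.hat τ k (fun t => ((ang s).cas ^ n) (v t)) = ((ang s).cas ^ n) (P354BO.hat τ k v) := by
  induction n with
  | zero => exact ⟨h, rfl⟩
  | succ n ih =>
    simp only [pow_succ', Module.End.mul_apply, ih.1.hat_cas, ih.2]
    exact ⟨ih.1.cas, trivial⟩

/-- The identity of Parseval for all words of length n in the rotations. -/
theorem JS.hasSum_nw (h : JS v) (hτ : 0 < τ) (n : ℕ) :
    HasSum (fun k => nw n (P354BO.hat τ k v)) (τ⁻¹ * ∫ t in (0 : ℝ)..τ, nw n (v t)) := by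
  have := h.hasSum_hat_inner (h.cas_pow (τ := τ) (k := 0) n).1 hτ
  simp only [(h.cas_pow n).2, ← nw_eq, intervalIntegral.integral_ofReal, ← Complex.ofReal_mul] at this
  exact Complex.hasSum_ofReal.1 this

theorem JS.nw_cont {F : P → S s} (h : JS F) (n : ℕ) :
    Continuous fun p => nw n (F p) := by
  induction n generalizing F with
  | zero => exact h.contDiff.continuous.norm.pow 2
  | succ n ih => exact continuous_finsetSum _ fun i _ => ih (h.L i)

/-- Sums of non negative terms and integrals. -/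
theorem hasSum_int {ι : Type} [Countable ι] {f : ι → ℝ → ℝ} {g : ℝ → ℝ} {x y : ℝ} (hxy : x ≤ y)
    (hf : ∀ k, IntervalIntegrable (f k) volume x y) (hg : IntervalIntegrable g volume x y)
    (h0 : ∀ k, ∀ r ∈ Ioc x y, 0 ≤ f k r) (h : ∀ r ∈ Ioc x y, HasSum (fun k => f k r) (g r)) :
    HasSum (fun k => ∫ r in x..y, f k r) (∫ r in x..y, g r) := by
  simp only [intervalIntegral.integral_of_le hxy]
  have e : ∀ k, ∫ r in Ioc x y, ‖f k r‖ = ∫ r in Ioc x y, f k r := fun k =>
    setIntegral_congr_fun measurableSet_Ioc fun r a => Real.norm_of_nonneg (h0 k r a)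
  have := hasSum_integral_of_summable_integral_norm (fun k => (hf k).1)
    (summable_of_sum_le (c := ∫ r in Ioc x y, g r) (fun _ => integral_nonneg fun _ => norm_nonneg _)
      fun t => by
        simp only [e]
        rw [← integral_finsetSum _ fun k _ => (hf k).1]
        exact setIntegral_mono_on (integrable_finsetSum _ fun k _ => (hf k).1) hg.1
          measurableSet_Ioc fun r a => sum_le_hasSum t (fun k _ => h0 k r a) (h r a))
  rwa [setIntegral_congr_fun measurableSet_Ioc fun r a => (h r a).tsum_eq] at this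

/-- The identity of Parseval with a radial weight. -/
theorem JS.hasSum_wt {F : ℝ × ℝ → S s} (h : JS F) (hτ : 0 < τ) (n : ℕ) {g : ℝ → ℝ} {x y : ℝ}
    (hxy : x ≤ y) (hg : ContinuousOn g (Icc x y)) (h0 : ∀ r ∈ Icc x y, 0 ≤ g r) :
    HasSum (fun k => ∫ r in x..y, g r * nw n (P354BO.hat τ k fun t => F (t, r)))
      (τ⁻¹ * ∫ r in x..y, g r * ∫ t in (0 : ℝ)..τ, nw n (F (t, r))) := by
  rw [← intervalIntegral.integral_const_mul]
  refine hasSum_int hxy (fun k => (hg.mul ((h.hat τ k).nw_cont n).continuousOn).intervalIntegrable_of_Icc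
    hxy) (((hg.mul (intervalIntegral.continuous_parametric_intervalIntegral_of_continuous'
      (f := fun r t => nw n (F (t, r))) (μ := volume)
      (show Continuous fun x : ℝ × ℝ => nw n (F (x.2, x.1)) from (h.nw_cont n).comp continuous_swap)
      0 τ).continuousOn).intervalIntegrable_of_Icc hxy).const_mul _)
    (fun k r a => mul_nonneg (h0 r (Ioc_subset_Icc_self a)) (nw_nonneg _ _)) fun r _ => ?_
  rw [mul_left_comm]
  exact ((h.comp (contDiff_prodMk_left r)).hasSum_nw hτ n).mul_left _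

end Vale.Agent.P354BO
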