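import Vale.Agent.P354BO.Lw2
import Vale.Agent.P354YT.Tau

/-!
LOWU: bounds for metrics which are close to Kerr.
-/

open scoped ContDiff
open Set Filter Topology Complex

namespace Vale.Agent.P354BO

open P354RC (cv)
open P354XE (Tw gin rd Lo eT)
open P354XG hiding Dom Dom0 Bd bdSub domI Keeps Low dom0_mk dom0_zero dom0_cst dom_of
  dom_zero dom_cst bd_alg dom_sum dom0_sum keeps_pd keeps_zero keeps_sum bd_closure dom_pb_aff
  bd_fn bd_par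
open P354MG hiding Sml
open P354XD P354YA
open P354XR hiding pw
open P354Z (f4 sc)
open P354HI (K1 G1 yK qt vP Yc rt lr nr dt vk Pz ev ev_pz LOWU)

/-- A grading with parameters. -/
@[reducible] def grTh {J Θ : Type} (f : ℕ → Θ → Filter J) (h : ∀ θ, Antitone (f · θ)) :
    Gr (⨅ k, ⨆ θ, map (Prod.mk θ) (f k θ)) where
  Th := Θ
  th := Prod.fst
  ph k θ := map (Prod.mk θ) (f k θ)
  anti θ _ _ e := map_mono (h θ e)
  th_eq _ _ := eventually_map.2 (.of_forall fun _ => rfl)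
  ev _ := by
    rw [Filter.Eventually, mem_iInf_of_directed (Antitone.directed_ge
      (f := fun k => ⨆ θ, map (Prod.mk θ) (f k θ)) fun _ _ e => iSup_mono fun θ => map_mono (h θ e))]
    simp only [mem_iSup]
    rfl

variable {M a : ℝ}

/-- The shells. -/
abbrev Tq : Type := {θ : ℝ × ℝ // 0 < θ.1}

/-- The graded family. -/
noncomputable def FF (M a : ℝ) : Filter (Tq × Tw × E6 × ℝ) :=
  ⨅ k, ⨆ θ : Tq, map (Prod.mk θ) (fl M a θ.1.1 θ.1.2 k)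
noncomputable instance : Gr (FF M a) :=
  grTh (fun k (θ : Tq) => fl M a θ.1.1 θ.1.2 k) fun _ => fl_anti

theorem ph_ev {k : ℕ} {θ : Tq} {P : Tq × Tw × E6 × ℝ → Prop}
    (h : ∀ j, Hy M a θ.1.1 θ.1.2 k j → P (θ, j)) : ∀ᶠ j in ph (FF M a) k θ, P j :=
  eventually_map.2 ((fl_hy k).mono h)

theorem ph_ex {k : ℕ} {θ : Tq} {P : Tq × Tw × E6 × ℝ → Prop} (h : ∀ᶠ j in ph (FF M a) k θ, P j) :
    ∃ δ > 0, ∀ j, |j.2.2| ≤ δ → Hy M a θ.1.1 θ.1.2 k j → P (θ, j) := fl_ev (eventually_map.1 h)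

theorem unif (hM : M ≠ 0) (n : ℕ) : ∃ m, ∀ r1 > 0, ∀ r2, ∃ C, ∀ e > 0, ∃ δ > 0, ∀ p : Tw × E6,
    nq p.2 = 1 → r1 ≤ p.2.2.1 → p.2.2.1 ≤ r2 → VacAt p.1 (pj p.2) →
    P354XE.Bd m (p.1 - gin M a) (pj p.2) δ → p.2 ∈ K1 M a p.1 ∧
      (∀ i, qq (f4 (gT (G1 M a) M a id)) p n (dt (G1 M a) M a id i) ≤ C) ∧ ‖(vP M a p)⁻¹‖ ≤ C ∧
      ∀ i, ‖rep (sq M a (G1 M a) id i) p - sv M a p.2 i‖ < e := by
  have s : P354MG.Sml (FF M a) fun _ j => |j.2.2.2| :=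
    .of_forall fun k θ => tendsto_map'_iff.2 (fl_lim k)
  have r0 : Reg (FF M a) (fun j => {j.2.2.1}) (fun _ => M) fun _ => a :=
    .of_forall fun k θ => ⟨_, lt_min (lt_min (abs_pos.2 hM) θ.2) (by norm_num), _,
      ph_ev fun j h x hx => hx ▸ h.rg⟩
  have hv : ∀ᶠ j in FF M a, ∀ x ∈ ({j.2.2.1} : Set E6), VacAt j.2.1 (pj x) :=
    evk_of (.of_forall fun k θ => ph_ev fun j h x hx => hx ▸ h.1)
  have hf : ∀ᶠ q in gr, ∀ θ, ∃ C, 0 ≤ C ∧ ∀ᶠ j in ph (FF M a) q.2 θ, ∀ x ∈ ({j.2.2.1} : Set E6),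
      P354XE.Bd q.1 (j.2.1 - gin M a) (pj x) (C * |j.2.2.2|) :=
    ev_gr.2 ⟨0, fun n k e θ => ⟨1, zero_le_one, ph_ev fun j h x hx => hx ▸ h.bd e⟩⟩
  have w : Wgt fun (_ : ℕ) (j : Tq × Tw × E6 × ℝ) => |j.2.2.2| :=
    ⟨fun _ _ => abs_nonneg _, fun _ _ _ _ => le_rfl⟩
  obtain ⟨k1, hX, b1, ⟨u, b2, ru⟩, b3⟩ := key (g := fun j : Tq × Tw × E6 × ℝ => j.2.1) hM r0 hv w s hf
  have r : Rx _ (G1 M a) fun j : Tq × Tw × E6 × ℝ => j.2.1 := rx_of k1
  choose v b3 rv using b3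
  have q1 := eventually_all.2 fun i => r.qq (f4_hom (hom1 r).2.2.2.2.1) n (dt _ M a id i)
  have q2 := eventually_all.2 fun i => (r.rep (sq M a _ id i)).sub (rv i)
  simp only [(hom2 r).1, (hom2 r).2] at q1 q2
  have q3 := eventually_all.2 fun i =>
    qq_dom _ (qq _) (fun _ _ => rfl) (fun _ _ _ => rfl) hX n (b1 i)
  have q4 := eventually_all.2 fun i => (b3 i).dom0.ev_lt' s
  obtain ⟨k, ⟨a1, a2⟩, a3, a4⟩ := (((evk (ev_nb_on (k1.and (ru.and (q1.and q2))))).and q3).and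
    (b2.dom0.and q4)).exists
  refine ⟨k, fun r1 h1 r2 => ?_⟩
  choose D hD using fun i => a2 i ⟨(r1, r2), h1⟩
  obtain ⟨C, c0, hC⟩ := a3 ⟨(r1, r2), h1⟩
  have d0 : 0 ≤ ∑ i, |D i| := Finset.sum_nonneg fun _ _ => abs_nonneg _
  refine ⟨C + ∑ i, |D i|, fun e he => ?_⟩
  obtain ⟨δ, hδ, H⟩ := ph_ex (((a1 ⟨(r1, r2), h1⟩).and (eventually_all.2 hD)).and
    (hC.and (eventually_all.2 fun i => a4 i ⟨(r1, r2), h1⟩ e he)))
  refine ⟨δ, hδ, fun p e1 e2 e3 e4 e5 => ?_⟩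
  obtain ⟨⟨t1, t2⟩, t3, t4⟩ := H (p.1, p.2, δ) (abs_of_pos hδ).le ⟨e4, e2, e3, an_one e1, e5⟩
  obtain ⟨s1, s2, s3, s4⟩ := t1 _ rfl
  refine ⟨s1, fun i => ?_, ?_, fun i => s4 i ▸ t4 i _ rfl⟩
  · have := t2 i _ rfl
    rw [s3, w1, one_pow, mul_one] at this
    linarith [le_abs_self (D i), Finset.single_le_sum (f := fun i => |D i|)
      (fun _ _ => abs_nonneg _) (Finset.mem_univ i)]
  · have := t3 _ rfl
    rw [s2, w1, mul_one] at this
    linarith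

theorem re_near {z : ℂ} {t e : ℝ} (h : ‖z - t‖ < e) : |z.re - t| < e := by
  simpa using (abs_re_le_norm (z - t)).trans_lt h

theorem inv_le {z : ℂ} (h : 1 / 4 ≤ |z.re|) : ‖z⁻¹‖ ≤ 4 := by
  rw [norm_inv]
  exact inv_le_of_inv_le₀ (by norm_num) (by simpa using h.trans (abs_re_le_norm z))

theorem oc_sq {x : E6} (h : 0 < x.2.1) (h1 : nq x = 1) : oc x 3 * oc x 3 ≤ 1 := by
  have e : oc x 3 = normSq x.2.2.1 - normSq x.2.2.2 := by simp [oc, pj, h1, h.ne']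
  rw [e]
  rw [nq] at h1
  nlinarith [mul_nonneg (normSq_nonneg x.2.2.1) (normSq_nonneg x.2.2.2)]

theorem bp_abs (x : ℝ) : |P354YT.bp x| ≤ 2 := by
  have := abs_le.1 (P354YT.al_x x)
  have := P354YT.sg_mem x
  have := P354YT.sg_mem (-x)
  rw [abs_le, P354YT.bp]
  rw [P354YT.al] at *
  constructor <;> linarith

/-- The field X in the frame of Kerr. -/
theorem X_val {c : P354YT.Pm} (o : c.Ok) (p : Pz (K1 c.M c.a)) (h1 : nq p.1.2 = 1)
    (hD : p.1.2.2.1 * p.1.2.2.1 - 2 * c.M * p.1.2.2.1 + c.a * c.a ≠ 0) (d : Fin 4) :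
    ev _ p (vk (G1 c.M c.a) c.X d) = ca c (pj p.1.2) * ev _ p (Hp.e0 _ d) +
      (cl c (pj p.1.2) / ds c.M c.a p.1.2 : ℝ) * ev _ p ((fK (G1 c.M c.a) c.M c.a).l d) +
      cn c (pj p.1.2) * ev _ p ((fK (G1 c.M c.a) c.M c.a).n d) := by
  have po := G1_pos (M := c.M) (a := c.a)
  have v : ∀ {u f}, Rs u f → ev _ p u = f p.1 := fun h => ev_pz _ h p
  obtain ⟨r0, x0⟩ := p.2.1.self_of_nhds.1.1
  have R := rd_pj r0 x0
  have S := (sg_pos r0 c.a).ne'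
  obtain ⟨e1, e2⟩ := fr_ln (hp_is po.off) (cst fun _ => (c.a : ℂ)) (cst fun _ => (c.M : ℂ))
    (pm (G1 c.M c.a) (fun _ => c.M) fun _ => c.a).sg d
  have e3 : ev _ p (Hp.e0 (Sm (G1 c.M c.a)) d) = (cv d eT : ℝ) := by
    fin_cases d <;> simp [Hp.e0, cv, eT]
  have e4 : ev _ p (qv (hp (G1 c.M c.a)) d) =
      (cv d (P354XE.Om 2 (pj p.1.2)) / (p.1.2.2.1 * p.1.2.2.1) : ℝ) := by
    fin_cases d <;> simp [qv, cv, P354XE.Om, v (rs_ri po.off), v (rs_om po.off _), zc, oc] <;> ring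
  have e5 : oc p.1.2 d = cv d (0, (pj p.1.2).2) / p.1.2.2.1 := by fin_cases d <;> simp [oc, cv]
  have e6 : c.X (pj p.1.2) = ca c (pj p.1.2) • eT + cl c (pj p.1.2) • Lo c.M c.a (pj p.1.2) +
      cn c (pj p.1.2) • P354YT.No (pj p.1.2) := rfl
  have e7 : cv d (Lo c.M c.a (pj p.1.2)) = ((p.1.2.2.1 * p.1.2.2.1 + 2 * c.M * p.1.2.2.1 +
      c.a * c.a) * cv d eT + 2 * c.a * cv d (P354XE.Om 2 (pj p.1.2))) / (p.1.2.2.1 * p.1.2.2.1 -
        2 * c.M * p.1.2.2.1 + c.a * c.a) + cv d (0, (pj p.1.2).2) / p.1.2.2.1 := by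
    rw [Lo, R, show P354R.Del c.M c.a p.1.2.2.1 = p.1.2.2.1 * p.1.2.2.1 - 2 * c.M * p.1.2.2.1 +
      c.a * c.a by rw [P354R.Del]; ring]
    generalize e : p.1.2.2.1 * p.1.2.2.1 - 2 * c.M * p.1.2.2.1 + c.a * c.a = D at hD ⊢
    fin_cases d <;> simp [cv, eT, P354XE.Om] <;> field_simp <;> first | linear_combination e | ring
  have e8 : cv d (P354YT.No (pj p.1.2)) = cv d eT - cv d (0, (pj p.1.2).2) / p.1.2.2.1 := by
    rw [P354YT.No, R]
    fin_cases d <;> simp [cv, eT] <;> ring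
  rw [show (fK (G1 c.M c.a) c.M c.a).l d = _ from e1, show (fK (G1 c.M c.a) c.M c.a).n d = _ from e2,
    vk, P354HI.kf, v (rs_pb po.off (f := fun _ y => cv d (c.X y)) (po.mono fun y h =>
      (cv d).contDiff.contDiffAt.comp _ (o.X_cd (by rw [rd_pj h.1 h.2]; exact h.1))))]
  simp only [map_add, map_sub, map_mul, map_ofNat, e3, e4, v (rs_om po.off d), v (rs_z 1), v rs_N,
    v (rs_Ni po.off), v (rs_sg po _ _), v (rs_cst _), h1, e5, e6, map_smul, smul_eq_mul, e7, e8, ds,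
    sI, show zc 1 p.1.2 = p.1.2.2.1 from rfl]
  norm_cast
  generalize p.1.2.2.1 * p.1.2.2.1 - 2 * c.M * p.1.2.2.1 + c.a * c.a = D at hD ⊢
  generalize p.1.2.2.1 * p.1.2.2.1 + c.a * c.a * oc p.1.2 3 * oc p.1.2 3 = T at S ⊢
  field_simp
  ring

/-- LOWU. -/
theorem lowu : LOWU := by
  intro M a h n
  obtain ⟨m, H⟩ := unif (a := a) ((abs_nonneg a).trans_lt h).ne' n
  refine ⟨m, fun c hM ha ok _ => ?_⟩
  subst hM ha
  have r0 := ok.1.r10
  obtain ⟨C, H⟩ := H c.r1 r0 c.Rs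
  refine ⟨|C| + 4, fun e he => ?_⟩
  obtain ⟨δ, hδ, H⟩ := H (min (min (e / (C ^ 2 + 1)) e) (min (1 / 20)
    (c.r1 * c.r1 * (c.Rs * c.Rs + c.a * c.a + 1)⁻¹))) (by
      have := mul_self_nonneg c.Rs
      have := mul_self_nonneg c.a
      positivity)
  refine ⟨δ, hδ, fun p h1 h2 h3 h4 h5 => ?_⟩
  obtain ⟨k, b1, b2, b3⟩ := H p h1 h2 h3 h4 h5
  simp only [lt_min_iff] at b3
  have r := r0.trans_le h2
  have c1 := le_abs_self C
  have c2 := abs_nonneg C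
  have oc1 := oc_sq r h1
  have S := sg_pos r c.a
  have n1 : |(rep (nr (G1 c.M c.a) c.M c.a id) p).re - -1| < 1 / 20 :=
    re_near (by simpa [sq, sv, h1] using (b3 (.inl 1)).2.1)
  have l1 : |(rep (lr (G1 c.M c.a) c.M c.a id) p).re - ds c.M c.a p.2| < 1 / 20 :=
    re_near (by simpa [sq, sv, h1] using (b3 (.inl 2)).2.1)
  have dl : |dd c (pj p.2)| < 2 → 0 < p.2.2.1 * p.2.2.1 - 2 * c.M * p.2.2.1 + c.a * c.a ∧
      1 / 2 ≤ ds c.M c.a p.2 := fun hd => by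
    rw [dd, rd_pj r (ne_of_nq h1)] at hd
    have : 4 * c.M * p.2.2.1 ≤ p.2.2.1 * p.2.2.1 := mul_le_mul_of_nonneg_right
      (by linarith [(abs_lt.1 hd).1, ok.2, (abs_nonneg _).trans_lt h]) r.le
    have a2 := mul_self_nonneg c.a
    refine ⟨by nlinarith, ?_⟩
    rw [ds, sI, ← div_eq_inv_mul, le_div_iff₀ S]
    nlinarith [mul_le_mul_of_nonneg_left oc1 a2]
  refine ⟨⟨k, ?_, by linarith [(abs_lt.1 n1).2], fun hd => by linarith [(abs_lt.1 l1).1, (dl hd).2],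
    fun hd => ?_, ?_⟩, fun i => (b1 i).trans (by linarith), b2.trans (by linarith),
    (inv_le (le_abs.2 (.inr (by linarith [(abs_lt.1 n1).2])))).trans (by linarith),
    fun hd => (inv_le (le_abs.2 (.inl (by linarith [(abs_lt.1 l1).1, (dl hd).2])))).trans
      (by linarith), fun i => ⟨by simpa [sq, sv] using (b3 (.inr (.inl i))).1.2.le,
      fun hi => by simpa [sq, sv] using (b3 (.inr (.inr ⟨i, hi⟩))).1.2.le⟩⟩
  · have v0 : vP c.M c.a p ≠ 0 := fun e0 => by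
      have := k.2
      rw [qt, e0] at this
      norm_num at this
    have v1 : 1 ≤ C ^ 2 * ‖vP c.M c.a p‖ ^ 2 := by
      rw [← mul_pow]
      refine one_le_pow₀ ?_
      rwa [norm_inv, inv_le_iff_one_le_mul₀ (norm_pos_iff.2 v0)] at b2
    refine lt_of_lt_of_le (by simpa [sq, sv] using (b3 (.inl 0)).1.1) ?_
    rw [div_le_iff₀ (by positivity)]
    nlinarith [sq_nonneg ‖vP c.M c.a p‖]
  · obtain ⟨d0, d1⟩ := dl hd
    have w0 := re_near (t := -ds c.M c.a p.2) (by simpa [sv] using (b3 (.inl 3)).2.1)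
    have w1 := re_near (t := -ds c.M c.a p.2) (by simpa [sv, h1] using (b3 (.inl 4)).2.1)
    have w2 := re_near (t := -1) (by simpa [sv, h1] using (b3 (.inl 5)).2.1)
    have e : ev _ ⟨p, k⟩ ((sG (G1 c.M c.a) id).dot (Yv c.M c.a _ id) (vk (G1 c.M c.a) c.X)) =
        ca c (pj p.2) * ev _ ⟨p, k⟩ (sq c.M c.a _ id (.inl 3)) + (cl c (pj p.2) / ds c.M c.a p.2 : ℝ) *
        ev _ ⟨p, k⟩ (sq c.M c.a _ id (.inl 4)) + cn c (pj p.2) * ev _ ⟨p, k⟩ (sq c.M c.a _ id (.inl 5)) := by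
      simp only [sq, Sum.elim_inl, Matrix.cons_val, Geo.dot, map_add, map_mul,
        X_val ok.1 ⟨p, k⟩ h1 d0.ne', Fin.sum_univ_four]
      ring
    refine (congrArg re e).trans_lt ?_
    simp only [add_re, re_ofReal_mul]
    change ca c _ * (rep _ p).re + _ * (rep _ p).re + _ * (rep _ p).re < 0
    have a0 : 0 ≤ ca c (pj p.2) := P354YT.al_nonneg _
    have a1 : cl c (pj p.2) + cn c (pj p.2) = 1 - ca c (pj p.2) := by
      simp only [cl, cn, ca, P354YT.bp, P354YT.al_neg]; simp only [P354YT.al]; ring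
    have a2 : ca c (pj p.2) ≤ 1 := by
      simp only [ca, P354YT.al]
      linarith [(P354YT.sg_mem (c.xi (rd (pj p.2)))).1, (P354YT.sg_mem (-c.xi (rd (pj p.2)))).1]
    have a3 : |cl c (pj p.2) / ds c.M c.a p.2| ≤ 4 := by
      rw [abs_div, abs_of_pos (by linarith : 0 < ds c.M c.a p.2), div_le_iff₀ (by linarith)]
      linarith [show |cl c (pj p.2)| ≤ 2 from bp_abs _]
    have a4 : |cn c (pj p.2)| ≤ 2 := bp_abs _
    have a5 : cl c (pj p.2) / ds c.M c.a p.2 * ds c.M c.a p.2 = cl c (pj p.2) :=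
      div_mul_cancel₀ _ (by linarith)
    have m1 := (le_abs_self _).trans ((abs_mul _ _).le.trans
      (mul_le_mul a3 w1.le (abs_nonneg _) (by norm_num)))
    have m2 := (le_abs_self _).trans ((abs_mul _ _).le.trans
      (mul_le_mul a4 w2.le (abs_nonneg _) (by norm_num)))
    nlinarith [mul_le_mul_of_nonneg_left (abs_lt.1 w0).2.le a0, mul_le_mul_of_nonneg_left d1 a0]
  · have e := (ev _ ⟨p, k⟩).map_det (Matrix.of fun i d => P354HI.fv (fT (G1 c.M c.a) c.M c.a id) i d)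
    have w := (abs_im_le_norm _).trans_lt (b3 (.inl 6)).2.2
    have s : (c.Rs * c.Rs + c.a * c.a + 1)⁻¹ ≤ sI c.a p.2 := inv_anti₀ S (by
      nlinarith [mul_le_mul_of_nonneg_left oc1 (mul_self_nonneg c.a), mul_self_le_mul_self r.le h3])
    have s2 := mul_le_mul (mul_self_le_mul_self r0.le h2) s (inv_nonneg.2 (by
      nlinarith [mul_self_nonneg c.Rs, mul_self_nonneg c.a])) (mul_self_nonneg _)
    refine lt_of_lt_of_eq ?_ (congrArg im e)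
    simp only [sv, Sum.elim_inl, Matrix.cons_val, sub_im, ← ofReal_pow, mul_im, mul_re, ofReal_re,
      ofReal_im, I_re, I_im, re_ofNat, im_ofNat] at w
    have : 0 < sI c.a p.2 := inv_pos.2 S
    change 0 < (rep (sq c.M c.a _ id (.inl 6)) p).im
    nlinarith [(abs_lt.1 w).1, mul_pos (mul_pos r r) this]

end Vale.Agent.P354BO
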