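import Vale.Agent.P354HI.Defs
import Vale.Agent.P354XD.Sm

/-!
LOWU: the algebra of the frame of Kerr, and cube roots.
-/

set_option linter.unusedSimpArgs false

open Matrix

namespace Vale.Agent.P354BO

open P354XG P354XG.Geo P354XD P354XR P354Z

variable {A : Type} [CommRing A] [Algebra ℂ A] {K : Hp A} {p : Pm A}

theorem cube {c : A →+* A} {N : Hen c} {a : A} (h : N.Cg a 1) : ∃ s, s ^ 3 = a ∧ N.Cg s 1 := by
  have t : 3 * algebraMap ℂ A (1 / 3) = 1 := by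
    rw [← map_ofNat (algebraMap ℂ A) 3, ← map_mul]; norm_num
  obtain ⟨y, hy, e⟩ := Hen.hens (N.mul _ (Hen.cg_alg (1 / 3)).1 _ (neg_mem h.2)) (one_mem N.B)
    (Hen.cg_alg (1 / 3)).1
  exact ⟨1 + y, by linear_combination 3 * e - (1 - a + y ^ 3) * t, one_mem _, by
    rwa [add_sub_cancel_left]⟩

theorem cg_det {c : A →+* A} {N : Hen c} {U V : Matrix (Fin 4) (Fin 4) A}
    (h : ∀ i j, N.Cg (U i j) (V i j)) : N.Cg U.det V.det := by
  rw [det_apply', det_apply']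
  refine .sum _ fun σ _ => .mul (.refl (intCast_mem _ _)) ?_
  simp only [Fin.prod_univ_four]
  exact (((h _ _).mul (h _ _)).mul (h _ _)).mul (h _ _)

variable (h : K.Is) (q : p.Is K)
include h q

theorem kerr_r : (kk K p).kerr.th (K.z 1) = K.N * p.sg * (kk K p).De ∧
    (kk K p).kerr.tp (K.z 1) = -K.Ni ∧ ∀ i ≥ 2, f4 (kk K p).kerr i (K.z 1) = 0 := by
  have k := kk_is h q
  have r : K.z 1 = (kk K p).r := rfl
  have a : K.N = (kk K p).N := rfl
  have b : K.Ni = (kk K p).Ni := rfl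
  have c : p.sg = (kk K p).sg := rfl
  rw [r, a, b, c]
  refine ⟨?_, ?_, fun i hi => ?_⟩
  · simp [KC.kerr, KC.th, KC.V_ap, k.tab]
  · simp [KC.kerr, KC.tp, KC.V_ap, k.tab]
  · fin_cases i <;> simp [f4, KC.kerr, KC.et, KC.ep, KC.V_ap, k.tab] at hi ⊢

theorem det_K : (of fun i d => P354HI.fv (frK K p) i d).det = 4 * ii A * K.z 1 ^ 2 * p.sg := by
  have k := kk_is h q
  have e : (of fun i d => P354HI.fv (frK K p) i d) = !![2 * K.N * p.sg * (kk K p).W,
      K.N * p.sg * (kk K p).De, ii A * p.a * K.N * p.sg * K.kc.s, -(ii A * p.a * K.N * p.sg * K.kc.sb);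
      0, -K.Ni, 0, 0; ii A * p.a * K.kc.s * (kk K p).zb, 0, 0, (kk K p).zb;
      -(ii A * p.a * K.kc.sb * (kk K p).z), 0, (kk K p).z, 0] * of ![Hp.e0 A, fun d => K.om d -
      p.h1 * Hp.e0 A d - p.j1 * ii A * K.z 1 * (K.kc.s * K.mub d - K.kc.sb * K.mu d),
      fun d => K.z 1 * K.mub d, fun d => K.z 1 * K.mu d] := by
    ext i d
    fin_cases i <;> simp [P354HI.fv, frK, KC.th, KC.tp, KC.et, KC.ep, kk_V, h.prj_V, mul_apply,
      Fin.sum_univ_four] <;> simp only [kk, Hp.kc] <;> ring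
  have n := h.hN
  have g := q.hg
  have s : K.kc.s * K.kc.sb = 1 - K.kc.x * K.kc.x := k.hs
  have z : (kk K p).z * (kk K p).zb = p.sg := by
    simp only [KC.z, KC.zb, kk, Hp.kc] at g ⊢
    linear_combination p.sg * g - (p.sg * p.a * ((K.z 2 * K.z 4 - K.z 3 * K.z 5) * K.Ni)) ^ 2 *
      ii_sq (A := A)
  have w : (kk K p).W = K.z 1 * K.z 1 + p.a * p.a := rfl
  have d : (of ![Hp.e0 A, fun d => K.om d - p.h1 * Hp.e0 A d - p.j1 * ii A * K.z 1 *
      (K.kc.s * K.mub d - K.kc.sb * K.mu d), fun d => K.z 1 * K.mub d,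
      fun d => K.z 1 * K.mu d]).det = 2 * ii A * K.z 1 ^ 2 * (K.N * K.Ni) ^ 3 := by
    simp [det_succ_row_zero, Fin.sum_univ_succ, Fin.succAbove, Hp.e0, Hp.om, Hp.mu, Hp.mub, Hp.N]
    ring
  rw [e, det_mul, d, n]
  simp [det_succ_row_zero, Fin.sum_univ_succ, Fin.succAbove, w]
  generalize (kk K p).z = u at z
  generalize (kk K p).zb = v at z
  linear_combination 4 * ii A * K.z 1 ^ 2 * (p.sg * (K.z 1 * K.z 1 + p.a * p.a + ii A * ii A * p.a *
    p.a * K.kc.s * K.kc.sb) * (u * v * n + z) + p.sg * (g + p.sg * p.a * p.a * (K.kc.s * K.kc.sb *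
      ii_sq (A := A) - s)))

/-- The products of the timelike vector with d/dt, l and n. -/
theorem dot_K (Γ : Fin 4 → Fin 4 → Fin 4 → A) {Y : Vec A} (e : Y = (K.N * p.sg * (kk K p).De) •
    (frK K p).n - (-K.Ni) • (frK K p).l) :
    (K.geo (gK K p) Γ).dot Y (Hp.e0 A) = -(p.sg * (kk K p).De) ∧
    (K.geo (gK K p) Γ).dot Y (frK K p).l = -(K.N * p.sg * (kk K p).De) ∧
    (K.geo (gK K p) Γ).dot Y (frK K p).n = -K.Ni := by
  have k := kk_is h q
  have w := frK_wn h q Γ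
  have c : (K.geo (gK K p) Γ).dot (frK K p).n (frK K p).l = -1 := by
    rw [← w.ln]
    simp only [dot_gK, KC.gB]
    ring
  have t : Hp.e0 A = K.prj ((kk K p).V 1 0 0 0 0 0) := funext fun d => by simp [kk_V, h.prj_V]
  subst e
  simp only [dot_sub_left, dot_smul_left, w.ll, w.nn, w.ln, c]
  refine ⟨?_, by ring, by ring⟩
  rw [t, frK, KC.th, KC.tp, dot_V h, dot_V h]
  have a : K.N = (kk K p).N := rfl
  have b : K.Ni = (kk K p).Ni := rfl
  have c : p.sg = (kk K p).sg := rfl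
  rw [a, b, c]
  generalize kk K p = L at k
  simp only [KC.gB, KC.qf, KC.De, KC.W]
  linear_combination (-(L.sg * (L.r * L.r - 2 * L.M * L.r + L.a * L.a))) * (2 * hf A * k.hN +
    two_hf (A := A)) + 4 * hf A * L.Ni * L.M * L.r * L.sg * L.N * (k.hg + L.sg * L.a * L.a *
      (L.s * L.sb * ii_sq (A := A) - k.hs))

omit q in
theorem fr_ln (a M sg : A) (d : Fin 4) : (frK K ⟨a, M, sg, 1, 0⟩).l d = K.N * sg *
    ((K.z 1 * K.z 1 + 2 * M * K.z 1 + a * a) * Hp.e0 A d + (K.z 1 * K.z 1 - 2 * M * K.z 1 + a * a) *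
      K.om d + 2 * a * K.z 1 * K.z 1 * qv K d) ∧
    (frK K ⟨a, M, sg, 1, 0⟩).n d = K.Ni * (Hp.e0 A d - K.om d) := by
  have f := qf_c h a M sg d
  simp only [frK, KC.th, KC.tp, kk_V, h.prj_V, KC.W, KC.De, KC.qf, c3, c4] at f ⊢
  simp only [kk, Hp.kc] at f ⊢
  exact ⟨by linear_combination K.N * sg * a * K.z 1 * (2 * K.z 1 * f - ii A *
    (2 * K.z 2 * K.z 3 * K.Ni * K.mub d - 2 * K.z 4 * K.z 5 * K.Ni * K.mu d) *
      (K.z 1 * K.ri * two_hf (A := A) + h.hr)), by ring⟩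

end Vale.Agent.P354BO
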