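import Vale.Agent.P354BO.Lw1

/-!
LOWU: the ring of the good points, and graded families of metrics close to Kerr.
-/

open scoped ContDiff
open Set Filter Topology Complex

namespace Vale.Agent.P354BO

open P354XE (Tw gin)
open P354XG hiding Dom Dom0 Bd bdSub domI Keeps Low dom0_mk dom0_zero dom0_cst dom_of
  dom_zero dom_cst bd_alg dom_sum dom0_sum keeps_pd keeps_zero keeps_sum bd_closure dom_pb_aff
  bd_fn bd_par
open P354MG hiding Sml
open P354XD P354YA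
open P354XR hiding pw
open P354Z (f4 sc)
open P354HI (K1 G1 yK qt vP Yc rt lr nr dt)

variable {M a : ℝ} {J : Type}

section fam
variable {G : Filter (J × E6)} [Loc G] {g : J → Tw}

theorem rs_yK (o : Off G) : Rs ((hp G).z 1 - ii _ * (cst fun _ => (a : ℂ)) * (hp G).kc.x)
    fun p => yK a p.2 :=
  ((rs_z 1).sub (((rs_alg I).mul (rs_cst _)).mul (rs_om o 3))).congr
    (.of_forall fun p => by simp [yK, zc])

theorem qt_at {g : Tw} {x : E6} (h : x ∈ K1 M a g) :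
    ContDiffAt ℝ ∞ (fun y => yK a y) x ∧ ContDiffAt ℝ ∞ (fun y => qt M a (g, y)) x := by
  have y : ContDiffAt ℝ ∞ (fun y => yK a y) x := eventually_top.1 (ev_nb_on (rs_yK (a := a)
    (Pos.off ((k0_of (g := id) (GU_ev (M := M) (a := a))).mono fun _ k => k.1))).sm) g x h.1
  have v : ContDiffAt ℝ ∞ (fun y => vP M a (g, y)) x :=
    eventually_top.1 (ev_nb_on (rep_sm (gT (GU M a) M a id).P2)) g x h.1
  refine ⟨y, contDiffAt_const.mul ((v.mul (y.pow 3)).inv fun e => ?_)⟩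
  have := h.2
  rw [qt, e] at this
  norm_num at this

theorem G1_ev : ∀ᶠ p in G1 M a, p.2 ∈ K1 M a (id p.1) :=
  ev_nb.2 (.of_forall fun g _ hx => (show ∀ᶠ y in 𝓝 _, y ∈ KU M a g from
    (KU_open g).mem_nhds hx.1).and (((qt_at hx).2.continuousAt.sub
      continuousAt_const).norm.eventually_lt_const hx.2))

theorem sm_Y : SmF (G1 M a) fun p => yK a p.2 * qt M a (id p.1, p.2) ^ (1 / 3 : ℂ) :=
  G1_ev.mono fun p h => (qt_at h).1.mul (ContDiffAt.comp (g := fun z : ℂ => z ^ (1 / 3 : ℂ)) p.2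
    ((analyticAt_id.cpow analyticAt_const (by
      simpa using mem_slitPlane_of_norm_lt_one (h.2.trans (by norm_num)))).contDiffAt.restrict_scalars
        ℝ) (qt_at h).2)

theorem G1_pos : Pos (G1 M a) := G1_ev.mono fun _ k => k.1.self_of_nhds.1.1

theorem hom1 (h : Rx G (G1 M a) g) :
    HHom (hp (G1 M a)) (hp G) h.rix ∧ GHom (sG (G1 M a) id) (sG G g) h.rix ∧
    fm h.rix (fK (G1 M a) M a) = fK G M a ∧
    fm h.rix (fT (G1 M a) M a id) = fT G M a g ∧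
    GHP.Hom (gT (G1 M a) M a id) (gT G M a g) h.rix ∧
    h.rix (rt (G1 M a) M a id) = rt G M a g := by
  have k := (G1_ev (M := M) (a := a)).mono fun _ k => k.1
  have m : GHom (sG (G1 M a) id) (sG G g) h.rix := h.geo G1_pos.off _
    ((k0_of k).mono fun _ k => k.2)
  have f := (h.rf (fT_rf k)).ext (fT_rf (g := g) (h.ev k)) EventuallyEq.rfl
  have y : h.rix (Yc (G1 M a) M a id) = Yc G M a g := h.rix_gm sm_Y
  refine ⟨h.hp G1_pos.off, m, h.fK M a G1_pos, f, ?_, ?_⟩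
  · rw [gT, gT, ← f]
    exact m.ghp _
  · rw [rt, rt, map_mul, map_add, h.rix_cj, y, map_hf]

variable (G M a g) in
/-- The timelike vector. -/
noncomputable def Yv : Vec (Sm G) := lr G M a g • (fT G M a g).n - nr G M a g • (fT G M a g).l

/-- The quotient Delta / Sigma. -/
noncomputable def sI (a : ℝ) (x : E6) : ℝ := (x.2.1 * x.2.1 + a * a * oc x 3 * oc x 3)⁻¹
noncomputable def ds (M a : ℝ) (x : E6) : ℝ := sI a x * (x.2.1 * x.2.1 - 2 * M * x.2.1 + a * a)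

variable (G M a g) in
/-- The quantities which are compared with their values for Kerr. -/
noncomputable def sq : Fin 7 ⊕ Fin 4 ⊕ {i : Fin 4 // 2 ≤ i} → Sm G := Sum.elim
  ![(gT G M a g).P0 * (gT G M a g).P4, nr G M a g, lr G M a g, (sG G g).dot (Yv M a G g) (Hp.e0 _),
    (sG G g).dot (Yv M a G g) (fK G M a).l, (sG G g).dot (Yv M a G g) (fK G M a).n,
    (Matrix.of fun i d => P354HI.fv (fT G M a g) i d).det]
  (Sum.elim (fun i => f4 (gT G M a g) i (rt G M a g - (hp G).z 1))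
    fun i => f4 (gT G M a g) i ((hp G).z 1))

noncomputable def sv (M a : ℝ) (x : E6) : Fin 7 ⊕ Fin 4 ⊕ {i : Fin 4 // 2 ≤ i} → ℂ := Sum.elim
  ![0, -(nq x : ℂ)⁻¹, nq x * ds M a x, -ds M a x, -(nq x * ds M a x), -(nq x : ℂ)⁻¹,
    4 * I * x.2.1 ^ 2 * sI a x] 0

theorem hom2 (h : Rx G (G1 M a) g) :
    (∀ i, h.rix (sq M a (G1 M a) id i) = sq M a G g i) ∧
    ∀ i, h.rix (dt (G1 M a) M a id i) = dt G M a g i := by
  obtain ⟨h1, h2, h3, h4, h5, h6⟩ := hom1 h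
  generalize h.rix = φ at *
  have e1 : φ (nr (G1 M a) M a id) = nr G M a g := by rw [nr, h5.tp, h6, nr]
  have e2 : φ (lr (G1 M a) M a id) = lr G M a g := by rw [lr, h5.th, h6, lr]
  have e3 : ∀ i d, φ (P354HI.fv (fT (G1 M a) M a id) i d) = P354HI.fv (fT G M a g) i d := by
    rw [← h4]
    intro i d
    fin_cases i <;> rfl
  have e4 : vm φ (Yv M a (G1 M a) id) = Yv M a G g := funext fun d => by
    simp only [vm, Yv, Pi.sub_apply, Pi.smul_apply, smul_eq_mul, map_sub, map_mul, e1, e2]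
    exact congrArg₂ (_ * · - _ * ·) (e3 1 d) (e3 0 d)
  refine ⟨?_, ?_⟩
  · rintro (i | i | i)
    · fin_cases i
      · exact (map_mul φ _ _).trans (congrArg₂ (· * ·) h5.P0 h5.P4)
      · exact e1
      · exact e2
      · exact (h2.dot _ _).trans (congrArg₂ _ e4 (funext HHom.e0))
      · exact (h2.dot _ _).trans (congrArg₂ _ e4 (congrArg Fr.l h3))
      · exact (h2.dot _ _).trans (congrArg₂ _ e4 (congrArg Fr.n h3))
      · exact (φ.map_det _).trans (congrArg _ (Matrix.ext e3))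
    · exact (f4_hom h5 i _).trans (by rw [map_sub, h6, h1.z]; rfl)
    · exact (f4_hom h5 i _).trans (by rw [h1.z]; rfl)
  · rintro (i | i | i)
    · exact e3 _ _
    · exact h2.g _ _
    · fin_cases i
      exacts [h5.ka, h5.si, h5.rh, h5.ta, h5.ka', h5.si', h5.rh', h5.ta', h5.P0, h5.P1, h5.P2, h5.P3,
        h5.P4]

end fam

theorem near_one : ∃ ε > 0, ∀ w : ℂ, ‖w - 1‖ < ε →
    ‖w ^ 3 - 1‖ < 1 / 2 ∧ (w ^ 3) ^ (1 / 3 : ℂ) = w := by
  have a1 : ∀ᶠ w : ℂ in 𝓝 1, ‖w ^ 3 - 1‖ < 1 / 2 :=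
    (show ContinuousAt (fun w : ℂ => ‖w ^ 3 - 1‖) 1 by fun_prop).eventually_lt_const (by simp)
  have a2 : ∀ᶠ w : ℂ in 𝓝 1, |w.arg| < Real.pi / (3 : ℕ) :=
    (continuousAt_arg one_mem_slitPlane).abs.eventually_lt_const (by simpa using Real.pi_pos)
  obtain ⟨ε, hε, h⟩ := Metric.eventually_nhds_iff.1 (a1.and a2)
  refine ⟨ε, hε, fun w hw => ?_⟩
  obtain ⟨b1, b2⟩ := h (y := w) (by rwa [dist_eq_norm])
  simpa using And.intro b1 (pow_cpow_nat_inv three_ne_zero (abs_lt.1 b2).1 (abs_lt.1 b2).2.le)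

variable {F : Filter J} {K : J → Set E6} [Gr F] {μ : ℕ → J → ℝ} {g : J → Tw}

theorem key (hM : M ≠ 0) (r : Reg F K (fun _ => M) fun _ => a)
    (hv : ∀ᶠ j in F, ∀ x ∈ K j, VacAt (g j) (pj x)) (hμ : Wgt μ) (hs : P354MG.Sml F μ)
    (hf : ∀ᶠ q in gr, ∀ θ, ∃ C, 0 ≤ C ∧ ∀ᶠ j in ph F q.2 θ, ∀ x ∈ K j,
      P354XE.Bd q.1 (g j - gin M a) (pj x) (C * μ q.2 j)) :
    (∀ᶠ p in nb F K, p.2 ∈ K1 M a (g p.1)) ∧
    (∀ i f, Bd f → Bd (f4 (gT (nb F K) M a g) i f)) ∧ (∀ i, Bd (dt (nb F K) M a g i)) ∧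
    (∃ u : Sm (nb F K), Bd u ∧ Rs u fun p => (vP M a (g p.1, p.2))⁻¹) ∧
    ∀ i, ∃ v, Dom μ (sq M a (nb F K) g i - v) ∧ Rs v fun p => sv M a p.2 i := by
  obtain ⟨o, cl, c⟩ := r.near hv hμ hs hf
  obtain ⟨Mi, bM, hMi⟩ := r.Mi
  have po := r.pos
  have k := hp_is po.off
  have q := pm_is po (fun _ => M) fun _ => a
  have kk' := kk_is k q
  have b := r.hb
  have pb := r.pb
  have u := (okT_iff (po.and (r.vac hv))).1 o
  have cg := fun i d => (r.cg_g hv hμ hs hf i d).to (gin_eq po _ _ i d)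
  have v2 : Rs (gT (nb F K) M a g).P2 fun p => vP M a (g p.1, p.2) :=
    (gT_hom u).P2 ▸ (rx_of u).rep _
  have ry := rs_yK (a := a) po.off
  have z := kk'.z_ze
  have by0 := sub_mem b.z1 (mul_mem (mul_mem ii_mem pb.a) b.x)
  have cy : cj ((hp (nb F K)).z 1 - ii _ * (cst fun _ => (a : ℂ)) * (hp (nb F K)).kc.x) =
      (hp (nb F K)).z 1 + ii _ * (cst fun _ => (a : ℂ)) * (hp (nb F K)).kc.x := by
    rw [map_sub, map_mul, map_mul]
    exact (congrArg₂ (· - ·) kk'.c_r (congrArg₂ (· * ·) (congrArg₂ (· * ·) kk'.c_ii kk'.c_a)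
      kk'.c_x)).trans (by simp only [kk, Hp.kc, pm]; ring)
  change (kk _ _).z * ((hp (nb F K)).z 1 - ii _ * (cst fun _ => (a : ℂ)) * (hp (nb F K)).kc.x) = 1
    at z
  change (hp (nb F K)).z 1 - ii _ * (cst fun _ => (a : ℂ)) * (hp (nb F K)).kc.x ∈ _ at by0
  have ys : (hp (nb F K)).z 1 = Geo.hf _ * ((hp (nb F K)).z 1 - ii _ * (cst fun _ => (a : ℂ)) *
      (hp (nb F K)).kc.x + cj ((hp (nb F K)).z 1 - ii _ * (cst fun _ => (a : ℂ)) *
        (hp (nb F K)).kc.x)) := by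
    rw [cy]; linear_combination -(hp (nb F K)).z 1 * Geo.two_hf (A := Sm (nb F K))
  generalize (hp (nb F K)).z 1 - ii _ * (cst fun _ => (a : ℂ)) * (hp (nb F K)).kc.x = y at *
  have p2 : (kk (hp (nb F K)) (pm (nb F K) (fun _ => M) fun _ => a)).kerr.P2 * y ^ 3 =
      -(2 * cst fun _ => (M : ℂ)) := by
    have t : ∀ w m : Sm (nb F K), w * y = 1 → -(2 * m * w * w * w) * y ^ 3 = -(2 * m) :=
      fun w m z => by linear_combination -(2 * m) * ((w * y) ^ 2 + w * y + 1) * z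
    exact t _ _ z
  have p3 : (kk (hp (nb F K)) (pm (nb F K) (fun _ => M) fun _ => a)).kerr.P2 *
      -(Geo.hf _ * Mi * y ^ 3) = 1 := by
    change (cst fun _ => (M : ℂ)) * Mi = 1 at hMi
    linear_combination -(Geo.hf _ * Mi) * p2 + 2 * Geo.hf _ * hMi + Geo.two_hf (A := Sm (nb F K))
  obtain ⟨w, hw, cw⟩ := c.P2.inv p3 (neg_mem (mul_mem (mul_mem hf_mem bM) (pow_mem by0 3)))
  obtain ⟨s, s3, cs⟩ := cube (((Hen.Cg.refl c.P2.1).mul cw).to p3)
  change (gT (nb F K) M a g).P2 * w = 1 at hw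
  have e : (y * s) ^ 3 * (gT (nb F K) M a g).P2 = -(2 * cst fun _ => (M : ℂ)) := by
    rw [mul_pow, s3]
    linear_combination (w * (gT (nb F K) M a g).P2) * p2 - (2 * cst fun _ => (M : ℂ)) * hw
  obtain ⟨ε, hε, n1⟩ := near_one
  have ev : ∀ᶠ p in nb F K, ‖qt M a (g p.1, p.2) - 1‖ < 1 / 2 ∧
      rep s p = qt M a (g p.1, p.2) ^ (1 / 3 : ℂ) := by
    filter_upwards [ev_of_on (P := fun z => ‖z‖ < ε) (isOpen_lt continuous_norm continuous_const)
      (Dom.ev_lt cs.2 hs ε hε), (rs_rep s).sub rs_one, (((ry.mul (rs_rep s)).pow 3).mul v2).eq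
        (e ▸ ((rs_num 2).mul (rs_cst fun _ => (M : ℂ))).neg)] with p h1 h2 h3
    have : qt M a (g p.1, p.2) = rep s p ^ 3 := by
      rw [qt, div_eq_iff fun e0 => hM (by
        have : (M : ℂ) = 0 := by linear_combination (1 / 2) * h3 - (1 / 2) * rep s p ^ 3 * e0
        exact_mod_cast this)]
      linear_combination -h3
    rw [this]
    exact (n1 _ (h2 ▸ h1)).imp_right Eq.symm
  have R := (ry.mul (rs_rep s)).congr (ev.mono fun p h => congrArg (yK a p.2 * ·) h.2)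
  have cY : (henG K hμ hs).Cg (Yc (nb F K) M a g) y :=
    (((Hen.Cg.refl by0).mul cs).to (mul_one _)).of ((rs_gm R.sm).ext R EventuallyEq.rfl)
  have cr : (henG K hμ hs).Cg (rt (nb F K) M a g) ((hp _).z 1) :=
    (Hen.cg_hf.mul (cY.add cY.cj)).to ys.symm
  obtain ⟨t1, t2, t3⟩ := kerr_r k q
  have c1 : (henG K hμ hs).Cg (lr (nb F K) M a g) _ := (c.th cr).to t1
  have c2 : (henG K hμ hs).Cg (nr (nb F K) M a g) _ := (c.tp cr).to t2
  have c3 : ∀ i d, (henG K hμ hs).Cg (P354HI.fv (fT (nb F K) M a g) i d)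
      (P354HI.fv (fK (nb F K) M a) i d) := fun i => by
    fin_cases i
    exacts [cl.l, cl.n, cl.m, cl.mb]
  obtain ⟨d1, d2, d3⟩ := dot_K k q (fun _ _ _ => 0) rfl
  have dd := fun {X : Vec (Sm (nb F K))} (h : ∀ d, X d ∈ bdSub F K) =>
    dot2 (S := sG (nb F K) g) (S0 := (hp _).geo _ fun _ _ _ => 0) (N := henG K hμ hs)
      (X := Yv M a (nb F K) g) cg (fun d => (c1.mul (c3 1 d)).sub (c2.mul (c3 0 d))) (.refl h)
  have s1 : Rs (pm (nb F K) (fun _ => M) fun _ => a).sg fun p => sI a p.2 :=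
    (rs_sg po _ _).congr (.of_forall fun p => (ofReal_inv _).symm)
  have s2 : Rs ((pm (nb F K) (fun _ => M) fun _ => a).sg *
      (kk (hp (nb F K)) (pm (nb F K) (fun _ => M) fun _ => a)).De) fun p => ds M a p.2 :=
    (s1.mul ((((rs_z 1).mul (rs_z 1)).sub (((rs_num 2).mul (rs_cst fun _ => (M : ℂ))).mul
      (rs_z 1))).add ((rs_cst fun _ => (a : ℂ)).mul (rs_cst fun _ => (a : ℂ))))).congr
      (.of_forall fun p => by simp [ds, zc])
  have s3 := rs_N.mul s2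
  rw [← mul_assoc] at s3
  refine ⟨u.and (ev.mono fun _ h => h.1), fun i f h => (c.f4 i (.refl h)).mem, ?_,
    ⟨w, cw.mem, v2.of_mul hw⟩, ?_⟩
  · rintro (i | i | i)
    · exact (c3 _ _).mem
    · exact (cg _ _).mem
    · fin_cases i
      exacts [c.ka.mem, c.si.mem, c.rh.mem, c.ta.mem, c.ka'.mem, c.si'.mem, c.rh'.mem, c.ta'.mem,
        c.P0.mem, c.P1.mem, c.P2.mem, c.P3.mem, c.P4.mem]
  · rintro (i | i | i)
    · fin_cases i
      exacts [⟨_, ((c.P0.mul c.P4).to (zero_mul _)).2, rs_zero⟩, ⟨_, c2.2, (rs_Ni po.off).neg⟩,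
        ⟨_, c1.2, s3⟩, ⟨_, ((dd fun d => e0_mem d).to d1).2, s2.neg⟩,
        ⟨_, ((dd fun d => (c3 0 d).1).to d2).2, s3.neg⟩,
        ⟨_, ((dd fun d => (c3 1 d).1).to d3).2, (rs_Ni po.off).neg⟩,
        ⟨_, ((cg_det c3).to (det_K k q)).2,
          (((rs_num 4).mul (rs_alg I)).mul ((rs_z 1).pow 2)).mul s1⟩]
    · exact ⟨_, ((c.f4 i ((cr.sub (.refl b.z1)).to (sub_self _))).to (D_zero _)).2, rs_zero⟩
    · exact ⟨_, ((c.f4 i (.refl b.z1)).to (t3 i i.2)).2, rs_zero⟩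

end Vale.Agent.P354BO
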