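import Vale.Agent.P354BO.Defs

/-!
The rotations and the coordinates act on the sections.
-/

open scoped ContDiff InnerProductSpace ComplexConjugate
open Complex (I)
open MeasureTheory Set

namespace Vale.Agent.P354BO

open P354BF

/-- A complex matrix as a real linear map. -/
noncomputable def mx (a b c d : ℂ) : V →L[ℝ] V :=
  ((a • ContinuousLinearMap.fst ℂ ℂ ℂ + b • ContinuousLinearMap.snd ℂ ℂ ℂ).prod
    (c • ContinuousLinearMap.fst ℂ ℂ ℂ + d • ContinuousLinearMap.snd ℂ ℂ ℂ)).restrictScalars ℝ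

theorem mx_app (a b c d : ℂ) (ξ : V) : mx a b c d ξ = (a * ξ.1 + b * ξ.2, c * ξ.1 + d * ξ.2) := rfl

/-- The generators of the rotations. -/
noncomputable def A : Fin 3 → V →L[ℝ] V :=
  ![mx 0 (-I / 2) (-I / 2) 0, mx 0 (-1 / 2) (1 / 2) 0, mx (-I / 2) 0 0 (I / 2)]

theorem A0 (ξ : V) : A 0 ξ = (-I / 2 * ξ.2, -I / 2 * ξ.1) := by simp [A, mx_app]
theorem A1 (ξ : V) : A 1 ξ = (-1 / 2 * ξ.2, 1 / 2 * ξ.1) := by simp [A, mx_app]
theorem A2 (ξ : V) : A 2 ξ = (-I / 2 * ξ.1, I / 2 * ξ.2) := by simp [A, mx_app]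

theorem fin3 {p : Fin 3 → Prop} (a : p 0) (b : p 1) (c : p 2) (i : Fin 3) : p i := by
  fin_cases i
  exacts [a, b, c]

theorem A_smul (i : Fin 3) (z : ℂ) (ξ : V) : A i (z • ξ) = z • A i ξ := by
  induction i using fin3 <;> ext <;> simp [A0, A1, A2] <;> ring

theorem A_br (i : Fin 3) (ξ : V) : A (i + 1) (A i ξ) - A i (A (i + 1) ξ) = -A (i + 2) ξ := by
  induction i using fin3 <;> ext <;> simp [A0, A1, A2] <;> ring_nf <;> simp <;> ring

theorem ip_A (i : Fin 3) (ξ η : V) : ip (A i ξ) η = -ip ξ (A i η) := by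
  induction i using fin3 <;> simp [ip, A0, A1, A2, map_ofNat] <;> ring

theorem ip_conj (ξ η : V) : conj (ip ξ η) = ip η ξ := by
  simp [ip, mul_comm]

theorem ip_smul (z : ℂ) (ξ η : V) : ip (z • ξ) (z • η) = ‖z‖ ^ 2 * ip ξ η := by
  rw [← Complex.conj_mul']
  simp only [ip, Prod.smul_fst, Prod.smul_snd, smul_eq_mul, map_mul]
  ring

theorem ip_der {M : V →L[ℝ] V} (ξ : V) : ∃ D : V →L[ℝ] ℂ, HasFDerivAt (fun x => ip x (M x)) D ξ ∧
    ∀ h, D h = ip h (M ξ) + ip ξ (M h) := by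
  have a := Complex.conjCLE.hasFDerivAt.comp ξ (hasFDerivAt_fst (𝕜 := ℝ) (p := ξ))
  have b := Complex.conjCLE.hasFDerivAt.comp ξ (hasFDerivAt_snd (𝕜 := ℝ) (p := ξ))
  refine ⟨_, (a.mul (M.hasFDerivAt (x := ξ)).fst).add (b.mul (M.hasFDerivAt (x := ξ)).snd),
    fun h => ?_⟩
  simp [ip]
  ring

theorem ip_sm (M : V →L[ℝ] V) : ContDiff ℝ ∞ fun x => ip x (M x) :=
  ((Complex.conjCLE.contDiff.comp contDiff_fst).mul M.contDiff.fst).add
    ((Complex.conjCLE.contDiff.comp contDiff_snd).mul M.contDiff.snd)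

/-- The coordinates on the sphere. -/
noncomputable def wc (i : Fin 3) (ξ : V) : ℂ := 2 * I * ip ξ (A i ξ) * (ip ξ ξ)⁻¹

theorem ip_ne {ξ : V} (h : ξ ≠ 0) : ip ξ ξ ≠ 0 := by
  rw [ip_self]
  exact_mod_cast (N_pos h).ne'

theorem wc_sm (i : Fin 3) : ContDiffOn ℝ ∞ (wc i) {0}ᶜ :=
  (contDiff_const.mul (ip_sm _)).contDiffOn.mul
    ((ip_sm (ContinuousLinearMap.id ℝ V)).contDiffOn.inv fun _ h => ip_ne h)

theorem wc_smul (i : Fin 3) {z : ℂ} (hz : z ≠ 0) (ξ : V) : wc i (z • ξ) = wc i ξ := by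
  have : ((‖z‖ : ℂ)) ^ 2 ≠ 0 := pow_ne_zero _ (by simpa using hz)
  rw [wc, wc, A_smul, ip_smul, ip_smul, mul_inv]
  linear_combination (2 * I * ip ξ (A i ξ) * (ip ξ ξ)⁻¹) * mul_inv_cancel₀ this

theorem wc_conj (i : Fin 3) (ξ : V) : conj (wc i ξ) = wc i ξ := by
  simp only [wc, map_mul, map_inv₀, ip_conj, ip_A, Complex.conj_I, map_ofNat]
  ring

theorem wc_sq {ξ : V} (h : ξ ≠ 0) : ∑ i, wc i ξ * wc i ξ = 1 := by
  have := ip_ne h
  simp only [Fin.sum_univ_three, wc]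
  field_simp
  simp only [ip, A0, A1, A2]
  ring_nf
  simp only [Complex.I_pow_four, Complex.I_sq]
  ring

theorem wc_re (i : Fin 3) (ξ : V) : ((wc i ξ).re : ℂ) = wc i ξ :=
  Complex.conj_eq_iff_re.1 (wc_conj i ξ)

theorem wc_le (i : Fin 3) (ξ : V) : ‖wc i ξ‖ ≤ 1 := by
  by_cases h : ξ = 0
  · simp [h, wc, ip]
  have e := wc_sq h
  rw [← Finset.sum_congr rfl fun j _ => congrArg₂ (· * ·) (wc_re j ξ) (wc_re j ξ)] at e
  have e' : ∑ j, (wc j ξ).re * (wc j ξ).re = 1 := by exact_mod_cast e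
  rw [← wc_re, Complex.norm_real, Real.norm_eq_abs, ← sq_le_one_iff_abs_le_one, sq, ← e']
  exact Finset.single_le_sum (f := fun j => (wc j ξ).re * (wc j ξ).re)
    (fun _ _ => mul_self_nonneg _) (Finset.mem_univ i)

theorem wc_A {ξ : V} (h : ξ ≠ 0) : ∑ i, (wc i ξ).re • A i ξ = (-1 : ℝ) • (I / 2) • ξ := by
  have := ip_ne h
  simp only [← Complex.coe_smul, wc_re]
  simp only [Fin.sum_univ_three, wc]
  ext <;> simp only [A0, A1, A2, Prod.fst_add, Prod.snd_add, Prod.smul_fst, Prod.smul_snd,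
    smul_eq_mul] <;> field_simp <;> simp only [ip] <;> push_cast <;> ring_nf <;>
    simp only [Complex.I_sq] <;> ring

theorem wc_der (i j : Fin 3) {ξ : V} (h : ξ ≠ 0) : fderiv ℝ (wc j) ξ (A i ξ) =
    2 * I * ip ξ (A j (A i ξ) - A i (A j ξ)) * (ip ξ ξ)⁻¹ := by
  obtain ⟨D, a, b⟩ := ip_der (M := A j) ξ
  obtain ⟨D', a', b'⟩ := ip_der (M := ContinuousLinearMap.id ℝ V) ξ
  have c := (a.const_mul (2 * I)).mul ((hasFDerivAt_inv' (𝕜 := ℝ) (ip_ne h)).comp ξ
    (f := fun x => ip x x) a')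
  refine (congrArg (· (A i ξ)) c.fderiv).trans ?_
  have e : D' (A i ξ) = 0 := by rw [b', ip_A]; exact neg_add_cancel _
  simp only [add_apply, smul_apply,
    ContinuousLinearMap.comp_apply, e, map_zero, b, ip_A, smul_eq_mul, Function.comp_def]
  simp only [ip, Prod.fst_sub, Prod.snd_sub]
  ring

variable {s : ℤ}

theorem S.at (u : S s) {ξ : V} (h : ξ ≠ 0) : ContDiffAt ℝ ∞ u ξ :=
  u.is.sm.contDiffAt (isOpen_compl_singleton.mem_nhds h)

theorem S.dif (u : S s) {ξ : V} (h : ξ ≠ 0) : DifferentiableAt ℝ u ξ :=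
  (u.at h).differentiableAt (by simp)

theorem der_smul (u : S s) {z κ : ℂ} (hz : z ≠ 0) (h : ∀ ξ, u (z • ξ) = κ * u ξ) {ξ : V}
    (h0 : ξ ≠ 0) (η : V) : fderiv ℝ u (z • ξ) (z • η) = κ * fderiv ℝ u ξ η := by
  have a := ((u.dif (smul_ne_zero hz h0)).hasFDerivAt.comp ξ
    ((hasFDerivAt_id (𝕜 := ℝ) ξ).const_smul z)).fderiv
  rw [show (u : V → ℂ) ∘ HSMul.hSMul z = fun ξ => κ * u ξ from funext h,
    fderiv_const_mul (u.dif h0)] at a
  exact (congrArg (· η) a).symm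

theorem isSec_L (i : Fin 3) (u : S s) : IsSec s fun ξ => fderiv ℝ u ξ (A i ξ) := by
  refine ⟨(u.is.sm.fderiv_of_isOpen isOpen_compl_singleton le_rfl).clm_apply
    (A i).contDiff.contDiffOn, by simp, fun c hc ξ => ?_, fun ψ ξ => ?_⟩ <;>
    rcases eq_or_ne ξ 0 with rfl | h
  · simp
  · rw [A_smul, der_smul u (κ := 1) (by exact_mod_cast hc.ne')
      (fun ξ => by rw [u.is.hom c hc, one_mul]) h, one_mul]
  · simp
  · rw [A_smul, der_smul u (Complex.exp_ne_zero _) (u.is.wt ψ) h]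

/-- The rotations. -/
noncomputable def L (i : Fin 3) : S s →ₗ[ℂ] S s where
  toFun u := S.of _ (isSec_L i u)
  map_add' u v := S.ext fun ξ h =>
    congrArg (· (A i ξ)) (fderiv_add (u.dif h) (v.dif h))
  map_smul' z u := S.ext fun ξ h =>
    congrArg (· (A i ξ)) (fderiv_const_smul (u.dif h) z)

theorem L_app (i : Fin 3) (u : S s) (ξ : V) : L i u ξ = fderiv ℝ u ξ (A i ξ) := rfl

theorem norm_le_of {u v : S s} {c : ℝ} (hc : 0 ≤ c) (h : ∀ ξ ∈ K, ‖u ξ‖ ≤ c * ‖v ξ‖) :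
    ‖u‖ ≤ c * ‖v‖ := by
  refine abs_le_of_sq_le_sq' ?_ (by positivity) |>.2
  rw [mul_pow, norm_sq, norm_sq, ← integral_const_mul]
  have k : ∀ u : S s, Integrable fun ξ => ‖gl u ξ‖ ^ 2 := fun u =>
    int_K ((gl_sm u).continuous.norm.pow 2) fun ξ a => by simp [gl_out u a]
  refine integral_mono (k u) ((k v).const_mul _) fun ξ => ?_
  by_cases a : ξ ∈ K
  · simp only [gl, norm_mul, ← mul_pow]
    rw [mul_left_comm]
    exact pow_le_pow_left₀ (by positivity) (mul_le_mul_of_nonneg_left (h ξ a) (norm_nonneg _)) 2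
  · simp [gl_out _ a]

/-- The multiplication by a coordinate. -/
noncomputable def w (i : Fin 3) : S s →L[ℂ] S s :=
  LinearMap.mkContinuous
    { toFun := fun u => S.of (fun ξ => wc i ξ * u ξ) ⟨(wc_sm i).mul u.is.sm, by simp [u.is.zero],
        fun c hc ξ => by rw [wc_smul i (by exact_mod_cast hc.ne'), u.is.hom c hc],
        fun ψ ξ => by rw [wc_smul i (Complex.exp_ne_zero _), u.is.wt, mul_left_comm]⟩
      map_add' := fun _ _ => S.ext fun _ _ => mul_add _ _ _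
      map_smul' := fun _ _ => S.ext fun _ _ => mul_left_comm _ _ _ } 1
    fun u => norm_le_of zero_le_one fun ξ _ => (norm_mul_le _ _).trans
      (mul_le_mul_of_nonneg_right (wc_le i ξ) (norm_nonneg _))

theorem w_app (i : Fin 3) (u : S s) (ξ : V) : w i u ξ = wc i ξ * u ξ := rfl

/-- The angular model. -/
noncomputable def ang (s : ℤ) : Ang (S s) := ⟨s, L, w⟩

theorem L_w (i j : Fin 3) (u : S s) {ξ : V} (h : ξ ≠ 0) : L i (w j u) ξ = w j (L i u) ξ +
    2 * I * ip ξ (A j (A i ξ) - A i (A j ξ)) * (ip ξ ξ)⁻¹ * u ξ := by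
  have := fderiv_mul (((wc_sm j).contDiffAt (isOpen_compl_singleton.mem_nhds h)).differentiableAt
    (by simp)) (u.dif h)
  refine (congrArg (· (A i ξ)) this).trans ?_
  simp only [add_apply, smul_apply, wc_der i j h,
    smul_eq_mul, w_app, L_app]
  ring

theorem L_L (i j : Fin 3) (u : S s) {ξ : V} (h : ξ ≠ 0) : L i (L j u) ξ - L j (L i u) ξ =
    fderiv ℝ u ξ (A j (A i ξ) - A i (A j ξ)) := by
  have d : DifferentiableAt ℝ (fderiv ℝ u) ξ :=
    ((u.at h).fderiv_right (m := ∞) le_rfl).differentiableAt (by simp)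
  have k : ∀ i j, L i (L j u) ξ =
      fderiv ℝ u ξ (A j (A i ξ)) + fderiv ℝ (fderiv ℝ u) ξ (A i ξ) (A j ξ) := fun i j => by
    refine (congrArg (· (A i ξ)) (fderiv_clm_apply d (A j).differentiableAt)).trans ?_
    simp
  rw [k, k, map_sub, ((u.at h).isSymmSndFDerivAt (by
    simpa using WithTop.coe_le_coe.2 (le_top : (2 : ℕ∞) ≤ ⊤))).eq]
  ring

theorem der_wt (u : S s) {ξ : V} (h : ξ ≠ 0) : fderiv ℝ u ξ ((I / 2) • ξ) = I * s * u ξ := by
  have a : ∀ z : ℂ, HasDerivAt (fun ψ : ℝ => Complex.exp (z * ψ)) z 0 := fun z => by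
    simpa using ((Complex.ofRealCLM.hasDerivAt (x := 0)).const_mul z).cexp
  have b := (a (I / 2)).smul_const ξ
  have c := (u.dif h).hasFDerivAt.comp_hasDerivAt_of_eq 0 b (by simp)
  refine c.unique (((a (I * s)).mul_const (u ξ)).congr_of_eventuallyEq
    (Filter.Eventually.of_forall fun ψ => ?_))
  simp only [← u.is.wt, Function.comp_apply, div_mul_eq_mul_div]

theorem der_rad (u : S s) {ξ : V} (h : ξ ≠ 0) : fderiv ℝ u ξ ξ = 0 := by
  have b := ((hasDerivAt_id (1 : ℝ)).smul_const ξ)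
  have c := (u.dif h).hasFDerivAt.comp_hasDerivAt_of_eq 1 b (by simp)
  rw [one_smul] at c
  refine c.unique ((hasDerivAt_const 1 (u ξ)).congr_of_eventuallyEq ?_)
  filter_upwards [lt_mem_nhds zero_lt_one] with c hc using u.is.hom c hc ξ

theorem ibp1 {G : V → ℂ} (hG : ContDiff ℝ ∞ G) (h0 : ∀ ξ ∉ K, G ξ = 0) (l : V →L[ℝ] ℝ) (e : V) :
    Integrable (fun ξ => l ξ • fderiv ℝ G ξ e) ∧ ∫ ξ, l ξ • fderiv ℝ G ξ e = -(l e • ∫ ξ, G ξ) := by
  have a : Integrable fun ξ => l ξ • fderiv ℝ G ξ e :=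
    int_K (l.continuous.smul ((hG.continuous_fderiv (by simp)).clm_apply continuous_const))
      fun ξ h => by
        rw [Filter.EventuallyEq.fderiv_eq (f := fun _ => 0) (Filter.eventually_of_mem
          (K_cpt.isClosed.isOpen_compl.mem_nhds h) h0)]
        simp
  refine ⟨a, ?_⟩
  rw [integral_smul_fderiv_eq_neg_fderiv_smul_of_integrable (𝕜 := ℝ) _ a
    (int_K (l.continuous.smul hG.continuous) fun ξ h => by simp [h0 ξ h])
    (fun _ _ => l.differentiableAt) fun _ _ => hG.differentiable (by simp) _, ← integral_smul]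
  · simp only [l.fderiv]
  · simp only [l.fderiv]
    exact int_K (hG.continuous.const_smul _) fun ξ h => by simp [h0 ξ h]

/-- The rotations have no divergence. -/
theorem ibp {G : V → ℂ} (hG : ContDiff ℝ ∞ G) (h0 : ∀ ξ ∉ K, G ξ = 0) (i : Fin 3) :
    ∫ ξ, fderiv ℝ G ξ (A i ξ) = 0 := by
  obtain ⟨a1, b1⟩ := ibp1 hG h0 (Complex.reCLM ∘L .fst ℝ ℂ ℂ ∘L A i) (1, 0)
  obtain ⟨a2, b2⟩ := ibp1 hG h0 (Complex.imCLM ∘L .fst ℝ ℂ ℂ ∘L A i) (I, 0)
  obtain ⟨a3, b3⟩ := ibp1 hG h0 (Complex.reCLM ∘L .snd ℝ ℂ ℂ ∘L A i) (0, 1)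
  obtain ⟨a4, b4⟩ := ibp1 hG h0 (Complex.imCLM ∘L .snd ℝ ℂ ℂ ∘L A i) (0, I)
  have e := integral_add (a1.add a2) (a3.add a4)
  simp only [Pi.add_apply] at e
  rw [integral_add a1 a2, integral_add a3 a4, b1, b2, b3, b4] at e
  refine Eq.trans (integral_congr_ae (Filter.Eventually.of_forall fun ξ => ?_)) (e.trans ?_)
  · simp only [← map_smul, ← map_add]
    congr 1
    ext <;> simp
  · induction i using fin3 <;> simp [A0, A1, A2]

theorem χ_A (i : Fin 3) (ξ : V) : fderiv ℝ χ ξ (A i ξ) = 0 := by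
  obtain ⟨D, a, b⟩ := ip_der (M := ContinuousLinearMap.id ℝ V) ξ
  have c := Complex.reCLM.hasFDerivAt.comp ξ a
  have e : (Complex.reCLM ∘ fun x => ip x (ContinuousLinearMap.id ℝ V x)) = N := funext fun x => by
    simp [ip_self]
  rw [e] at c
  have d := ((bu.contDiff (n := 1)).differentiable (by simp) (N ξ)).hasFDerivAt.comp ξ c
  refine (congrArg (· (A i ξ)) d.fderiv).trans ?_
  simp [b, ip_A]

theorem gl_L (i : Fin 3) (u : S s) (ξ : V) : fderiv ℝ (gl u) ξ (A i ξ) = gl (L i u) ξ := by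
  rcases eq_or_ne ξ 0 with rfl | h
  · simp [gl, L_app]
  have := fderiv_smul (χ_sm.differentiable (by simp) ξ) (u.dif h)
  refine (congrArg (· (A i ξ)) this).trans ?_
  simp [χ_A, gl, L_app]

theorem skew (i : Fin 3) (u v : S s) : ⟪L i u, v⟫_ℂ = -⟪u, L i v⟫_ℂ := by
  have c := Complex.conjCLE.contDiff.comp (gl_sm u)
  rw [eq_neg_iff_add_eq_zero, inner_def, inner_def, ← integral_add (int_ip _ _) (int_ip _ _),
    ← ibp (c.mul (gl_sm v)) (fun ξ h => by simp [gl_out v h]) i]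
  refine integral_congr_ae (Filter.Eventually.of_forall fun ξ => ?_)
  have := (Complex.conjCLE.hasFDerivAt.comp ξ ((gl_sm u).differentiable (by simp) ξ).hasFDerivAt).mul
    ((gl_sm v).differentiable (by simp) ξ).hasFDerivAt
  refine Eq.trans ?_ (congrArg (· (A i ξ)) this.fderiv).symm
  simp [gl_L]
  ring

theorem ip_neg (ξ η : V) : ip ξ (-η) = -ip ξ η := by
  simp only [ip, Prod.fst_neg, Prod.snd_neg]
  ring

/-- The relations of the angular model. -/
theorem ang_is (s : ℤ) : (ang s).Is where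
  skew := skew
  symm i u v := by
    refine integral_congr_ae (Filter.Eventually.of_forall fun ξ => ?_)
    simp only [ang, gl, w_app, map_mul, wc_conj]
    ring
  ww i j u := S.ext fun _ _ => mul_left_comm _ _ _
  one u := S.ext fun ξ h => by
    simp only [ang, sum_app, w_app, ← mul_assoc, ← Finset.sum_mul, wc_sq h, one_mul]
  LL i u := S.ext fun ξ h => (L_L i (i + 1) u h).trans (by rw [A_br, map_neg]; rfl)
  Lw0 i u := S.ext fun ξ h => (L_w i i u h).trans (by simp [ip, ang])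
  Lw1 i u := S.ext fun ξ h => (L_w i (i + 1) u h).trans (by
    simp only [A_br, ip_neg, ang, sub_app, w_app, wc]
    ring)
  Lw2 i u := S.ext fun ξ h => (L_w i (i + 2) u h).trans (by
    have := A_br (i + 2) ξ
    rw [show i + 2 + 1 = i by rw [add_assoc]; exact add_zero i,
      show i + 2 + 2 = i + 1 by rw [add_assoc]; rfl, ← neg_inj, neg_sub, neg_neg] at this
    simp only [this, ang, add_app, w_app, wc])
  spin u := S.ext fun ξ h => by
    have := congrArg (fderiv ℝ u ξ) (wc_A h)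
    rw [map_sum, map_smul, der_wt u h] at this
    simp only [map_smul, Complex.real_smul, wc_re] at this
    simp only [ang, sum_app, w_app, L_app, this, smul_app]
    push_cast
    ring

end Vale.Agent.P354BO
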