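import Vale.Agent.P354BO.Gen

/-!
The frame components determine the metric.
-/

open scoped ContDiff
open Set Matrix

namespace Vale.Agent.P354BO

open P354XG P354XI P354XD P354XR P354Z P354CV
open P354n (R4)
open P354RC (bs cv sum_bs)
open P354XE (gin rd Tw Bd)
open P354YI (Oj)
open P354YO (sh rd_sh sh_inv sh_cd IsTh Sb OUTB)

section alg
variable {A : Type} [CommRing A] [Algebra ℂ A] {K : Hp A}

/-- The components of the frame in the coordinates of K. -/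
noncomputable def Em (K : Hp A) (G : GHP A) : Matrix (Fin 4) (Fin 4) A :=
  of fun b a => f4 G b (K.co a)

theorem Em_kerr {p : Pm A} (h : K.Is) (q : p.Is K) :
    Em K (kk K p).kerr * of (gK K p) * (Em K (kk K p).kerr)ᵀ = eta A := by
  rw [show Em K (kk K p).kerr = of ![K.prj (kk K p).th, K.prj (kk K p).tp, K.prj (kk K p).et,
    K.prj (kk K p).ep] from Matrix.ext fun b a => by fin_cases b <;> rfl]
  exact kerr_mat h q

theorem Em_ghp (h : K.Is) {g : Fin 4 → Fin 4 → A} {Γ : Fin 4 → Fin 4 → Fin 4 → A} {F : Fr A}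
    (s : (K.geo g Γ).Is) (N : F.WN (K.geo g Γ)) :
    Em K (F.ghp (K.geo g Γ)) * of g * (Em K (F.ghp (K.geo g Γ)))ᵀ = eta A := by
  rw [show Em K (F.ghp (K.geo g Γ)) = of ![F.l, F.n, F.m, F.mb] from Matrix.ext fun b a => by
    fin_cases b <;> exact congrFun (h.prj_act g Γ _) a]
  exact null_mat s.c_g s.g_symm N.toNull

theorem f4_sub (h : K.Is) (p : Pm A) {G : GHP A} (s : ∀ b, Spn K (f4 G b)) (b : Fin 4) (u : A) :
    f4 G b u - f4 (kk K p).kerr b u =
      ∑ e, (dat K p G (.inl (b, e)) - dat K p (kk K p).kerr (.inl (b, e))) * (kk K p).bs e u := by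
  rw [(s b).cm h p u, (spn_kerr (p := p) h b).cm h p u]
  simp only [dat, Sum.elim_inl, sub_mul, Finset.sum_sub_distrib]

theorem V_lt (h : K.Is) (p : Pm A) (e1 e2 e3 e4 f : A) : (kk K p).V e1 e2 e3 e4 0 0 f =
    ∑ b, ![e1, e2, ii A * (e3 * K.mub 1 - e4 * K.mu 1), ii A * (e3 * K.mub 2 - e4 * K.mu 2),
      ii A * (e3 * K.mub 3 - e4 * K.mu 3)] b * lt K p b f := by
  have a : (kk K p).P f = _ := P_Om h f
  have b : (kk K p).Q f = _ := Q_Om h f
  have c : (kk K p).T f = K.d 0 f := rfl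
  rw [KC.V_ap, a, b, c]
  simp [lt, wb, wm, Fin.sum_univ_succ]
  ring

end alg

section one
variable {O : Set E6} {A B : ℝ → ℝ} {g : Tw} {M0 M a : ℝ} {x : E6}

theorem fv_sb (hx : x ∈ O) (u v : Sm (on O)) : fv (u - v) x = fv u x - fv v x :=
  (evO ⟨x, hx⟩).map_sub u v

theorem th_sm (h0 : 0 < M0) (t : IsTh M0 M a A B) : ContDiff ℝ ∞ A ∧ ContDiff ℝ ∞ B ∧
    (deriv A = fun r => hs M0 (M, a, r) - 1) ∧
      (fun r => deriv B r / 2) = fun r => js M0 (M, a, r) := by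
  have e1 : deriv A = _ := funext fun r => (t r).1.deriv
  have e2 : deriv B = _ := funext fun r => (t r).2.deriv
  refine ⟨contDiff_infty_iff_deriv.2 ⟨fun r => (t r).1.differentiableAt, ?_⟩,
    contDiff_infty_iff_deriv.2 ⟨fun r => (t r).2.differentiableAt, ?_⟩, e1, by simp [e2]⟩
  · rw [e1]; exact ((hs_cd h0).comp (by fun_prop)).sub contDiff_const
  · rw [e2]; exact contDiff_const.mul ((js_cd h0).comp (by fun_prop))

theorem kk_S (c : Cone O) (h0 : 0 < M0) (t : IsTh M0 M a A B) :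
    kk (kS O A B) (pm (on O) (fun _ => M) fun _ => a) = kk (hp (on O)) (pI O M0 M a) := by
  obtain ⟨hA, hB, e1, e2⟩ := th_sm h0 t
  have a1 : rf O (fun r => hs M0 (M, a, r)) = 1 + rf O (deriv A) := ext_fv c.op fun y hy => by
    rw [fv_add, fv_rf c (d_sm hA).contDiffOn hy, fv_rs rs_one hy, e1, fv_rf c (hs_on h0 M a) hy]
    push_cast
    ring
  have a2 : rf O (fun r => js M0 (M, a, r)) = rf O fun r => deriv B r / 2 := by rw [e2]
  exact kS_kk c hB (p := pI O M0 M a) a1 a2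

variable (c : Cone O) (hA : ContDiff ℝ ∞ A) (hB : ContDiff ℝ ∞ B)
include c hA hB

theorem inv_at (hx : x ∈ O) : ContDiffAt ℝ ∞ (sh (-A) (-B)) (sh A B (pj x)) :=
  sh_cd (by rw [rd_sh, rd_pj (c.pos x hx).1 (c.pos x hx).2]; exact (c.pos x hx).1.ne')
    hA.neg.contDiffAt hB.neg.contDiffAt

theorem sb_pull (v : VacAt g (pj x)) (hx : x ∈ O) :
    Sb (P354XE.pb (sh (-A) (-B)) g) (sh A B (pj x)) := by
  obtain ⟨D, h1, h2, h3, -⟩ := v
  refine Sb.pull ?_ (inv_at c hA hB hx)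
  rw [sh_inv]
  exact ⟨Filter.mem_of_superset (h1.mem_nhds h2) fun _ hy => P354XA.met_bil h3 hy,
    fun v w => (h3.smooth v w).contDiffAt (h1.mem_nhds h2)⟩

omit c hA hB in
/-- The Jacobi matrix of the inverse of sh A B. -/
noncomputable def Jm (O : Set E6) (A B : ℝ → ℝ) : Matrix (Fin 4) (Fin 4) (Sm (on O)) :=
  of fun a d => pq O A B (db a fun y => cv d (sh (-A) (-B) y))

theorem sq_inv (d : Fin 4) : Sq O A B fun y => cv d (sh (-A) (-B) y) :=
  fun _ hx => (cv d).contDiff.contDiffAt.comp _ (inv_at c hA hB hx)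

theorem Em_J {G : GHP (Sm (on O))} (s : ∀ b, Spn (hp _) (f4 G b)) :
    Em (hp _) G = Em (kS O A B) G * Jm O A B := Matrix.ext fun b d => by
  have e : (hp (on O)).co d = pq O A B fun y => cv d (sh (-A) (-B) y) := ext_fv c.op fun y hy => by
    rw [fv_pq c hA hB (sq_inv c hA hB d) hy, sh_inv, fv_rs (rs_co (cone_pos c).off d) hy]
  simp only [Em, Jm, of_apply, mul_apply, e, D_pq c hA hB (sq_inv c hA hB d) (s b), mul_comm]

theorem met_J (v : ∀ y ∈ O, VacAt g (pj y)) (b d : Fin 4) :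
    2 * (Jm O A B * of (ge O g).g * (Jm O A B)ᵀ - of (gK (kS O A B) (pm _ (fun _ => M) fun _ => a)))
      b d = pq O A B (gc (P354XE.pb (sh (-A) (-B)) g - gin M a) b d) := ext_fv c.op fun y hy => by
  have s := sb_pull c hA hB (v y hy) hy
  have r : ∀ y ∈ O, 0 < rd (sh A B (pj y)) := fun y hy => by
    rw [rd_sh, rd_pj (c.pos y hy).1 (c.pos y hy).2]; exact (c.pos y hy).1
  have e1 : ∀ b d, fv (Jm O A B b d) y = cv d (fderiv ℝ (sh (-A) (-B)) (sh A B (pj y)) (bs b)) :=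
    fun b d => (fv_pq c hA hB ((sq_inv c hA hB d).db b) hy).trans (congrArg Complex.ofReal
      (congrArg (· (bs b)) ((cv d).hasFDerivAt.comp _
        ((inv_at c hA hB hy).differentiableAt (by simp)).hasFDerivAt).fderiv))
  have e2 : ∀ b d, fv ((ge O g).g b d) y = (1 / 2 : ℝ) * gc g b d (pj y) := fun b d =>
    fv_rs ((rs_alg _).mul (rs_pb (cone_pos c).off (f := fun _ => gc g b d)
      (on_of c.op fun z hz => (v z hz).sm_g b d))) hy
  obtain ⟨D, -, h2, h3, -⟩ := v y hy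
  rw [fv_pq c hA hB (f := gc _ b d) (fun z hz => ((sb_pull c hA hB (v z hz) hz).sub
    (P354YO.sb_gin (r z hz))).sm _ _) hy, Matrix.sub_apply, mul_sub, fv_sb hy, of_apply,
    fv_gK c hA hB M a b d hy]
  have e3 : ∀ v w, g (pj y) v w = ∑ b, ∑ d, gc g b d (pj y) * (cv b v * cv d w) := fun v w =>
    (P354YO.tb_ap (P354XA.met_bil h3 h2) v w).symm.trans (by simp [tb, gc])
  rw [gc, gc, Pi.sub_apply, Pi.sub_apply, Pi.sub_apply, P354XE.pb, sh_inv, e3]
  simp only [fv_mul, mul_apply, Fin.sum_univ_four, fv_add, transpose_apply, of_apply, e1, e2,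
    fv_rs (rs_num 2) hy]
  push_cast
  ring

end one

section fam
variable {J : Type} {O : J → Set E6} {M a μ : J → ℝ} {x : J → E6} {M0 r1 ρ : ℝ} {A B : J → ℝ → ℝ}
  {n : ℕ}

/-- From the words in the coordinate fields to the jets. -/
theorem oj_of_oq (c : ∀ j, Cone (O j)) (hA : ∀ j, ContDiff ℝ ∞ (A j)) (hB : ∀ j, ContDiff ℝ ∞ (B j))
    (m : ∀ j, x j ∈ O j) (hμ : ∀ j, 0 ≤ μ j) : ∀ (n : ℕ) {f : J → R4 → ℝ},
    (∀ j, Sq (O j) (A j) (B j) (f j)) →
    (Oq (fun j => (kS (O j) (A j) (B j)).L) x n μ fun j => pq (O j) (A j) (B j) (f j)) →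
    Oj n (fun j => sh (A j) (B j) (pj (x j))) f μ
  | 0, _, s, ⟨C, c0, hC⟩ => .zero (fun j => s j _ (m j)) hμ ⟨√C, fun j => by
      have := hC j
      rw [q2, fv_pq (c j) (hA j) (hB j) (s j) (m j), Complex.norm_real] at this
      refine le_of_sq_le_sq (this.trans_eq ?_) (mul_nonneg (Real.sqrt_nonneg _) (hμ j))
      rw [mul_pow, Real.sq_sqrt c0]⟩
  | n + 1, f, s, h => ((oj_of_oq c hA hB m hμ n s (h.le n.le_succ)).le n.zero_le).succ
      ((Oj.sum Finset.univ hμ fun b _ => (oj_of_oq c hA hB m hμ n (fun j => (s j).db b)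
        ((h.der b).congr fun j => (L_pq (c j) (hA j) (hB j) (s j) b).symm)).smull
          (.cst (cv b))).congr' fun j y => ContinuousLinearMap.ext fun v => by
        conv_lhs => rw [← sum_bs v]
        simp [db, mul_comm])

/-- The chart and the parameters. -/
noncomputable abbrev K2 (O : J → Set E6) (A B : J → ℝ → ℝ) (j : J) : Hp (Sm (on (O j))) :=
  kS (O j) (A j) (B j)
noncomputable abbrev p2 (O : J → Set E6) (M a : J → ℝ) (j : J) : Pm (Sm (on (O j))) :=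
  pm _ (fun _ => M j) fun _ => a j

variable (h : Ft M0 r1 ρ O M a x) (t : ∀ j, IsTh M0 (M j) (a j) (A j) (B j))
include h t

theorem Ft.g2 (n : ℕ) : Gz (lI M0 O M a) x n (K2 O A B) ∧ Gp (lI M0 O M a) x n (p2 O M a) :=
  ⟨h.gS (fun j => (th_sm h.m0 (t j)).2.1) (fun j => (th_sm h.m0 (t j)).2.2.2) n,
    (h.gp n).a, (h.gp n).M, (h.gp n).sg, .one, .zero⟩

theorem Ft.is (j : J) : (K2 O A B j).Is ∧ (p2 O M a j).Is (K2 O A B j) :=
  let ⟨a, b, _⟩ := th_sm h.m0 (t j)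
  ⟨kS_is (h.co j) a b, kS_pm (h.co j) a b _ _⟩

theorem Ft.fr {G : ∀ j, GHP (Sm (on (O j)))} (s : ∀ j b, Spn (hp _) (f4 (G j) b))
    (hμ : ∀ j, μ j ^ 2 ≤ 1) (d : ∀ i, Oq (lI M0 O M a) x n μ fun j =>
      dat (hp _) (pI (O j) M0 (M j) (a j)) (G j) (.inl i) -
        dat (hp _) (pI (O j) M0 (M j) (a j)) (kI (O j) M0 (M j) (a j)).kerr (.inl i)) :
    (Oqm (lI M0 O M a) x n 1 fun j => of (gK (K2 O A B j) (p2 O M a j))) ∧
    (Oqm (lI M0 O M a) x n 1 fun j => Em (K2 O A B j) (G j)) ∧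
    (Oqm (lI M0 O M a) x n 1 fun j => Em (K2 O A B j) (kk (K2 O A B j) (p2 O M a j)).kerr) ∧
    Oqm (lI M0 O M a) x n μ fun j =>
      Em (K2 O A B j) (G j) - Em (K2 O A B j) (kk (K2 O A B j) (p2 O M a j)).kerr := by
  obtain ⟨z, q⟩ := h.g2 t n
  have u : ∀ b e, Oq (lI M0 O M a) x n 1 fun j =>
      (kk (K2 O A B j) (p2 O M a j)).bs e ((K2 O A B j).co b) := fun b e => by
    have k := fun j => bs_co (p := p2 O M a j) (h.is t j).1 rfl b
    fin_cases e
    exacts [(oq_e0 b).congr fun j => (k j).1,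
      ((z.om b).1.sub (q.h1.mul (oq_e0 b))).congr fun j => (k j).2.1,
      (z.z1.mul (z.om b).2.2).congr fun j => (k j).2.2.1,
      (z.z1.mul (z.om b).2.1).congr fun j => (k j).2.2.2.1,
      Oq.zero.congr fun j => (k j).2.2.2.2.1, Oq.zero.congr fun j => (k j).2.2.2.2.2]
  have e1 : Oqm (lI M0 O M a) x n 1 fun j => Em (K2 O A B j) (kk (K2 O A B j) (p2 O M a j)).kerr :=
    fun b e => z.kerr q (u e) b
  have e2 : Oqm (lI M0 O M a) x n μ fun j =>
      Em (K2 O A B j) (G j) - Em (K2 O A B j) (kk (K2 O A B j) (p2 O M a j)).kerr := fun b e =>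
    (Oq.sum Finset.univ fun i => (d (b, i)).mull (u e i)).congr fun j => by
      simp only [Matrix.sub_apply, Em, of_apply, kk_S (h.co j) h.m0 (t j), kI]
      exact f4_sub (cone_hp (h.co j)) _ (s j) b _
  exact ⟨z.gK q, fun b e => ((e1 b e).add ((e2 b e).wt fun j => by simpa using hμ j)).congr
    fun j => (add_sub_cancel _ _).symm, e1, e2⟩

theorem Ft.chg {f : ∀ j, Sm (on (O j))} (o : Oq (lI M0 O M a) x n μ f) :
    Oq (fun j => (K2 O A B j).L) x n μ f := by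
  obtain ⟨z, q⟩ := h.g2 t n
  have y := h.gz n
  refine o.chg (fun j b f => by
    rw [L_V (p := p2 O M a j) rfl, kk_S (h.co j) h.m0 (t j)]
    exact V_lt (cone_hp (h.co j)) _ _ _ _ _ f) fun b e => ?_
  have k := fun i => Oq.ii.mul (((z.c q b).2.1.mul (y.om i).2.2).sub ((z.c q b).2.2.mul (y.om i).2.1))
  fin_cases e
  exacts [(z.c q b).1, (z.om b).1, k 1, k 2, k 3]

end fam

/-- The data of the statement. -/
structure Dt where
  O : Set E6
  g : Tw
  F : Fr (Sm (on O))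
  M : ℝ
  a : ℝ
  A : ℝ → ℝ
  B : ℝ → ℝ
  x : E6
  w : ℝ

structure Dt.Ok (M0 a0 r1 ρ w0 : ℝ) (N : ℕ) (d : Dt) : Prop where
  co : Cone d.O
  vac : ∀ y ∈ d.O, VacAt d.g (pj y)
  wn : d.F.WN (ge d.O d.g)
  par : |d.M - M0| + |d.a - a0| ≤ w0
  th : IsTh M0 d.M d.a d.A d.B
  mem : d.x ∈ d.O
  un : nq d.x = 1
  ra : r1 ≤ d.x.2.1
  r2 : d.x.2.1 ≤ ρ
  wp : 0 ≤ d.w
  w1 : d.w ≤ w0
  sm : ∀ i, q2 (lt (hp _) (pI d.O M0 d.M d.a)) d.x N
    (dat (hp _) (pI d.O M0 d.M d.a) (d.F.ghp (ge d.O d.g)) (.inl i) -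
      dat (hp _) (pI d.O M0 d.M d.a) (kI d.O M0 d.M d.a).kerr (.inl i)) ≤ d.w ^ 2

/-- OUTB. -/
theorem outb : OUTB := by
  intro M0 a0 r1 ρ N ha hr
  have h0 : 0 < M0 := (abs_nonneg _).trans_lt ha
  have ft : ∀ w ≤ min 1 M0, Ft M0 r1 ρ (fun d : {d : Dt // d.Ok M0 a0 r1 ρ w N} => d.1.O)
      (fun d => d.1.M) (fun d => d.1.a) fun d => d.1.x := fun w hw =>
    ⟨h0, hr, fun d => d.2.co, fun d => by
      have := d.2.par.trans (hw.trans (min_le_right _ _))
      have := abs_sub_abs_le_abs_sub d.1.M M0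
      have := abs_sub_abs_le_abs_sub d.1.a a0
      have := abs_nonneg (d.1.M - M0)
      have := abs_nonneg (d.1.a - a0)
      constructor <;> linarith [abs_of_pos h0], fun d => d.2.mem, fun d => d.2.un,
      fun d => ⟨d.2.ra, d.2.r2⟩⟩
  have fr := fun w hw => (ft w hw).fr (n := N) (μ := fun d => d.1.w) (fun d => d.2.th)
    (G := fun d => d.1.F.ghp (ge d.1.O d.1.g)) (fun d => spn_ghp (cone_hp d.2.co) _ _ _)
    (fun d => pow_le_one₀ d.2.wp (d.2.w1.trans (hw.trans (min_le_left _ _))))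
    fun i => .of (B := 1) fun d => (d.2.sm i).trans (one_mul _).ge
  have ek := fun w hw d => Em_kerr ((ft w hw).is (fun d => d.2.th) d).1
    ((ft w hw).is (fun d => d.2.th) d).2
  obtain ⟨k1, k2, k3, k4⟩ := fr _ le_rfl
  obtain ⟨C, c0, hC⟩ := (Oqm.near k1 k2 k3 k4 fun d => by
    have := congrArg det (ek _ le_rfl d)
    rw [det_mul, det_mul, det_transpose, eta_det] at this
    linear_combination this).val
  have hw : min (min 1 M0) (1 / (2 * (C + 1))) ≤ min 1 M0 := min_le_left _ _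
  obtain ⟨l1, l2, l3, l4⟩ := fr _ hw
  have sm := fun d : {d : Dt // d.Ok M0 a0 r1 ρ (min (min 1 M0) (1 / (2 * (C + 1)))) N} =>
    th_sm h0 d.2.th
  have sb := fun (d : {d : Dt // d.Ok M0 a0 r1 ρ (min (min 1 M0) (1 / (2 * (C + 1)))) N}) y hy =>
    (sb_pull d.2.co (sm d).1 (sm d).2.1 (d.2.vac y hy) hy).sub (P354YO.sb_gin (M := d.1.M)
      (a := d.1.a) (by
        rw [rd_sh, rd_pj (d.2.co.pos y hy).1 (d.2.co.pos y hy).2]; exact (d.2.co.pos y hy).1))
  have m := Oqm.met l1 l2 l3 l4 (g := fun d => Jm d.1.O d.1.A d.1.B * of (ge d.1.O d.1.g).g *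
    (Jm d.1.O d.1.A d.1.B)ᵀ) (fun d => by
      have := Em_ghp (cone_hp d.2.co) (geo_is (cone_pos d.2.co).off _ (on_of d.2.co.op d.2.vac))
        d.2.wn
      rw [Em_J d.2.co (sm d).1 (sm d).2.1 (spn_ghp (cone_hp d.2.co) _ _ _), transpose_mul] at this
      rw [ek _ hw d, ← this]
      simp only [Matrix.mul_assoc]
      rfl) (c := 1 / 2) one_half_pos fun d => by
      have k := hC ⟨d.1, { d.2 with par := d.2.par.trans hw, w1 := d.2.w1.trans hw }⟩
      have w1 := (le_div_iff₀ (by positivity)).1 (d.2.w1.trans (min_le_right _ _))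
      have w0 := d.2.wp
      rw [fv_sb d.2.mem, fv_rs rs_one d.2.mem] at k
      have k1 := abs_le_of_sq_le_sq' (k.trans (b := _) (c := (1 / 2) ^ 2) (by nlinarith))
        one_half_pos.le
      rw [norm_sub_rev] at k1
      have k2 := (norm_sub_norm_le _ _).trans k1.2
      rw [norm_one] at k2
      exact le_trans (by norm_num) (sub_le_comm.1 k2)
  have o := fun b d => oj_of_oq (fun d => d.2.co) (fun d => (sm d).1) (fun d => (sm d).2.1)
    (fun d => d.2.mem) (fun d => d.2.wp) N (fun j y hy => (sb j y hy).sm (bs b) (bs d))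
    (((ft _ hw).chg (fun d => d.2.th) (Oq.two.mul (m b d))).congr fun j =>
      (met_J j.2.co (sm j).1 (sm j).2.1 j.2.vac b d).symm)
  obtain ⟨D, -, hD⟩ := P354YO.bd_of_oj (fun d => sb d _ d.2.mem)
    (Oj.sum _ (o 0 0).nn fun u _ => Oj.sum _ (o 0 0).nn fun v _ => (o u v).smull (.cst _))
  exact ⟨_, by positivity, D, fun O g F M a A B x w a1 a2 a3 a4 a5 a6 a7 a8 a9 b1 b2 b3 =>
    hD ⟨⟨O, g, F, M, a, A, B, x, w⟩, a1, a2, a3, a4, a5, a6, a7, a8, a9, b1, b2, b3⟩⟩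

end Vale.Agent.P354BO
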