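import Vale.Agent.P354BO.Fam

/-!
Fourier coefficients in a parameter and in the axial angle; the identity of Parseval.
-/

open scoped ContDiff InnerProductSpace ComplexConjugate Topology Real
open Complex (I)
open MeasureTheory Set Filter

namespace Vale.Agent.P354BO

variable {s : ℤ} {P : Type} [NormedAddCommGroup P] [NormedSpace ℝ P] [FiniteDimensional ℝ P]

/-- The frequency. -/
noncomputable def om (τ : ℝ) (k : ℤ) : ℝ := 2 * π * k / τ

/-- The weight of the Fourier coefficient. -/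
noncomputable def ek (τ : ℝ) (k : ℤ) (t : ℝ) : ℂ := (τ : ℂ)⁻¹ * Complex.exp (I * om τ k * t)

theorem ek_sm (τ : ℝ) (k : ℤ) : ContDiff ℝ ∞ (ek τ k) :=
  contDiff_const.mul (contDiff_const.mul Complex.ofRealCLM.contDiff).cexp

theorem ek_der (τ : ℝ) (k : ℤ) (t : ℝ) : HasDerivAt (ek τ k) (I * om τ k * ek τ k t) t :=
  (((Complex.ofRealCLM.hasDerivAt (x := t)).const_mul (I * om τ k)).cexp.const_mul
    (τ : ℂ)⁻¹).congr_deriv (by simp [ek]; ring)

theorem ek_per {τ : ℝ} (hτ : τ ≠ 0) (k : ℤ) : ek τ k τ = ek τ k 0 := by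
  have : (τ : ℂ) ≠ 0 := by exact_mod_cast hτ
  rw [ek, ek, show I * om τ k * τ = k * (2 * π * I) by simp only [om]; push_cast; field_simp,
    Complex.exp_int_mul_two_pi_mul_I]
  simp

/-- The coefficient of exp (- i om t). -/
noncomputable def co (τ : ℝ) (k : ℤ) (v : ℝ → S s) : S s := iS 0 τ fun t => ek τ k t • v t

variable {v v' : ℝ → S s} {τ : ℝ} {k : ℤ}

theorem JS.co_app (h : JS v) (ξ : V) : co τ k v ξ = ∫ t in (0 : ℝ)..τ, ek τ k t * v t ξ :=
  (h.smul (ek_sm τ k)).iS_app 0 τ ξ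

theorem JS.inner_co (h : JS v) (u : S s) :
    ⟪u, co τ k v⟫_ℂ = ∫ t in (0 : ℝ)..τ, ek τ k t * ⟪u, v t⟫_ℂ := by
  simp only [co, (h.smul (ek_sm τ k)).inner_iS, inner_smul_right]

theorem JS.co {F : ℝ × P → S s} (h : JS F) (τ : ℝ) (k : ℤ) :
    JS fun p => co τ k fun t => F (t, p) :=
  (h.smul ((ek_sm τ k).comp contDiff_fst)).iS 0 τ

theorem JS.ii (h : JS v) (u : S s) (τ : ℝ) (k : ℤ) :
    IntervalIntegrable (fun t => ek τ k t * ⟪u, v t⟫_ℂ) volume 0 τ :=
  ((ek_sm τ k).continuous.mul (continuous_const.inner h.contDiff.continuous)).intervalIntegrable _ _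

theorem JS.co_add (h : JS v) (h' : JS v') :
    P354BO.co τ k (fun t => v t + v' t) = P354BO.co τ k v + P354BO.co τ k v' :=
  ext_inner_left ℂ fun u => by
    simp only [(h.add h').inner_co, inner_add_right, h.inner_co, h'.inner_co, mul_add,
      intervalIntegral.integral_add (h.ii u τ k) (h'.ii u τ k)]

theorem JS.co_smul (h : JS v) (z : ℂ) : P354BO.co τ k (fun t => z • v t) = z • P354BO.co τ k v :=
  ext_inner_left ℂ fun u => by
    simp only [(h.smul contDiff_const).inner_co, inner_smul_right, h.inner_co, mul_left_comm _ z,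
      intervalIntegral.integral_const_mul]

theorem JS.co_sub (h : JS v) (h' : JS v') :
    P354BO.co τ k (fun t => v t - v' t) = P354BO.co τ k v - P354BO.co τ k v' := by
  have := h.co_add (τ := τ) (k := k) (h'.smul (contDiff_const (c := -1)))
  rw [h'.co_smul] at this
  simpa only [neg_smul, one_smul, ← sub_eq_add_neg] using this

/-- Operators with a formal adjoint commute with the coefficients. -/
theorem JS.co_op (h : JS v) {s' : ℤ} {T : S s → S s'} {T' : S s' → S s} (hT : ∀ x y, ⟪x, T y⟫_ℂ = ⟪T' x, y⟫_ℂ)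
    (h' : JS fun t => T (v t)) : P354BO.co τ k (fun t => T (v t)) = T (P354BO.co τ k v) :=
  ext_inner_left ℂ fun u => by simp only [h'.inner_co, hT, h.inner_co]

theorem L_adj (i : Fin 3) (x y : S s) : ⟪x, L i y⟫_ℂ = ⟪-L i x, y⟫_ℂ := by
  rw [inner_neg_left, skew, neg_neg]

theorem JS.co_L (h : JS v) (i : Fin 3) :
    P354BO.co τ k (fun t => P354BO.L i (v t)) = P354BO.L i (P354BO.co τ k v) :=
  h.co_op (L_adj i) (h.L i)

theorem JS.co_w (h : JS v) (i : Fin 3) :
    P354BO.co τ k (fun t => P354BO.w i (v t)) = P354BO.w i (P354BO.co τ k v) :=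
  h.co_op (fun x y => ((ang_is s).symm i x y).symm) (h.w i)

theorem JS.co_deriv (h : JS v) (hτ : τ ≠ 0) (hp : v τ = v 0) :
    P354BO.co τ k (_root_.deriv v) = (-(I * om τ k)) • P354BO.co τ k v :=
  ext_inner_left ℂ fun u => by
    have d : ∀ t, HasDerivAt (fun t => ek τ k t * ⟪u, v t⟫_ℂ) (I * om τ k * (ek τ k t * ⟪u, v t⟫_ℂ) +
        ek τ k t * ⟪u, _root_.deriv v t⟫_ℂ) t := fun t =>
      ((ek_der τ k t).mul (((innerSL ℂ u).restrictScalars ℝ).hasFDerivAt.comp_hasDerivAt t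
        (h.differentiable t).hasDerivAt)).congr_deriv (by rw [mul_assoc]; rfl)
    have := intervalIntegral.integral_eq_sub_of_hasDerivAt (a := 0) (b := τ) (fun t _ => d t)
      (((h.ii u τ k).const_mul (I * om τ k)).add (h.deriv.ii u τ k))
    rw [intervalIntegral.integral_add ((h.ii u τ k).const_mul _) (h.deriv.ii u τ k),
      intervalIntegral.integral_const_mul, hp, ek_per hτ, sub_self] at this
    rw [h.deriv.inner_co, inner_smul_right, h.inner_co]
    linear_combination this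

theorem JS.fderiv_co {F : ℝ × P → S s} (h : JS F) (τ : ℝ) (k : ℤ) (p e : P) :
    _root_.fderiv ℝ (fun p => P354BO.co τ k fun t => F (t, p)) p e =
      P354BO.co τ k fun t => _root_.fderiv ℝ (fun q => F (t, q)) p e := by
  refine ((h.smul ((ek_sm τ k).comp contDiff_fst)).fderiv_iS 0 τ p e).trans (congrArg _ ?_)
  funext t
  have a := ((h.smul ((ek_sm τ k).comp contDiff_fst)).differentiable (t, p)).hasFDerivAt.comp p
    (hasFDerivAt_prodMk_right t p)
  have b := ((h.comp (contDiff_prodMk_right t)).differentiable p).hasFDerivAt.const_smul (ek τ k t)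
  exact congrArg (· e) (a.unique b)

theorem JS.norm_sq_int (h : JS v) (a b : ℝ) :
    ∫ t in a..b, ‖v t‖ ^ 2 = ∫ ξ, ∫ t in a..b, ‖P354BO.gl (v t) ξ‖ ^ 2 := by
  simp only [norm_sq]
  exact intervalIntegral_integral_swap (int_prod (h.gl.continuous.norm.pow 2)
    (fun x a => by simp [gl_out _ a]) a b)

/-- The identity of Parseval in the parameter. -/
theorem JS.hasSum_co (h : JS v) (hτ : 0 < τ) :
    HasSum (fun k => ‖P354BO.co τ k v‖ ^ 2) (τ⁻¹ * ∫ t in (0 : ℝ)..τ, ‖v t‖ ^ 2) := by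
  have c := h.gl.continuous
  have a : ∀ ξ, HasSum (fun k => ‖P354BO.gl (P354BO.co τ k v) ξ‖ ^ 2)
      (τ⁻¹ * ∫ t in (0 : ℝ)..τ, ‖P354BO.gl (v t) ξ‖ ^ 2) := fun ξ => by
    have c1 : Continuous fun t => P354BO.gl (v t) ξ := c.comp (f := fun t : ℝ => (t, ξ))
      (Continuous.prodMk_left ξ)
    obtain ⟨C, hC⟩ := (isCompact_Icc (a := 0) (b := τ)).exists_bound_of_continuousOn c1.continuousOn
    have := (Equiv.neg ℤ).hasSum_iff.2 (hasSum_sq_fourierCoeffOn hτ (MemLp.of_bound
      c1.aestronglyMeasurable C ((ae_restrict_iff' measurableSet_Ioc).2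
        (Eventually.of_forall fun t ht => hC t (Ioc_subset_Icc_self ht)))))
    rw [sub_zero, smul_eq_mul] at this
    refine (congrArg (HasSum · _) (funext fun k => ?_)).mp this
    simp only [Function.comp_apply, Equiv.neg_apply, fourierCoeffOn_eq_integral, neg_neg,
      fourier_coe_apply, P354BO.gl, h.co_app, ← intervalIntegral.integral_const_mul,
      ← intervalIntegral.integral_smul, sub_zero]
    refine congrArg (‖·‖ ^ 2) (intervalIntegral.integral_congr fun t _ => ?_)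
    simp only [ek, om, Complex.real_smul, smul_eq_mul]
    push_cast
    ring_nf
  have i : ∀ u : S s, Integrable fun ξ => ‖P354BO.gl u ξ‖ ^ 2 := fun u =>
    int_K ((gl_sm u).continuous.norm.pow 2) fun ξ a => by simp [gl_out u a]
  have j : Integrable fun ξ => τ⁻¹ * ∫ t in (0 : ℝ)..τ, ‖P354BO.gl (v t) ξ‖ ^ 2 :=
    (int_K (intervalIntegral.continuous_parametric_intervalIntegral_of_continuous'
      (f := fun ξ t => ‖P354BO.gl (v t) ξ‖ ^ 2) (μ := volume)
        (show Continuous fun x : V × ℝ => ‖P354BO.gl (v x.2) x.1‖ ^ 2 from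
          (c.comp (f := fun x : V × ℝ => (x.2, x.1)) continuous_swap).norm.pow 2) 0 τ)
      fun ξ a => by simp [gl_out _ a]).const_mul _
  have b := hasSum_integral_of_summable_integral_norm (fun k => i (P354BO.co τ k v))
    (summable_of_sum_le (c := ∫ ξ, τ⁻¹ * ∫ t in (0 : ℝ)..τ, ‖P354BO.gl (v t) ξ‖ ^ 2)
      (fun _ => integral_nonneg fun _ => norm_nonneg _) fun t => by
        simp only [norm_pow, norm_norm]
        rw [← integral_finsetSum _ fun k _ => i _]
        exact integral_mono (integrable_finsetSum _ fun k _ => i _) j fun ξ =>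
          sum_le_hasSum t (fun _ _ => sq_nonneg _) (a ξ))
  simp only [(a _).tsum_eq, ← norm_sq] at b
  rwa [h.norm_sq_int, ← integral_const_mul]

theorem pol0 (x y : S s) : ⟪x, y⟫_ℂ = (((‖x + (1 : ℂ) • y‖ ^ 2 : ℝ) : ℂ) -
    (‖x + (-1 : ℂ) • y‖ ^ 2 : ℝ) + ((‖x + (-I) • y‖ ^ 2 : ℝ) - (‖x + I • y‖ ^ 2 : ℝ)) * I) / 4 := by
  simp only [one_smul, neg_smul, ← sub_eq_add_neg, Complex.ofReal_pow]
  exact inner_eq_sum_norm_sq_div_four (𝕜 := ℂ) x y

/-- Polarisation. -/
theorem pol {ι : Type} {a b : ι → S s} {q : ℂ → ℝ}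
    (h : ∀ z : ℂ, HasSum (fun k => ‖a k + z • b k‖ ^ 2) (q z)) :
    HasSum (fun k => ⟪a k, b k⟫_ℂ) ((q 1 - q (-1) + (q (-I) - q I) * I) / 4) := by
  have e := fun z => Complex.hasSum_ofReal.2 (h z)
  simp only [pol0 (a _)]
  exact (((e 1).sub (e (-1))).add (((e (-I)).sub (e I)).mul_right I)).div_const 4

theorem JS.pol_int (h : JS v) (h' : JS v') (a b c : ℝ) {q : ℂ → ℝ}
    (hq : ∀ z, q z = c * ∫ t in a..b, ‖v t + z • v' t‖ ^ 2) :
    ((q 1 - q (-1) + (q (-I) - q I) * I) / 4 : ℂ) = c * ∫ t in a..b, ⟪v t, v' t⟫_ℂ := by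
  have i : ∀ z : ℂ, IntervalIntegrable (fun t => ((‖v t + z • v' t‖ ^ 2 : ℝ) : ℂ)) volume a b :=
    fun z => (Complex.continuous_ofReal.comp ((h.add (h'.smul
      (contDiff_const (c := z)))).contDiff.continuous.norm.pow 2)).intervalIntegrable a b
  simp only [pol0 (v _), hq, Complex.ofReal_mul, ← intervalIntegral.integral_ofReal]
  rw [intervalIntegral.integral_div, intervalIntegral.integral_add ((i _).sub (i _))
    (((i _).sub (i _)).mul_const _), intervalIntegral.integral_mul_const,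
    intervalIntegral.integral_sub (i _) (i _), intervalIntegral.integral_sub (i _) (i _)]
  ring

theorem JS.hasSum_co_inner (h : JS v) (h' : JS v') (hτ : 0 < τ) :
    HasSum (fun k => ⟪P354BO.co τ k v, P354BO.co τ k v'⟫_ℂ)
      ((τ⁻¹ : ℝ) * ∫ t in (0 : ℝ)..τ, ⟪v t, v' t⟫_ℂ) := by
  rw [← h.pol_int h' 0 τ τ⁻¹ fun _ => rfl]
  refine pol (q := fun z => τ⁻¹ * ∫ t in (0 : ℝ)..τ, ‖v t + z • v' t‖ ^ 2) fun z => ?_
  have a := h'.smul (contDiff_const (c := z))
  simpa only [h.co_add a, h'.co_smul] using (h.add a).hasSum_co hτ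

end Vale.Agent.P354BO
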