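import Vale.Agent.P354EF.FldO

/-!
The Parseval property on an open set O, by the pull back along the twist.
-/

open scoped ContDiff ComplexConjugate Topology
open Complex (I)
open MeasureTheory Set Filter

namespace Vale.Agent.P354BO

open P354XG P354XI P354XD P354XR P354EF
open P354XT hiding d1

/-- The Parseval property is pulled back along a homomorphism. -/
theorem par_of {A A2 : Type} [CommRing A] [Algebra ℂ A] [CommRing A2] [Algebra ℂ A2] {Φ : Fld A}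
    {Ψ : Fld A2} (π : A →ₐ[ℂ] A2) (s : Ψ.s = Φ.s) (o : Φ.Om ⊆ Ψ.Om)
    (X : ∀ a F, π (Φ.X a F) = Ψ.X a (π F)) (w : π (Φ.w 2) = Ψ.w 2)
    (r : ∀ c, ContDiff ℝ ∞ c → π (Φ.rad c) = Ψ.rad c)
    (cl : ∀ ta tb F, Φ.Cl ta tb F → Ψ.Cl ta tb (π F))
    (b : ∀ c ta tb x y F F', ContDiff ℝ ∞ c → Icc ta tb ×ˢ Icc x y ⊆ Φ.Om →
      (∀ r, r ∉ Icc x y → c r = 0) → Φ.Cl ta tb F →
      Ψ.B.bil (Ψ.rad c) (π F) (π F') = Φ.B.bil (Φ.rad c) F F') (h : Ψ.Par) : Φ.Par := by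
  obtain ⟨S, i1, i2, G, g, gs, h⟩ := h
  refine ⟨S, i1, i2, G, g, gs.trans s, fun ta tb ra rb hb => ?_⟩
  obtain ⟨ι, om, m, κ, hat, k⟩ := h ta tb ra rb (hb.trans o)
  have L : ∀ j F, π (Φ.L j F) = Ψ.L j (π F) := fun j F => by
    fin_cases j
    exacts [X 2 F, X 3 F, X 4 F]
  refine ⟨ι, om, m, κ, fun i F => hat i (π F), k.pos, fun i F a => k.md i _ (cl _ _ F a),
    fun i F F' a a' => ?_, fun i z F a => ?_, fun i c F hc a => ?_, fun i F a => ?_,
    fun i F a => ?_, fun i F a => ?_, fun i F a => ?_, fun i F a => ?_,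
    fun c x y F F' hc hx hxy hy c0 a a' => ?_⟩
  · simpa only [map_add] using k.add i _ _ (cl _ _ F a) (cl _ _ F' a')
  · simpa only [map_mul, π.commutes] using k.smul i z _ (cl _ _ F a)
  · simpa only [map_mul, r c hc] using k.rad i c _ hc (cl _ _ F a)
  · simpa only [show π (Φ.T F) = Ψ.T (π F) from X 0 F] using k.T i _ (cl _ _ F a)
  · simpa only [show π (Φ.R F) = Ψ.R (π F) from X 1 F] using k.R i _ (cl _ _ F a)
  · simpa only [L] using k.F i _ (cl _ _ F a)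
  · simpa only [map_mul, w] using k.w i _ (cl _ _ F a)
  · simpa only [map_sum, L] using k.cas i _ (cl _ _ F a)
  · rw [← b c ta tb x y F F' hc ((prod_mono le_rfl (Icc_subset_Icc hx.le hy.le)).trans hb) c0 a]
    exact k.par c x y _ _ hc hx hxy hy c0 (cl _ _ F a) (cl _ _ F' a')

variable {j : ℝ → ℝ}

theorem tm_mp (hj : ContDiff ℝ ∞ j) : MeasurePreserving (tm j) := by
  have e : ∀ c r, MeasurePreserving fun z => ph j c r * z := fun c r =>
    (rotation ⟨ph j c r, mem_sphere_zero_iff_norm.2 (ph_norm c r)⟩).measurePreserving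
  refine (MeasurePreserving.id volume).prod ((MeasurePreserving.id volume).skew_product
    (g := fun r (ξ : V) => (ph j 1 r * ξ.1, ph j (-1) r * ξ.2)) ?_
      (Eventually.of_forall fun r => ((e 1 r).prod (e (-1) r)).map_eq))
  exact ((((ph_sm hj 1).continuous.comp continuous_fst).mul continuous_snd.fst).prodMk
    (((ph_sm hj (-1)).continuous.comp continuous_fst).mul continuous_snd.snd)).measurable

theorem tm_chi (x : E6) : χ (tm j x).2.2 = χ x.2.2 := by simp [χ, N, tm, ph_norm]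

variable {O : Set E6} {U : Set (ℝ × ℝ)} (h : Mq (cyl U) O (tm j)) (hU : IsOpen U)
  (hj : ContDiff ℝ ∞ j)
include hj

/-- The pull back keeps the integral of elements with support over a compact subset of U. -/
theorem J_pb (sU : cyl U ⊆ O) (s : ℤ) (f : ℝ → ℝ) {C : Set (ℝ × ℝ)} (hC : IsCompact C) (sC : C ⊆ U)
    {F : Sm (on O)} (e : ∀ x ∈ O, χ x.2.2 ≠ 0 → tr x ∉ C → fv F x = 0) :
    F ∈ (BO h.op).K ∧ h.pb F ∈ (fld hU s f).B.K ∧ (fld hU s f).B.J (h.pb F) = (BO h.op).J F := by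
  have c := (hC.prod K_cpt).image (f := fun y : (ℝ × ℝ) × V => (y.1.1, y.1.2, y.2)) (by fun_prop)
  have sc : (fun y : (ℝ × ℝ) × V => (y.1.1, y.1.2, y.2)) '' C ×ˢ K ⊆ cyl U := by
    rintro _ ⟨y, hy, rfl⟩
    exact ⟨sC hy.1, K_ne hy.2⟩
  have k : ∀ x : E6, χ x.2.2 ≠ 0 → x ∉ (fun y : (ℝ × ℝ) × V => (y.1.1, y.1.2, y.2)) '' C ×ˢ K →
      tr x ∉ C := fun x a b d => b ⟨(tr x, x.2.2), ⟨d, by_contra fun c => a (χ_out c)⟩, rfl⟩
  have m := P354EF.memK h.op c (sc.trans sU) fun x a b d => e x a b (k x b d)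
  have m' := P354EF.memK h.op' c sc (F := h.pb F) fun x a b d =>
    (h.fv_pb F a).trans (e _ (h.mp a) (by rwa [tm_chi]) (k x b d))
  refine ⟨m, m', (BO_J h.op' m').trans ?_⟩
  have i := integral_map (tm_mp hj).aemeasurable
    ((tm_mp hj).map_eq.symm ▸ (BO_int h.op m).aestronglyMeasurable)
  rw [(tm_mp hj).map_eq] at i
  rw [BO_J h.op m, i]
  refine integral_congr_ae (Eventually.of_forall fun x => ?_)
  simp only [tm_chi]
  by_cases a : x ∈ cyl U
  · rw [h.fv_pb F a]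
  · by_cases b : χ x.2.2 = 0
    · simp [b]
    · by_cases d : tm j x ∈ O
      · rw [fv_out _ a, e _ d (by rwa [tm_chi]) fun g =>
          a ⟨sC g, K_ne (by_contra fun c => b (χ_out c))⟩]
      · rw [fv_out _ a, fv_out _ d]

omit hj in
theorem pb_fO {φ : ℝ × ℝ → ℝ} (a : ContDiff ℝ ∞ φ) : h.pb (fO O φ) = fz U φ :=
  ext_fv h.op' fun x hx => by
    rw [h.fv_pb _ hx, fv_fO a (h.mp hx)]
    exact (ev_fz a ⟨x, hx⟩).symm

omit h in
/-- The Parseval property. -/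
theorem fldO_par (hO : IsOpen O) (hr : ∀ x ∈ O, x.2.1 ≠ 0 ∧ x.2.2 ≠ 0) (hU : IsOpen U)
    (sU : cyl U ⊆ O) (s : ℤ) {f : ℝ → ℝ} (hf : ContDiff ℝ ∞ f) : (fldO hO U s f j).Par := by
  have h := mq_cyl hO hU sU hj
  have m := h.hm hr (fun x hx => hr x (sU hx)) hj
  have hf' : ContDiff ℝ ∞ fun p : ℝ × ℝ => f p.2 := hf.comp contDiff_snd
  refine par_of (Φ := fldO hO U s f j) (Ψ := fld hU s f) h.pb rfl le_rfl (fun a F => ?_) (m.w 2).1
    (fun c hc => pb_fO h (φ := fun p => c p.2) (hc.comp contDiff_snd))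
    (fun ta tb F a => ⟨⟨?_, ?_⟩, fun x hx => ?_⟩) (fun c ta tb x y F F' hc b c0 a => ?_)
    (fld_par hU (fun z hz => (hr (z.1, z.2, 1, 0) (sU ⟨hz, by simp⟩)).1) s hf)
  · fin_cases a
    exacts [m.d 0 F, by simp [Fld.X, fldO, fld, m.d, pb_fO h hf'], m.Om 0 F, m.Om 1 F, m.Om 2 F]
  · rw [← m.H, a.1.1, map_smul]
  · rw [← m.B, a.1.2, map_neg, map_smul]
  · refine (h.fv_pb F x.1.2).trans (a.2 ⟨⟨_, h.mp x.1.2⟩, (fv_bO (h.mp x.1.2)).trans_ne ?_⟩ hx)
    rw [tm_chi]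
    exact (ev_be x.1).symm.trans_ne x.2
  · have hc' : ContDiff ℝ ∞ fun p : ℝ × ℝ => c p.2 := hc.comp contDiff_snd
    have := (J_pb h hU hj sU s f (isCompact_Icc.prod isCompact_Icc) b
      (F := fO O (fun p => c p.2) * (F * cj F')) fun z u v w => by
        rw [fv_mul, fv_mul, fv_fO hc' u]
        by_cases d : z.1 ∈ Icc ta tb
        · rw [c0 _ fun e => w ⟨d, e⟩, Complex.ofReal_zero, zero_mul]
        · rw [show fv F z = 0 from a.2 ⟨⟨z, u⟩, (fv_bO u).trans_ne (by simpa using v)⟩ d, zero_mul,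
            mul_zero]).2.2
    rwa [map_mul, map_mul, h.pb_cj, pb_fO h hc'] at this

end Vale.Agent.P354BO
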