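import Vale.Agent.P354Z.Est

/-!
The calculus of the pointwise sums of squares q2.
-/

open scoped ContDiff
open Finset

namespace Vale.Agent.P354BO

open P354XG P354XI P354Z

variable {O : Set E6} {ι : Type} [Fintype ι] (X : ι → Der (Sm (on O))) (x : E6)

theorem q2_succ (n : ℕ) (f : Sm (on O)) :
    q2 X x (n + 1) f = q2 X x n f + ∑ a, q2 X x n (X a f) := rfl

theorem q2_nonneg : ∀ (n : ℕ) (f : Sm (on O)), 0 ≤ q2 X x n f
  | 0, _ => sq_nonneg _
  | n + 1, f => add_nonneg (q2_nonneg n f) (sum_nonneg fun _ _ => q2_nonneg n _)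

theorem q2_mono {n m : ℕ} (h : n ≤ m) (f : Sm (on O)) : q2 X x n f ≤ q2 X x m f := by
  induction h with
  | refl => exact le_rfl
  | step _ ih => exact ih.trans (le_add_of_nonneg_right (sum_nonneg fun _ _ => q2_nonneg X x _ _))

theorem q2_der (n : ℕ) (a : ι) (f : Sm (on O)) : q2 X x n (X a f) ≤ q2 X x (n + 1) f :=
  (single_le_sum (f := fun a => q2 X x n (X a f)) (fun _ _ => q2_nonneg X x _ _) (mem_univ a)).trans
    (le_add_of_nonneg_left (q2_nonneg X x _ _))

theorem q2_val (n : ℕ) (f : Sm (on O)) : ‖fv f x‖ ^ 2 ≤ q2 X x n f := q2_mono X x n.zero_le f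

/-- Words. -/
theorem q2_word (w : List ι) (n : ℕ) (f : Sm (on O)) :
    q2 X x n (w.foldr (fun a u => X a u) f) ≤ q2 X x (n + w.length) f := by
  induction w generalizing n with
  | nil => exact le_rfl
  | cons a w ih => exact (q2_der X x n a _).trans ((ih _).trans_eq (by rw [List.length_cons]; ring_nf))

theorem q2_smul (z : ℂ) : ∀ (n : ℕ) (f : Sm (on O)), q2 X x n (z • f) = ‖z‖ ^ 2 * q2 X x n f
  | 0, f => by simp only [q2, fv_smul, norm_mul, mul_pow]
  | n + 1, f => by simp only [q2_succ, Derivation.map_smul, q2_smul z n, mul_add, mul_sum]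

theorem q2_zero (n : ℕ) : q2 X x n 0 = 0 := by simpa using q2_smul X x 0 n 0

theorem q2_neg (n : ℕ) (f : Sm (on O)) : q2 X x n (-f) = q2 X x n f := by
  simpa using q2_smul X x (-1) n f

theorem q2_alg (z : ℂ) : ∀ n : ℕ, q2 X x n (algebraMap ℂ _ z) ≤ ‖z‖ ^ 2
  | 0 => by
    by_cases h : x ∈ O
    · exact (congrArg (‖·‖ ^ 2) (fv_alg z h)).le
    · simp [q2, fv_out _ h]
  | n + 1 => by simpa only [q2_succ, D_alg, q2_zero, sum_const_zero, add_zero] using q2_alg z n

theorem q2_sum {κ : Type} (s : Finset κ) : ∀ (n : ℕ) (f : κ → Sm (on O)),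
    q2 X x n (∑ b ∈ s, f b) ≤ s.card * ∑ b ∈ s, q2 X x n (f b)
  | 0, f => by
    by_cases h : x ∈ O
    · have : fv (∑ b ∈ s, f b) x = ∑ b ∈ s, fv (f b) x := map_sum (evO ⟨x, h⟩) _ _
      simp only [q2, this]
      exact (pow_le_pow_left₀ (norm_nonneg _) (norm_sum_le _ _) 2).trans sq_sum_le_card_mul_sum_sq
    · simp [q2, fv_out _ h]
  | n + 1, f => by
    simp only [q2_succ, map_sum, sum_add_distrib, mul_add]
    rw [sum_comm, mul_sum univ]
    exact add_le_add (q2_sum s n f) (sum_le_sum fun a _ => q2_sum s n _)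

theorem q2_add (n : ℕ) (f g : Sm (on O)) :
    q2 X x n (f + g) ≤ 2 * (q2 X x n f + q2 X x n g) := by
  simpa using q2_sum X x univ n ![f, g]

theorem q2_sub (n : ℕ) (f g : Sm (on O)) :
    q2 X x n (f - g) ≤ 2 * (q2 X x n f + q2 X x n g) := by
  rw [sub_eq_add_neg, ← q2_neg X x n g]; exact q2_add X x n f _

theorem q2_mul : ∀ (n : ℕ) (f g : Sm (on O)),
    q2 X x n (f * g) ≤ 2 ^ n * (q2 X x n f * q2 X x n g)
  | 0, f, g => by simp [q2, fv_mul, mul_pow]
  | n + 1, f, g => by
    have a := q2_nonneg X x n f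
    have b := q2_nonneg X x n g
    have c := sum_nonneg fun a (_ : a ∈ univ) => q2_nonneg X x n (X a f)
    have d := sum_nonneg fun a (_ : a ∈ univ) => q2_nonneg X x n (X a g)
    have e : ∑ a, q2 X x n (X a (f * g)) ≤ ∑ a, 2 * (2 ^ n * (q2 X x n f * q2 X x n (X a g)) +
        2 ^ n * (q2 X x n g * q2 X x n (X a f))) := sum_le_sum fun a _ => by
      rw [D_mul]
      exact (q2_add X x n _ _).trans (by gcongr <;> exact q2_mul n _ _)
    simp only [← mul_sum, sum_add_distrib] at e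
    have k := q2_mul n f g
    have p : (0 : ℝ) < 2 ^ n := by positivity
    rw [q2_succ, q2_succ, q2_succ, pow_succ]
    nlinarith [mul_nonneg p.le (mul_nonneg a b), mul_nonneg p.le (mul_nonneg c d)]

/-- The conjugation, for real letters. -/
theorem q2_cj (h : ∀ a f, cj (X a f) = X a (cj f)) : ∀ (n : ℕ) (f : Sm (on O)),
    q2 X x n (cj f) = q2 X x n f
  | 0, f => by simp [q2, fv_cj]
  | n + 1, f => by simp only [q2_succ, ← h, q2_cj h n]

/-- The change of the letters. -/
theorem q2_chg {κ : Type} [Fintype κ] {Y : κ → Der (Sm (on O))} {c : κ → ι → Sm (on O)}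
    (h : ∀ a f, Y a f = ∑ b, c a b * X b f) {N : ℕ} {B : ℝ} (hB : 0 ≤ B)
    (hc : ∀ a b, q2 X x N (c a b) ≤ B) : ∀ n ≤ N + 1, ∀ f,
      q2 Y x n f ≤ (1 + Fintype.card κ * Fintype.card ι * 2 ^ N * B) ^ n * q2 X x n f
  | 0, _, f => by simp [q2]
  | n + 1, hn, f => by
    have ih := q2_chg h hB hc n (by omega)
    have e : ∀ a, q2 X x n (Y a f) ≤ Fintype.card ι * 2 ^ N * B * ∑ b, q2 X x n (X b f) :=
      fun a => by
      rw [h, mul_assoc, mul_assoc, mul_sum univ, mul_sum univ]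
      refine (q2_sum X x _ n _).trans (mul_le_mul_of_nonneg_left (sum_le_sum fun b _ =>
        (q2_mul X x n _ _).trans ?_) (Nat.cast_nonneg _))
      have := q2_nonneg X x n (X b f)
      have := q2_nonneg X x n (c a b)
      gcongr
      · norm_num
      · omega
      · exact (q2_mono X x (by omega) _).trans (hc a b)
    have a := q2_nonneg X x n f
    have b := sum_nonneg fun a (_ : a ∈ univ) => q2_nonneg X x n (X a f)
    have k : 0 ≤ (Fintype.card κ * Fintype.card ι * 2 ^ N * B : ℝ) := by positivity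
    have s := sum_le_sum fun a (_ : a ∈ univ) => (ih (Y a f)).trans
      (mul_le_mul_of_nonneg_left (e a) (by positivity))
    rw [sum_const, card_univ, nsmul_eq_mul] at s
    rw [q2_succ, q2_succ, pow_succ]
    have p : 0 ≤ (1 + Fintype.card κ * Fintype.card ι * 2 ^ N * B : ℝ) ^ n := by positivity
    nlinarith [ih f, mul_nonneg p b, mul_nonneg p (mul_nonneg k a)]

/-- The transport along a homomorphism which intertwines the letters. -/
theorem q2_map {O' : Set E6} {Y : ι → Der (Sm (on O'))} {π : Sm (on O) →ₐ[ℂ] Sm (on O')} {y : E6}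
    (h : ∀ a f, π (X a f) = Y a (π f)) (e : ∀ f, fv (π f) y = fv f x) : ∀ (n : ℕ) (f : Sm (on O)),
    q2 Y y n (π f) = q2 X x n f
  | 0, f => by simp only [q2, e]
  | n + 1, f => by simp only [q2_succ, ← h, q2_map h e n]

end Vale.Agent.P354BO
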