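import Vale.Agent.P354BO.Par
import Vale.Agent.P354BF.Alg

/-!
The axial rotations and the projections to the axial modes.
-/

open scoped ContDiff InnerProductSpace ComplexConjugate Topology Real
open Complex (I)
open MeasureTheory Set Filter

namespace Vale.Agent.P354BO

variable {s s' : ℤ} {P : Type} [NormedAddCommGroup P] [NormedSpace ℝ P] [FiniteDimensional ℝ P]

/-- The rotation about the axis. -/
noncomputable def rot (φ : ℝ) (ξ : V) : V :=
  (Complex.exp (-I / 2 * φ) * ξ.1, Complex.exp (I / 2 * φ) * ξ.2)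

theorem rot_sm : ContDiff ℝ ∞ fun x : ℝ × V => rot x.1 x.2 :=
  (((contDiff_const.mul (Complex.ofRealCLM.contDiff.comp contDiff_fst)).cexp).mul
    contDiff_snd.fst).prodMk
      (((contDiff_const.mul (Complex.ofRealCLM.contDiff.comp contDiff_fst)).cexp).mul
        contDiff_snd.snd)

theorem rot_ne (φ : ℝ) {ξ : V} (h : ξ ≠ 0) : rot φ ξ ≠ 0 := fun e =>
  h (Prod.ext ((mul_eq_zero.1 (congrArg Prod.fst e)).resolve_left (Complex.exp_ne_zero _))
    ((mul_eq_zero.1 (congrArg Prod.snd e)).resolve_left (Complex.exp_ne_zero _)))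

theorem rot_smul (φ : ℝ) (z : ℂ) (ξ : V) : rot φ (z • ξ) = z • rot φ ξ := by
  ext <;> simp [rot] <;> ring

theorem rot_der (φ : ℝ) (ξ : V) : HasDerivAt (fun φ => rot φ ξ) (A 2 (rot φ ξ)) φ := by
  have a : ∀ z : ℂ, HasDerivAt (fun ψ : ℝ => Complex.exp (z * ψ)) (Complex.exp (z * φ) * z) φ :=
    fun z => by simpa using ((Complex.ofRealCLM.hasDerivAt (x := φ)).const_mul z).cexp
  refine (((a _).mul_const ξ.1).prodMk ((a _).mul_const ξ.2)).congr_deriv ?_
  ext <;> simp [A2, rot] <;> ring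

/-- The rotation of a section. -/
noncomputable def R (φ : ℝ) (u : S s) : S s :=
  S.of (fun ξ => u (rot φ ξ)) ⟨u.is.sm.comp (rot_sm.comp (contDiff_prodMk_right φ)).contDiffOn
    fun _ h => rot_ne φ h, by simp [rot, Prod.mk_zero_zero, u.is.zero], fun c hc ξ => by
      rw [rot_smul, u.is.hom c hc], fun ψ ξ => by rw [rot_smul, u.is.wt]⟩

theorem R_app (φ : ℝ) (u : S s) (ξ : V) : R φ u ξ = u (rot φ ξ) := rfl

omit [FiniteDimensional ℝ P] in
theorem JS.R {F : P → S s} (h : JS F) : JS fun x : ℝ × P => R x.1 (F x.2) :=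
  ContDiffOn.comp h (g := fun x : P × V => F x.1 x.2)
    (f := fun x : (ℝ × P) × V => (x.1.2, rot x.1.1 x.2)) (contDiff_fst.snd.prodMk
      (rot_sm.comp (contDiff_fst.fst.prodMk contDiff_snd))).contDiffOn fun x a => rot_ne x.1.1 a

theorem JS_R (u : S s) : JS fun φ => R φ u :=
  (JS.const (P := ℝ) u).R.comp (contDiff_prodMk_left 0)

theorem R_zero (u : S s) : R 0 u = u := S.ext fun ξ _ => by simp [R_app, rot]

theorem R_per (u : S s) : R (2 * π) u = R 0 u := S.ext fun ξ _ => by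
  have e : rot (2 * π) ξ = Complex.exp (I * (2 * π : ℝ) / 2) • ξ := by
    have a : I / 2 * (2 * π : ℝ) = π * I := by push_cast; ring
    have b : -I / 2 * (2 * π : ℝ) = -(π * I) := by push_cast; ring
    have c : I * (2 * π : ℝ) / 2 = π * I := by push_cast; ring
    simp only [rot, a, b, c, Complex.exp_neg, Complex.exp_pi_mul_I]
    ext <;> simp
  rw [R_zero, R_app, e, u.is.wt, show I * s * (2 * π : ℝ) = s * (2 * π * I) by push_cast; ring,
    Complex.exp_int_mul_two_pi_mul_I, one_mul]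

theorem R_der (u : S s) : deriv (fun φ => R φ u) = fun φ => L 2 (R φ u) :=
  funext fun φ => S.ext fun ξ h => by
    have a := (u.dif (rot_ne φ h)).hasFDerivAt
    have e : rot φ = mx (Complex.exp (-I / 2 * φ)) 0 0 (Complex.exp (I / 2 * φ)) :=
      funext fun ξ => by simp [rot, mx_app]
    have b : HasFDerivAt (rot φ) (mx (Complex.exp (-I / 2 * φ)) 0 0 (Complex.exp (I / 2 * φ))) ξ :=
      e ▸ ContinuousLinearMap.hasFDerivAt _
    rw [(JS_R u).deriv_app, L_app]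
    refine (a.comp_hasDerivAt φ (rot_der φ ξ)).deriv.trans
      (Eq.trans (congrArg _ ?_) (congrArg (· (A 2 ξ)) (a.comp ξ b).fderiv).symm)
    ext <;> simp [A2, rot, mx_app] <;> ring

theorem R_inner (u v : S s) (φ : ℝ) : HasDerivAt (fun φ => ⟪v, R φ u⟫_ℂ) ⟪v, L 2 (R φ u)⟫_ℂ φ :=
  (((innerSL ℂ v).restrictScalars ℝ).hasFDerivAt.comp_hasDerivAt φ
    ((JS_R u).differentiable φ).hasDerivAt).congr_deriv (by rw [R_der]; rfl)

theorem R_norm (u : S s) (φ : ℝ) : ‖R φ u‖ = ‖u‖ := by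
  have d : ∀ φ, HasDerivAt (fun φ => ⟪R φ u, R φ u⟫_ℂ) 0 φ := fun φ =>
    (((JS_R u).differentiable φ).hasDerivAt.inner ℂ
      ((JS_R u).differentiable φ).hasDerivAt).congr_deriv (by rw [R_der, skew, add_neg_cancel])
  have := is_const_of_deriv_eq_zero (fun φ => (d φ).differentiableAt) (fun φ => (d φ).deriv) φ 0
  rw [R_zero, P354BF.ip_self, P354BF.ip_self, Complex.ofReal_inj] at this
  exact (sq_eq_sq₀ (norm_nonneg _) (norm_nonneg _)).1 this

/-- Sections with the axial number m. -/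
def Eig (m : ℤ) (u : S s) : Prop := L 2 u = (I * m) • u

/-- The projection to the axial number m. -/
noncomputable def pr (m : ℤ) : S s →ₗ[ℂ] S s where
  toFun u := co (2 * π) (-m) fun φ => R φ u
  map_add' u v := (JS_R u).co_add (JS_R v)
  map_smul' z u := (JS_R u).co_smul z

theorem pr_def (m : ℤ) (u : S s) : pr m u = co (2 * π) (-m) fun φ => R φ u := rfl

theorem om_pi (m : ℤ) : om (2 * π) m = m := by
  rw [om]
  field_simp

theorem eig_pr (m : ℤ) (u : S s) : Eig m (pr m u) := by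
  rw [Eig, pr_def, ← (JS_R u).co_L, ← R_der, (JS_R u).co_deriv Real.two_pi_pos.ne' (R_per u), om_pi]
  simp

theorem Eig.inner_pr {m : ℤ} {v : S s} (h : Eig m v) (u : S s) : ⟪v, pr m u⟫_ℂ = ⟪v, u⟫_ℂ := by
  have d : ∀ φ, HasDerivAt (fun φ => ek (2 * π) (-m) φ * ⟪v, R φ u⟫_ℂ) 0 φ := fun φ =>
    ((ek_der _ _ φ).mul (R_inner u v φ)).congr_deriv (by
      rw [L_adj, h, om_pi, inner_neg_left, inner_smul_left]
      simp
      ring)
  have := fun φ =>
    is_const_of_deriv_eq_zero (fun φ => (d φ).differentiableAt) (fun φ => (d φ).deriv) φ 0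
  have e : ((π : ℝ) : ℂ) ≠ 0 := by exact_mod_cast Real.pi_pos.ne'
  simp only [pr_def, (JS_R u).inner_co, this, R_zero, intervalIntegral.integral_const,
    Complex.real_smul]
  simp [ek]
  field_simp

theorem Eig.sub {m : ℤ} {u v : S s} (h : Eig m u) (h' : Eig m v) : Eig m (u - v) := by
  rw [Eig, map_sub, h, h', smul_sub]

theorem eq_pr {m : ℤ} {u y : S s} (h : Eig m y) (h' : ∀ v, Eig m v → ⟪v, y⟫_ℂ = ⟪v, u⟫_ℂ) :
    pr m u = y := by
  have a := (eig_pr m u).sub h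
  rw [← sub_eq_zero, ← inner_self_eq_zero (𝕜 := ℂ), inner_sub_right, a.inner_pr, h' _ a, sub_self]

theorem Eig.pr {m : ℤ} {u : S s} (h : Eig m u) : pr m u = u := eq_pr h fun _ _ => rfl

theorem pr_symm (m : ℤ) (u v : S s) : ⟪u, pr m v⟫_ℂ = ⟪pr m u, v⟫_ℂ := by
  rw [← (eig_pr m u).inner_pr, ← inner_conj_symm, ← (eig_pr m v).inner_pr, inner_conj_symm]

/-- Operators that shift the axial number, together with their formal adjoints. -/
theorem pr_op {T : S s → S s'} {T' : S s' → S s} (hT : ∀ x y, ⟪x, T y⟫_ℂ = ⟪T' x, y⟫_ℂ) {m m' : ℤ}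
    (h : ∀ y, Eig m y → Eig m' (T y)) (h' : ∀ x, Eig m' x → Eig m (T' x)) (u : S s) :
    pr m' (T u) = T (pr m u) :=
  eq_pr (h _ (eig_pr m u)) fun v a => by rw [hT, hT, (h' v a).inner_pr]

theorem Eig.map {m : ℤ} {u : S s} (h : Eig m u) (T : S s →ₗ[ℂ] S s')
    (hT : ∀ y, L 2 (T y) = T (L 2 y)) : Eig m (T u) := by
  rw [Eig, hT, h, map_smul]

theorem pr_comm {T : S s →ₗ[ℂ] S s'} {T' : S s' →ₗ[ℂ] S s} (hT : ∀ x y, ⟪x, T y⟫_ℂ = ⟪T' x, y⟫_ℂ)
    (h : ∀ y, L 2 (T y) = T (L 2 y)) (m : ℤ) (u : S s) : pr m (T u) = T (pr m u) :=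
  pr_op hT (fun _ a => a.map T h) (fun _ a => a.map T' fun y => ext_inner_right ℂ fun x => by
    rw [skew, ← hT, ← hT, skew, h]) u

theorem pr_L2 (m : ℤ) (u : S s) : pr m (L 2 u) = (I * m) • pr m u :=
  (pr_comm (T' := -L 2) (L_adj 2) (fun _ => rfl) m u).trans (eig_pr m u)

theorem pr_w2 (m : ℤ) (u : S s) : pr m (w 2 u) = w 2 (pr m u) :=
  pr_comm (T := (w (s := s) 2).toLinearMap) (T' := (w (s := s) 2).toLinearMap)
    (fun x y => ((ang_is s).symm 2 x y).symm) (fun y => (ang_is s).Lw0 2 y) m u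

theorem pr_cas (m : ℤ) (u : S s) : pr m ((ang s).cas u) = (ang s).cas (pr m u) :=
  pr_comm (T := (ang s).cas) (T' := (ang s).cas) (fun x y => ((ang_is s).cas_symm x y).symm)
    (ang_is s).L2_cas m u

theorem hasSum_pr (u : S s) : HasSum (fun m => ‖pr m u‖ ^ 2) (‖u‖ ^ 2) := by
  have := (Equiv.neg ℤ).hasSum_iff.2 ((JS_R u).hasSum_co Real.two_pi_pos)
  simp only [R_norm, intervalIntegral.integral_const, sub_zero, smul_eq_mul,
    inv_mul_cancel_left₀ Real.two_pi_pos.ne'] at this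
  exact this

theorem hasSum_pr_inner (u v : S s) : HasSum (fun m => ⟪pr m u, pr m v⟫_ℂ) ⟪u, v⟫_ℂ := by
  rw [pol0 u]
  refine pol (q := fun z => ‖u + z • v‖ ^ 2) fun z => ?_
  simpa only [map_add, map_smul] using hasSum_pr (u + z • v)

theorem JS.pr {F : P → S s} (h : JS F) (m : ℤ) : JS fun p => pr m (F p) := h.R.co _ _

theorem pr_le (m : ℤ) (u : S s) : ‖pr m u‖ ≤ ‖u‖ :=
  (abs_le_of_sq_le_sq' (le_hasSum (hasSum_pr u) m fun _ _ => sq_nonneg _) (norm_nonneg _)).2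

/-- The projection as a continuous map. -/
noncomputable def prL (m : ℤ) : S s →L[ℂ] S s :=
  (pr m).mkContinuous 1 fun u => by rw [one_mul]; exact pr_le m u

theorem fderiv_pr {Q : Type} [NormedAddCommGroup Q] [NormedSpace ℝ Q] {F : Q → S s} {p : Q}
    (h : DifferentiableAt ℝ F p) (m : ℤ) (e : Q) :
    fderiv ℝ (fun p => pr m (F p)) p e = pr m (fderiv ℝ F p e) :=
  congrArg (· e) (((prL m).restrictScalars ℝ).hasFDerivAt.comp p h.hasFDerivAt).fderiv

end Vale.Agent.P354BO
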