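import Vale.Agent.P354BO.Fld

/-!
Elements of the ring of weight s as families of sections.
-/

open scoped ContDiff InnerProductSpace ComplexConjugate Topology
open Complex (I)
open MeasureTheory Set Filter

namespace Vale.Agent.P354BO

open P354XG P354XI P354XD P354XR
open P354XT hiding d1

variable {U : Set (ℝ × ℝ)} {s : ℤ} {u v : Rg U}

open Classical in
/-- The family of sections of an element of the ring. -/
noncomputable def sec (s : ℤ) (u : Rg U) (z : ℝ × ℝ) : S s :=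
  if h : IsSec s fun ξ => fv u (z.1, z.2, ξ) then S.of _ h else 0

/-- Elements with support over a closed subset of U. -/
def Cs (u : Rg U) : Prop := ∃ C, IsClosed C ∧ C ⊆ U ∧ ∀ x, tr x ∉ C → fv u x = 0

theorem Cs.mul (h : Cs u) (a : Rg U) : Cs (a * u) :=
  let ⟨C, b, c, d⟩ := h
  ⟨C, b, c, fun x hx => by rw [fv_mul, d x hx, mul_zero]⟩

theorem ext_cyl {f g : E6 → ℂ} (h : ∀ x : cyl U, f x = g x) (h' : ∀ x ∉ cyl U, f x = g x) (x : E6) :
    f x = g x := by
  by_cases a : x ∈ cyl U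
  exacts [h ⟨x, a⟩, h' x a]

theorem fv_fz {φ : ℝ × ℝ → ℝ} (h : ContDiff ℝ ∞ φ) (u : Rg U) (x : E6) :
    fv (fz U φ * u) x = φ (tr x) * fv u x :=
  ext_cyl (U := U) (g := fun x => φ (tr x) * fv u x)
    (fun x => (fv_mul _ _ _).trans (congrArg (· * fv u x) (ev_fz h x)))
    (fun x a => by rw [fv_out _ a, fv_out _ a, mul_zero]) x

theorem cs_fz {φ : ℝ × ℝ → ℝ} (h : ContDiff ℝ ∞ φ) {C : Set (ℝ × ℝ)} (hC : IsClosed C) (sC : C ⊆ U)
    (h0 : ∀ z ∉ C, φ z = 0) (u : Rg U) : Cs (fz U φ * u) :=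
  ⟨C, hC, sC, fun x hx => by rw [fv_fz h, h0 _ hx, Complex.ofReal_zero, zero_mul]⟩

variable (hU : IsOpen U)
include hU

theorem orb (hu : u ∈ Sec U s) (z : ℝ × ℝ) (c : ℂ) (ξ : V) :
    fv u (z.1, z.2, Complex.exp c • ξ) = Complex.exp ((c - conj c) * s) * fv u (z.1, z.2, ξ) := by
  by_cases a : (z.1, z.2, ξ) ∈ cyl U
  swap
  · rw [fv_out _ a, mul_zero, fv_out]
    exact fun b => a ⟨b.1, right_ne_zero_of_smul b.2⟩
  have e : ∀ (w : ℂ) (t : ℝ), HasDerivAt (fun t : ℝ => Complex.exp (w * t))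
      (Complex.exp (w * t) * w) t := fun w t => by
    simpa using ((Complex.ofRealCLM.hasDerivAt (x := t)).const_mul w).cexp
  have d : ∀ t : ℝ, HasDerivAt (fun t : ℝ => Complex.exp (-((c - conj c) * s) * t) *
      fv u (z.1, z.2, Complex.exp (c * t) • ξ)) 0 t := fun t => by
    have m : (z.1, z.2, Complex.exp (c * t) • ξ) ∈ cyl U :=
      ⟨a.1, smul_ne_zero (Complex.exp_ne_zero _) a.2⟩
    refine ((e _ t).mul (((fv_sm (cyl_open hU) u m).differentiableAt (by simp)).hasFDerivAt.comp_hasDerivAt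
      t ((hasDerivAt_const t z.1).prodMk ((hasDerivAt_const t z.2).prodMk
        ((e c t).smul_const ξ))))).congr_deriv ?_
    have := ev_HB hU c u ⟨_, m⟩
    rw [hu.1, hu.2, map_neg, ev_smul] at this
    rw [mul_comm _ c, mul_smul, this]
    rw [Function.comp_apply, show evO ⟨_, m⟩ u = fv u (z.1, z.2, Complex.exp (c * t) • ξ) from rfl]
    simp only [fv]
    ring
  have := is_const_of_deriv_eq_zero (fun t => (d t).differentiableAt) (fun t => (d t).deriv) 1 0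
  simp only [Complex.ofReal_one, mul_one, Complex.ofReal_zero, mul_zero, Complex.exp_zero, one_mul,
    one_smul] at this
  rw [← this, ← mul_assoc, ← Complex.exp_add, add_neg_cancel, Complex.exp_zero, one_mul]

theorem isSec (hu : u ∈ Sec U s) (z : ℝ × ℝ) : IsSec s fun ξ => fv u (z.1, z.2, ξ) := by
  refine ⟨?_, fv_out _ fun a => a.2 rfl, fun c hc ξ => ?_, fun ψ ξ => ?_⟩
  · by_cases a : z ∈ U
    · exact fun ξ b => ((fv_sm (cyl_open hU) u (x := (z.1, z.2, ξ)) ⟨a, b⟩).comp ξ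
        (by fun_prop)).contDiffWithinAt
    · exact contDiffOn_const.congr fun ξ _ => fv_out _ fun b => a b.1
  · have := orb hU hu z (Real.log c) ξ
    rwa [← Complex.ofReal_exp, Real.exp_log hc, Complex.conj_ofReal, sub_self, zero_mul,
      Complex.exp_zero, one_mul] at this
  · rw [orb hU hu]
    simp [map_ofNat]
    ring_nf
    simp

theorem sec_app (hu : u ∈ Sec U s) (z : ℝ × ℝ) (ξ : V) : sec s u z ξ = fv u (z.1, z.2, ξ) := by
  rw [sec, dif_pos (isSec hU hu z), of_app]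

theorem sec_js (hu : u ∈ Sec U s) (h : Cs u) : JS (sec s u) := by
  obtain ⟨C, b, c, d⟩ := h
  simp only [JS, sec_app hU hu]
  intro x hx
  by_cases a : x.1 ∈ C
  · exact ((fv_sm (cyl_open hU) u (x := (x.1.1, x.1.2, x.2)) ⟨c a, hx⟩).comp x
      (f := fun x : (ℝ × ℝ) × V => (x.1.1, x.1.2, x.2)) (by fun_prop)).contDiffWithinAt
  · refine ((contDiffAt_const (c := 0)).congr_of_eventuallyEq ?_).contDiffWithinAt
    filter_upwards [continuous_fst.continuousAt.eventually (b.isOpen_compl.mem_nhds a)] with y hy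
      using d _ hy

theorem sec_add (hu : u ∈ Sec U s) (hv : v ∈ Sec U s) (z : ℝ × ℝ) :
    sec s (u + v) z = sec s u z + sec s v z := S.ext fun ξ _ => by
  simp only [add_app, sec_app hU hu, sec_app hU hv, sec_app hU (add_mem hu hv), fv_add]

theorem sec_smul (c : ℂ) (hu : u ∈ Sec U s) (z : ℝ × ℝ) : sec s (c • u) z = c • sec s u z :=
  S.ext fun ξ _ => by
    simp only [smul_app, sec_app hU hu, sec_app hU (Submodule.smul_mem _ c hu), fv_smul]

theorem fz_mem {φ : ℝ × ℝ → ℝ} (h : ContDiff ℝ ∞ φ) (hu : u ∈ Sec U s) : fz U φ * u ∈ Sec U s :=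
  sec_mul (H_fz hU h).1 (H_fz hU h).2 hu

theorem sec_fz {φ : ℝ × ℝ → ℝ} (h : ContDiff ℝ ∞ φ) (hu : u ∈ Sec U s) (z : ℝ × ℝ) :
    sec s (fz U φ * u) z = (φ z : ℂ) • sec s u z := S.ext fun ξ _ => by
  simp only [smul_app, sec_app hU hu, sec_app hU (fz_mem hU h hu), fv_fz h, tr]

/-- Derivatives in the directions of (t, r). -/
theorem sec_dir (hu : u ∈ Sec U s) (h : Cs u) (hv : v ∈ Sec U s) {z e : ℝ × ℝ}
    (he : ∀ x : cyl U, tr x = z → evO x v = fderiv ℝ (fv u) x (e.1, e.2, 0)) :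
    sec s v z = fderiv ℝ (sec s u) z e := S.ext fun ξ a => by
  rw [(sec_js hU hu h).fderiv_app, sec_app hU hv]
  simp only [sec_app hU hu]
  by_cases b : z ∈ U
  · refine (he ⟨(z.1, z.2, ξ), b, a⟩ rfl).trans (congrArg (· e) (((fv_sm (cyl_open hU) u
      (x := (z.1, z.2, ξ)) ⟨b, a⟩).differentiableAt (by simp)).hasFDerivAt.comp z
        (f := fun q : ℝ × ℝ => (q.1, q.2, ξ)) (hasFDerivAt_fst.prodMk
          (hasFDerivAt_snd.prodMk (hasFDerivAt_const ξ z)))).fderiv).symm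
  · obtain ⟨C, c, d, e⟩ := h
    rw [fv_out _ fun c => b c.1, Filter.EventuallyEq.fderiv_eq (f := fun _ => 0) (by
      filter_upwards [c.isOpen_compl.mem_nhds fun a => b (d a)] with y hy using e _ hy)]
    simp

variable (hr : ∀ z ∈ U, z.2 ≠ 0) {f : ℝ → ℝ} (hf : ContDiff ℝ ∞ f)
include hr

theorem Om_mem (i : Fin 3) (hu : u ∈ Sec U s) : Om (kp U) i u ∈ Sec U s := by
  have h := (fld_is hU hr s (f := fun _ => 0) contDiff_const).spX
  fin_cases i
  exacts [h 2 u hu, h 3 u hu, h 4 u hu]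

theorem sec_L (i : Fin 3) (hu : u ∈ Sec U s) (z : ℝ × ℝ) :
    sec s (Om (kp U) i u) z = L i (sec s u z) := S.ext fun ξ a => by
  rw [L_app, sec_app hU (Om_mem hU hr i hu), funext (sec_app hU hu z)]
  by_cases b : z ∈ U
  · refine (ev_Om hU i u ⟨(z.1, z.2, ξ), b, a⟩).trans (congrArg (· (A i ξ)) (((fv_sm (cyl_open hU) u
      (x := (z.1, z.2, ξ)) ⟨b, a⟩).differentiableAt (by simp)).hasFDerivAt.comp ξ
        (f := fun q : V => (z.1, z.2, q)) ((hasFDerivAt_const z.1 ξ).prodMk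
          ((hasFDerivAt_const z.2 ξ).prodMk (hasFDerivAt_id ξ)))).fderiv).symm
  · simp only [fun ξ (u : Rg U) => fv_out u (x := (z.1, z.2, ξ)) fun c => b c.1]
    simp

theorem ev_ww (i : Fin 3) (x : cyl U) : evO x (ww (kp U) i) = wc i x.1.2.2 := by
  have a : evO x (kp U).Ni = (ip x.1.2.2 x.1.2.2)⁻¹ := (ev_rs (rs_Ni (on_of (cyl_open hU)
    fun _ hx => ⟨hr _ hx.1, hx.2⟩)) x).trans (by simp [nq, ip, Complex.normSq_eq_conj_mul_self])
  have b : evO x (ii (Rg U)) = I := ev_alg _ x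
  rw [wc, ← a]
  induction i using fin3 <;> simp [ww, Hp.om, b, ev_z, zc, ip, A0, A1, A2, -mul_eq_mul_right_iff] <;>
    ring_nf <;> simp only [Complex.I_sq] <;> ring

theorem ww_mem (i : Fin 3) (hu : u ∈ Sec U s) : ww (kp U) i * u ∈ Sec U s :=
  (fld_is hU hr s (f := fun _ => 0) contDiff_const).spw i u hu

theorem sec_w (i : Fin 3) (hu : u ∈ Sec U s) (z : ℝ × ℝ) :
    sec s (ww (kp U) i * u) z = w i (sec s u z) := S.ext fun ξ a => by
  rw [w_app, sec_app hU (ww_mem hU hr i hu), sec_app hU hu, fv_mul]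
  by_cases b : z ∈ U
  · exact congrArg (· * _) (ev_ww hU hr i ⟨(z.1, z.2, ξ), b, a⟩)
  · rw [fv_out u (x := (z.1, z.2, ξ)) fun c => b c.1, mul_zero, mul_zero]

theorem sec_T (hu : u ∈ Sec U s) (h : Cs u) (z : ℝ × ℝ) :
    sec s ((kp U).d 0 u) z = fderiv ℝ (sec s u) z (1, 0) :=
  sec_dir hU hu h ((fld_is hU hr s (f := fun _ => 0) contDiff_const).spX 0 u hu)
    fun x _ => ev_X hU s (f := fun _ => 0) contDiff_const 0 u x

include hf

theorem sec_R (hu : u ∈ Sec U s) (h : Cs u) (z : ℝ × ℝ) :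
    sec s ((fld hU s f).R u) z = fderiv ℝ (sec s u) z (-f z.2, 1) :=
  sec_dir hU hu h ((fld_is hU hr s hf).spX 1 u hu) fun x e => e ▸ ev_X hU s hf 1 u x

omit hr in
theorem Cs.X (h : Cs u) (a : Fin 5) : Cs ((fld hU s f).X a u) := by
  obtain ⟨C, b, c, d⟩ := h
  refine ⟨C, b, c, fun x hx => ?_⟩
  by_cases e : x ∈ cyl U
  · refine (ev_X hU s hf a u ⟨x, e⟩).trans ?_
    rw [Filter.EventuallyEq.fderiv_eq (f := fun _ => 0) (by
      filter_upwards [tr_sm.continuous.continuousAt.eventually (b.isOpen_compl.mem_nhds hx)]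
        with y hy using d _ hy)]
    simp
  · exact fv_out _ e

omit hr hf in
/-- The integral of the model is the integral of the inner products. -/
theorem I_eq (f : ℝ → ℝ) {φ : ℝ × ℝ → ℝ} (h : ContDiff ℝ ∞ φ) (hu : u ∈ Sec U s) (hv : v ∈ Sec U s)
    {C : Set (ℝ × ℝ)} (hC : IsCompact C) (sC : C ⊆ U)
    (h0 : ∀ x, tr x ∉ C → φ (tr x) * fv u x = 0) :
    (Integrable fun z => φ z * ⟪sec s v z, sec s u z⟫_ℂ) ∧
      (fld hU s f).B.I (fz U φ * (u * cj v)) = ∫ z, φ z * ⟪sec s v z, sec s u z⟫_ℂ := by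
  have e : ∀ x, fv (be U * (fz U φ * (u * cj v))) x =
      (χ x.2.2 : ℂ) ^ 2 * (φ (tr x) * fv u x * conj (fv v x)) :=
    ext_cyl (U := U) (fun x => by
      rw [fv_mul, fv_fz h, fv_mul, fv_cj, mul_assoc]
      exact congrArg (· * _) (ev_be x)) fun x a => by simp [fv_out _ a]
  have m : be U * (fz U φ * (u * cj v)) ∈ cs (cyl U) := by
    refine ⟨(fun y : (ℝ × ℝ) × V => (y.1.1, y.1.2, y.2)) '' C ×ˢ K,
      (hC.prod K_cpt).image (by fun_prop), ?_, fun x hx => ?_⟩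
    · rintro _ ⟨y, hy, rfl⟩
      exact ⟨sC hy.1, K_ne hy.2⟩
    · rw [e]
      by_cases a : tr x ∈ C
      · rw [χ_out fun b => hx ⟨(tr x, x.2.2), ⟨a, b⟩, rfl⟩]
        simp
      · rw [h0 x a, zero_mul, mul_zero]
  have p := volume_preserving_prodAssoc (α₁ := ℝ) (β₁ := ℝ) (γ₁ := V)
  have i := p.integrable_comp_of_integrable (cs_int volume (cyl_open hU) m)
  have k : ∀ z : ℝ × ℝ, ∫ ξ, fv (be U * (fz U φ * (u * cj v))) (z.1, z.2, ξ) =
      φ z * ⟪sec s v z, sec s u z⟫_ℂ := fun z => by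
    simp only [e, inner_def, gl, sec_app hU hu, sec_app hU hv, ← integral_const_mul, map_mul,
      Complex.conj_ofReal, tr]
    exact integral_congr_ae (Eventually.of_forall fun ξ => by ring)
  refine ⟨by simp only [← k]; exact i.integral_prod_left, ?_⟩
  refine (box_I volume (cyl_open hU) m).trans ((p.integral_comp' _).symm.trans ?_)
  simp only [← k]
  exact integral_prod _ i

omit hr hf in
theorem bil_eq (f : ℝ → ℝ) {φ : ℝ × ℝ → ℝ} (h : ContDiff ℝ ∞ φ) (hu : u ∈ Sec U s)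
    (hv : v ∈ Sec U s) {C : Set (ℝ × ℝ)} (hC : IsCompact C) (sC : C ⊆ U)
    (h0 : ∀ x, tr x ∉ C → φ (tr x) * fv u x = 0) :
    (Integrable fun z => φ z * (⟪sec s u z, sec s v z⟫_ℂ).re) ∧
      (fld hU s f).B.bil (fz U φ) u v = ∫ z, φ z * (⟪sec s u z, sec s v z⟫_ℂ).re := by
  obtain ⟨a, b⟩ := I_eq hU f h hu hv hC sC h0
  have e : ∀ z, φ z * (⟪sec s u z, sec s v z⟫_ℂ).re = RCLike.re (φ z * ⟪sec s v z, sec s u z⟫_ℂ) :=
    fun z => by
      rw [← inner_conj_symm, Complex.conj_re]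
      exact (Complex.re_ofReal_mul _ _).symm
  simp only [e]
  exact ⟨a.re, (congrArg Complex.re b).trans (integral_re a).symm⟩

end Vale.Agent.P354BO
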