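import Vale.Agent.P354XR.Su

/-!
The chart twisted by a rotation about the axis whose angle depends on r, and maps of charts.
-/

set_option linter.unusedSimpArgs false

namespace Vale.Agent.P354BO

open P354XG P354XG.Geo P354XD P354XR

variable {A A2 : Type*} [CommRing A] [Algebra ℂ A] [CommRing A2] [Algebra ℂ A2]

/-- The twisted chart. -/
noncomputable def twi (K : Hp A) (e eb j : A) : Hp A where
  c := K.c
  d := ![K.d 0, K.d 1 - j • K.kc.F2, eb • K.d 2, e • K.d 3, e • K.d 4, eb • K.d 5]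
  z := ![K.z 0, K.z 1, e * K.z 2, eb * K.z 3, eb * K.z 4, e * K.z 5]
  ri := K.ri
  Ni := K.Ni

/-- The phase e has the derivative -i j e. -/
structure TwI (K : Hp A) (e eb j : A) : Prop where
  h : K.Is
  inv : e * eb = 1
  ce : K.c e = eb
  cj : K.c j = j
  de : ∀ i, i ≠ 1 → K.d i e = 0
  dj : ∀ i, i ≠ 1 → K.d i j = 0
  d1 : K.d 1 e = -(ii A * j * e)

/-- The cosine and the sine of the angle. -/
noncomputable def tco (e eb : A) : A := hf A * (e * e + eb * eb)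
noncomputable def tsi (e eb : A) : A := hf A * ii A * (eb * eb - e * e)

variable {K : Hp A} {e eb j : A}

theorem F2_ap (h : K.Is) (f : A) : K.kc.F2 f =
    ii A * (K.z 3 * K.d 3 f - K.z 2 * K.d 2 f + K.z 4 * K.d 4 f - K.z 5 * K.d 5 f) := by
  rw [F2_Om h]
  simp only [Om, Matrix.cons_val, Derivation.smul_apply, Derivation.add_apply,
    Derivation.sub_apply, smul_eq_mul]
  linear_combination ii A * (K.z 3 * K.d 3 f - K.z 2 * K.d 2 f + K.z 4 * K.d 4 f -
    K.z 5 * K.d 5 f) * two_hf (A := A)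

namespace TwI
variable (t : TwI K e eb j)
include t

theorem cb : K.c eb = e := by rw [← t.ce, t.h.cc]

theorem db (i : Fin 6) (hi : i ≠ 1) : K.d i eb = 0 := by
  rw [KC.D_inv _ ((mul_comm _ _).trans t.inv), t.de i hi]; ring

theorem b1 : K.d 1 eb = ii A * j * eb := by
  rw [KC.D_inv _ ((mul_comm _ _).trans t.inv), t.d1]
  linear_combination ii A * j * eb * t.inv

theorem tab : K.d 0 e = 0 ∧ K.d 2 e = 0 ∧ K.d 3 e = 0 ∧ K.d 4 e = 0 ∧ K.d 5 e = 0 ∧
    K.d 0 eb = 0 ∧ K.d 2 eb = 0 ∧ K.d 3 eb = 0 ∧ K.d 4 eb = 0 ∧ K.d 5 eb = 0 ∧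
    K.d 0 j = 0 ∧ K.d 2 j = 0 ∧ K.d 3 j = 0 ∧ K.d 4 j = 0 ∧ K.d 5 j = 0 := by
  simp [t.de, t.db, t.dj]

theorem d_ap (f : A) : (twi K e eb j).d 0 f = K.d 0 f ∧ (twi K e eb j).d 1 f = K.d 1 f - j *
      (ii A * (K.z 3 * K.d 3 f - K.z 2 * K.d 2 f + K.z 4 * K.d 4 f - K.z 5 * K.d 5 f)) ∧
    (twi K e eb j).d 2 f = eb * K.d 2 f ∧ (twi K e eb j).d 3 f = e * K.d 3 f ∧
    (twi K e eb j).d 4 f = e * K.d 4 f ∧ (twi K e eb j).d 5 f = eb * K.d 5 f := by
  simp [twi, F2_ap t.h]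

theorem N_eq : (twi K e eb j).N = K.N := by
  simp only [Hp.N, twi, Matrix.cons_val]
  linear_combination (K.z 2 * K.z 4 + K.z 3 * K.z 5) * t.inv

theorem is : (twi K e eb j).Is := by
  have h := t.h
  have i := t.inv
  constructor
  case cc => exact h.cc
  case calg => exact h.calg
  case c0 => exact h.c0
  case z0 => exact h.z0
  case z1 => exact h.z1
  case hr => exact h.hr
  case hN => rw [t.N_eq]; exact h.hN
  case c1 =>
    intro f
    have : ∀ f, K.c (K.kc.F2 f) = K.kc.F2 (K.c f) := h.kc.c_F2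
    simp [twi, h.c1, t.cj, this]
  case c2 => intro f; simp [twi, h.c2, t.cb]
  case c3 => intro f; simp [twi, h.c3, t.ce]
  case z2 => simp [twi, h.z2, t.ce]
  case z3 => simp [twi, h.z3, t.cb]
  case comm =>
    intro a b f
    fin_cases a <;> fin_cases b <;>
      simp [t.d_ap, D_add, D_sub, D_mul, D_ii, h.dz, t.tab, t.d1, t.b1, h.comm 1 0, h.comm 2 0,
        h.comm 3 0, h.comm 4 0, h.comm 5 0, h.comm 2 1, h.comm 3 1, h.comm 4 1, h.comm 5 1,
        h.comm 3 2, h.comm 4 2, h.comm 5 2, h.comm 4 3, h.comm 5 3, h.comm 5 4] <;> ring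
  case dz =>
    intro a b
    fin_cases a <;> fin_cases b <;> simp only [Fin.reduceFinMk, t.d_ap] <;>
      simp [twi, D_mul, h.dz, t.tab, t.d1, t.b1, i, mul_comm eb e] <;> ring

theorem P_eq : (twi K e eb j).P = K.P := by
  ext f
  simp only [Hp.P_ap, t.d_ap]
  simp only [twi, Matrix.cons_val]
  linear_combination (K.z 4 * K.d 3 f - K.z 5 * K.d 2 f) * t.inv

theorem Q_eq : (twi K e eb j).Q = K.Q := by
  ext f
  simp only [Hp.Q_ap, t.d_ap]
  simp only [twi, Matrix.cons_val]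
  linear_combination (K.z 2 * K.d 5 f - K.z 3 * K.d 4 f) * t.inv

theorem H_eq : (twi K e eb j).H = K.H := by
  ext f
  simp only [Hp.H_ap, t.d_ap]
  simp only [twi, Matrix.cons_val]
  linear_combination (K.z 2 * K.d 2 f + K.z 3 * K.d 3 f) * t.inv

theorem B_eq : (twi K e eb j).B = K.B := by
  ext f
  simp only [Hp.B_ap, t.d_ap]
  simp only [twi, Matrix.cons_val]
  linear_combination (K.z 4 * K.d 4 f + K.z 5 * K.d 5 f) * t.inv

theorem x_eq : (twi K e eb j).kc.x = K.kc.x := by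
  simp only [Hp.kc, twi, Matrix.cons_val]
  linear_combination (K.z 2 * K.z 4 - K.z 3 * K.z 5) * K.Ni * t.inv

theorem s_eq : (twi K e eb j).kc.s = K.kc.s := by
  simp only [Hp.kc, twi, Matrix.cons_val]
  linear_combination 2 * K.z 2 * K.z 3 * K.Ni * t.inv

theorem sb_eq : (twi K e eb j).kc.sb = K.kc.sb := by
  simp only [Hp.kc, twi, Matrix.cons_val]
  linear_combination 2 * K.z 4 * K.z 5 * K.Ni * t.inv

/-- The flat chart algebra changes only in R. -/
theorem kc_eq : (twi K e eb j).kc = { K.kc with R := K.d 1 - j • K.kc.F2 } := by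
  have a := t.x_eq
  have b := t.s_eq
  have c := t.sb_eq
  simp only [Hp.kc] at a b c
  simp only [Hp.kc, t.P_eq, t.Q_eq, t.H_eq, t.B_eq, t.N_eq, a, b, c]
  rfl

/-- The chart algebra of Kerr does not change. -/
theorem kk_eq (p : Pm A) (hp : p.j1 = j) : kk (twi K e eb j) { p with j1 := 0 } = kk K p := by
  have a : (kk (twi K e eb j) { p with j1 := 0 }).R = (kk K p).R := by
    ext f
    rw [kk_R, kk_R, t.kc_eq, hp]
    simp only [Hp.kc, Derivation.sub_apply, Derivation.smul_apply, smul_eq_mul]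
    ring
  have b : kk (twi K e eb j) { p with j1 := 0 } =
      { kk K p with R := (kk (twi K e eb j) { p with j1 := 0 }).R } := by
    simp only [kk, t.kc_eq]
  rw [b, a]

theorem kill {u : A} (h : ∀ i, i ≠ 1 → K.d i u = 0) :
    (∀ i, i ≠ 1 → (twi K e eb j).d i u = 0) ∧ (twi K e eb j).d 1 u = K.d 1 u := by
  refine ⟨fun i hi => ?_, by simp [t.d_ap, h]⟩
  fin_cases i <;> simp [t.d_ap, h] at hi ⊢

theorem pm_is {p : Pm A} (q : p.Is K) : Pm.Is { p with j1 := 0 } (twi K e eb j) where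
  ca := q.ca
  cM := q.cM
  ch := q.ch
  cj := map_zero _
  da i := by fin_cases i <;> simp [t.d_ap, q.da]
  dM i := by fin_cases i <;> simp [t.d_ap, q.dM]
  dh := (t.kill q.dh).1
  dj _ _ := map_zero _
  hg := by rw [t.x_eq]; exact q.hg

/-- The rotations and the coordinates on the sphere. -/
theorem Om_eq (f : A) : Om (twi K e eb j) 0 f = tco e eb * Om K 0 f + tsi e eb * Om K 1 f ∧
    Om (twi K e eb j) 1 f = tco e eb * Om K 1 f - tsi e eb * Om K 0 f ∧
    Om (twi K e eb j) 2 f = Om K 2 f := by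
  simp only [Om, Matrix.cons_val, Derivation.smul_apply, Derivation.add_apply,
    Derivation.sub_apply, smul_eq_mul, t.d_ap, tco, tsi]
  simp only [twi, Matrix.cons_val]
  refine ⟨?_, ?_, ?_⟩
  · linear_combination -(hf A * ii A * (e * e * (K.z 5 * K.d 4 f - K.z 2 * K.d 3 f) +
      eb * eb * (K.z 4 * K.d 5 f - K.z 3 * K.d 2 f))) * two_hf (A := A)
  · linear_combination -(hf A * (e * e * (K.z 2 * K.d 3 f - K.z 5 * K.d 4 f) +
      eb * eb * (K.z 4 * K.d 5 f - K.z 3 * K.d 2 f))) * two_hf (A := A) +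
      hf A * hf A * (eb * eb - e * e) * (K.z 5 * K.d 4 f + K.z 4 * K.d 5 f - K.z 3 * K.d 2 f -
        K.z 2 * K.d 3 f) * ii_sq (A := A)
  · linear_combination hf A * ii A * (K.z 3 * K.d 3 f - K.z 2 * K.d 2 f + K.z 4 * K.d 4 f -
      K.z 5 * K.d 5 f) * t.inv

theorem cs_one : tco e eb * tco e eb + tsi e eb * tsi e eb = 1 := by
  simp only [tco, tsi]
  linear_combination hf A * hf A * (eb * eb - e * e) ^ 2 * ii_sq (A := A) +
    (1 + 2 * hf A) * two_hf (A := A) + 4 * hf A * hf A * (1 + e * eb) * t.inv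

theorem Om_inv (f : A) :
    Om K 0 f = tco e eb * Om (twi K e eb j) 0 f - tsi e eb * Om (twi K e eb j) 1 f ∧
    Om K 1 f = tco e eb * Om (twi K e eb j) 1 f + tsi e eb * Om (twi K e eb j) 0 f := by
  simp only [t.Om_eq]
  exact ⟨by linear_combination -Om K 0 f * t.cs_one, by linear_combination -Om K 1 f * t.cs_one⟩

theorem c_cs : K.c (tco e eb) = tco e eb ∧ K.c (tsi e eb) = tsi e eb := by
  simp only [tco, tsi, map_mul, map_add, map_sub, t.ce, t.cb, t.h.c_hf, t.h.c_ii]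
  exact ⟨by ring, by ring⟩

theorem d_cs : (∀ i, i ≠ 1 → K.d i (tco e eb) = 0) ∧ (∀ i, i ≠ 1 → K.d i (tsi e eb) = 0) ∧
    K.d 1 (tco e eb) = 2 * j * tsi e eb ∧ K.d 1 (tsi e eb) = -(2 * j * tco e eb) := by
  simp only [tco, tsi, D_mul, D_add, D_sub, D_ii, Hp.D_hf, t.d1, t.b1]
  refine ⟨fun i hi => by simp [t.de i hi, t.db i hi], fun i hi => by simp [t.de i hi, t.db i hi],
    by ring, ?_⟩
  linear_combination 2 * hf A * j * (e * e + eb * eb) * ii_sq (A := A)

end TwI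

/-- A map of charts. -/
structure Hm (π : A →ₐ[ℂ] A2) (K : Hp A) (K2 : Hp A2) : Prop where
  c : ∀ f, π (K.c f) = K2.c (π f)
  z : ∀ i, π (K.z i) = K2.z i
  d : ∀ i f, π (K.d i f) = K2.d i (π f)
  ri : π K.ri = K2.ri
  Ni : π K.Ni = K2.Ni

namespace Hm
variable {π : A →ₐ[ℂ] A2} {K2 : Hp A2} (m : Hm π K K2)

theorem ii_hf (π : A →ₐ[ℂ] A2) : π (ii A) = ii A2 ∧ π (hf A) = hf A2 :=
  ⟨π.commutes _, π.commutes _⟩

include m

theorem P (f : A) : π (K.P f) = K2.P (π f) := by simp only [Hp.P_ap, map_sub, map_mul, m.z, m.d]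
theorem Q (f : A) : π (K.Q f) = K2.Q (π f) := by simp only [Hp.Q_ap, map_sub, map_mul, m.z, m.d]
theorem H (f : A) : π (K.H f) = K2.H (π f) := by simp only [Hp.H_ap, map_add, map_mul, m.z, m.d]
theorem B (f : A) : π (K.B f) = K2.B (π f) := by simp only [Hp.B_ap, map_add, map_mul, m.z, m.d]
theorem N : π K.N = K2.N := by simp only [Hp.N, map_add, map_mul, m.z]

theorem Om (i : Fin 3) (f : A) : π (Om K i f) = Om K2 i (π f) := by
  fin_cases i <;> simp [P354XR.Om, m.z, m.d, ii_hf π]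

theorem w (i : Fin 3) : π (ww K i) = ww K2 i ∧ π (wm K i) = wm K2 i ∧ π (wb K i) = wb K2 i := by
  fin_cases i <;> simp [ww, wm, wb, Hp.om, Hp.mu, Hp.mub, m.z, m.Ni, ii_hf π, map_ofNat]

theorem kc : π K.kc.x = K2.kc.x ∧ π K.kc.s = K2.kc.s ∧ π K.kc.sb = K2.kc.sb := by
  simp [Hp.kc, m.z, m.Ni, map_ofNat]

theorem F2 (f : A) : π (K.kc.F2 f) = K2.kc.F2 (π f) := by
  have a := m.kc
  simp only [KC.F2, KC.V_ap, map_add, map_mul, map_neg, map_zero, a, ii_hf π]
  simp only [Hp.kc, m.d, m.P, m.Q, m.H, m.B]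

theorem R {p : Pm A} {p2 : Pm A2} (h1 : π p.h1 = p2.h1) (j1 : π p.j1 = p2.j1) (f : A) :
    π ((kk K p).R f) = (kk K2 p2).R (π f) := by
  simp only [kk_R, map_sub, map_mul, h1, j1, m.F2]
  simp only [Hp.kc, m.d]

end Hm

end Vale.Agent.P354BO
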