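import Vale.Agent.P354BO.TwO
import Vale.Agent.P354BO.Q2
import Vale.Agent.P354XR.Br2
import Vale.Agent.P354XT.Calc

/-!
The twisted chart for the ingoing parameters of the state of the estimates.
-/

open scoped ContDiff Topology
open Set Filter

namespace Vale.Agent.P354BO

open P354XG P354XI P354XD P354XR P354Z
open P354XT hiding d1
open P354BF (De rp)

variable {M0 M a : ℝ}

theorem De_pos (h : 0 < M0) {p : ℝ × ℝ × ℝ} (h1 : 5 * M0 ≤ p.2.2) (h2 : p.1 ≤ 2 * M0) :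
    0 < De p.1 p.2.1 p.2.2 := by
  rw [De]
  nlinarith [sq_nonneg p.2.1, mul_pos (show 0 < p.2.2 by linarith) (show 0 < p.2.2 - 2 * p.1 by
    linarith)]

theorem cut_sm (h : 0 < M0) {g : ℝ × ℝ × ℝ → ℝ}
    (hg : ∀ p, 5 * M0 ≤ p.2.2 → p.1 ≤ 2 * M0 → ContDiffAt ℝ ∞ g p) :
    ContDiff ℝ ∞ fun p => cut M0 p * g p := contDiff_iff_contDiffAt.2 fun p => by
  by_cases a : 5 * M0 ≤ p.2.2 ∧ p.1 ≤ 2 * M0
  · exact (((up_sm _ _).comp contDiff_snd.snd).mul
      ((dn_sm _ _).comp contDiff_fst)).contDiffAt.mul (hg p a.1 a.2)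
  · refine (contDiffAt_const (c := 0)).congr_of_eventuallyEq ?_
    rcases not_and_or.1 a with a | a
    · filter_upwards [(isOpen_lt continuous_snd.snd continuous_const).eventually_mem (not_le.1 a)]
        with q hq
      rw [cut, up_zero (by linarith) (le_of_lt hq), zero_mul, zero_mul]
    · filter_upwards [(isOpen_lt continuous_const continuous_fst).eventually_mem (not_le.1 a)]
        with q hq
      rw [cut, dn_zero (by linarith) (le_of_lt hq), mul_zero, zero_mul]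

theorem hs_sm (h : 0 < M0) : ContDiff ℝ ∞ (hs M0) :=
  contDiff_const.add (cut_sm h fun p a b => by
    have c := (De_pos h a b).ne'
    have d : p.2.2 ^ 2 ≠ 0 := pow_ne_zero _ (by linarith)
    unfold De at c ⊢
    fun_prop (disch := assumption))

theorem js_sm (h : 0 < M0) : ContDiff ℝ ∞ (js M0) :=
  cut_sm h fun p a b => by
    have c := (De_pos h a b).ne'
    unfold De at c ⊢
    fun_prop (disch := assumption)

theorem sl_sm {f : ℝ × ℝ × ℝ → ℝ} (h : ContDiff ℝ ∞ f) (M a : ℝ) :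
    ContDiff ℝ ∞ fun r => f (M, a, r) := h.comp (by fun_prop)

/-- The slope of the slices is admissible. -/
theorem hs_slope {a0 rm : ℝ} (ha : |a0| < M0) (h1 : M0 < rm) (h2 : rm < rp M0 a0) :
    Slope M0 a0 rm (hs M0) := by
  have h : 0 < M0 := (abs_nonneg _).trans_lt ha
  have a2 : a0 ^ 2 < M0 ^ 2 := sq_lt_sq' (abs_lt.1 ha).1 (abs_lt.1 ha).2
  have e : ∀ r, hs M0 (M0, a0, r) = 1 + up (5 * M0) (6 * M0) r *
      (2 * (r ^ 2 + a0 ^ 2) / De M0 a0 r - 4 * M0 ^ 2 / r ^ 2 - 1) := fun r => by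
    rw [hs, cut, dn_one (by linarith) (by linarith), mul_one]
  have k : ∀ r, 5 * M0 ≤ r → 46 / 25 ≤ 2 * (r ^ 2 + a0 ^ 2) / De M0 a0 r - 4 * M0 ^ 2 / r ^ 2 :=
    fun r hr => by
    have d := De_pos (p := (M0, a0, r)) h hr (by linarith)
    have r0 : 0 < r := by linarith
    have : 2 ≤ 2 * (r ^ 2 + a0 ^ 2) / De M0 a0 r := (le_div_iff₀ d).2 (by
      rw [De]; nlinarith [mul_pos h r0])
    have : 4 * M0 ^ 2 / r ^ 2 ≤ 4 / 25 := (div_le_iff₀ (by positivity)).2 (by nlinarith)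
    linarith
  refine ⟨hs_sm h, h1, h2, fun r hr => ?_, 6 * M0, fun r hr => ?_⟩
  · have r0 : M0 < r := h1.trans_le hr
    have f1 : a0 ^ 2 < 2 * (r ^ 2 + a0 ^ 2) - De M0 a0 r := by rw [De]; nlinarith
    rw [e]
    rcases le_total r (5 * M0) with b | b
    · rw [up_zero (by linarith) b]
      exact ⟨by linarith, by linarith⟩
    · have k := k r b
      have d := De_pos (p := (M0, a0, r)) h b (by linarith)
      have u0 := up_nonneg (5 * M0) (6 * M0) r
      have u1 := up_le (5 * M0) (6 * M0) r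
      have q : 2 * (r ^ 2 + a0 ^ 2) - De M0 a0 r * (2 * (r ^ 2 + a0 ^ 2) / De M0 a0 r -
          4 * M0 ^ 2 / r ^ 2) = 4 * M0 ^ 2 * (De M0 a0 r / r ^ 2) := by
        have := d.ne'
        have : r ≠ 0 := by linarith
        field_simp
        ring
      have q1 : 3 / 5 ≤ De M0 a0 r / r ^ 2 := (le_div_iff₀ (by nlinarith)).2 (by
        rw [De]; nlinarith [sq_nonneg a0])
      simp only at d
      generalize 2 * (r ^ 2 + a0 ^ 2) / De M0 a0 r - 4 * M0 ^ 2 / r ^ 2 = g at k q ⊢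
      generalize up (5 * M0) (6 * M0) r = u at u0 u1 ⊢
      generalize De M0 a0 r / r ^ 2 = t at q q1
      generalize 2 * (r ^ 2 + a0 ^ 2) = W at q f1 ⊢
      generalize De M0 a0 r = D at q f1 d ⊢
      have f2 : a0 ^ 2 < g * (W - D * g) := by
        rw [q]
        nlinarith [mul_le_mul k q1 (by norm_num) (by linarith), sq_pos_of_pos h]
      refine ⟨by nlinarith, ?_⟩
      rcases u0.eq_or_lt with rfl | u0
      · linarith
      · nlinarith [mul_pos u0 (sub_pos.2 f2), mul_nonneg (sub_nonneg.2 u1) (sub_pos.2 f1).le,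
          mul_nonneg (mul_nonneg u0.le (sub_nonneg.2 u1)) (mul_nonneg d.le (sq_nonneg (g - 1)))]
  · rw [e, up_one (by linarith) hr]
    linarith [k r (by linarith)]

variable {O : Set E6}

theorem rf_eq (f : ℝ → ℝ) : rf O f = fr1 O fun r => f r := rfl

theorem cone_off (c : Cone O) : ∀ x ∈ O, x.2.1 ≠ 0 ∧ x.2.2 ≠ 0 :=
  fun x hx => ⟨(c.pos x hx).1.ne', (c.pos x hx).2⟩

theorem pI_is (c : Cone O) (h : 0 < M0) (M a : ℝ) : (pI O M0 M a).Is (hp (on O)) :=
  have b := sl_sm (hs_sm h) M a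
  have j := sl_sm (js_sm h) M a
  { pm_is (on_of c.op c.pos) (fun _ => M) fun _ => a with
    ch := (cj_fr1 c.op (re_sm b)).trans (by simp only [Complex.conj_ofReal]; rfl)
    cj := (twI c.op (cone_off c) j).cj
    dh := (d_fr1 c.op (re_sm b)).1
    dj := (twI c.op (cone_off c) j).dj }

/-- The twisted chart and its parameters. -/
noncomputable def kT (O : Set E6) (M0 M a : ℝ) : Hp (Sm (on O)) := kt O fun r => js M0 (M, a, r)
noncomputable def pT (O : Set E6) (M0 M a : ℝ) : Pm (Sm (on O)) := { pI O M0 M a with j1 := 0 }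

theorem kk_T (c : Cone O) (h : 0 < M0) (M a : ℝ) : kk (kT O M0 M a) (pT O M0 M a) = kI O M0 M a :=
  (twI c.op (cone_off c) (sl_sm (js_sm h) M a)).kk_eq _ rfl

theorem pT_Ma (M0 M a : ℝ) : (pT O M0 M a).M = Ibp.rl _ M ∧ (pT O M0 M a).a = Ibp.rl _ a :=
  ⟨rfl, rfl⟩

theorem kp_T (c : Cone O) (h : 0 < M0) (hM : M ≠ 0) (a : ℝ) :
    KP (kT O M0 M a) (pT O M0 M a) (Ibp.rl _ M⁻¹) :=
  have t := twI c.op (cone_off c) (sl_sm (js_sm h) M a)
  ⟨t.is, t.pm_is (pI_is c h M a), rfl, by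
    rw [(pT_Ma M0 M a).1, ← Ibp.rl_mul, mul_inv_cancel₀ hM, Ibp.rl_one]⟩

theorem kT_HB (c : Cone O) (h : 0 < M0) (M a : ℝ) : (kT O M0 M a).c = cj ∧
    (kT O M0 M a).H = (hp (on O)).H ∧ (kT O M0 M a).B = (hp (on O)).B :=
  have t := twI c.op (cone_off c) (sl_sm (js_sm h) M a)
  ⟨rfl, t.H_eq, t.B_eq⟩

section pi
variable {U : Set (ℝ × ℝ)} (c : Cone O) (h : 0 < M0) (hU : IsOpen U) (s : cyl U ⊆ O) (M a : ℝ)

/-- The map to the ring of the cylinder. -/
noncomputable def piT : Sm (on O) →ₐ[ℂ] Rg U := (mq_cyl c.op hU s (sl_sm (js_sm h) M a)).pb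

theorem piT_hm : Hm (piT c h hU s M a) (kT O M0 M a) (kp U) :=
  Mq.hm _ (cone_off c) (fun x hx => cone_off c x (s hx)) (sl_sm (js_sm h) M a)

theorem piT_fv (F : Sm (on O)) {x : E6} (hx : x ∈ cyl U) :
    fv (piT c h hU s M a F) x = fv F (tm (fun r => js M0 (M, a, r)) x) := Mq.fv_pb _ F hx

theorem piT_rf {f : ℝ → ℝ} (hf : ContDiff ℝ ∞ f) :
    piT c h hU s M a (rf O f) = fz U fun z => f z.2 := by
  rw [rf_eq, ← fr1_fz]
  exact (mq_cyl c.op hU s (sl_sm (js_sm h) M a)).fr1 (re_sm hf)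

theorem piT_X (σ : ℤ) (b : Fin 5) (F : Sm (on O)) :
    piT c h hU s M a (XX (kT O M0 M a) (pT O M0 M a) b F) =
      (fld hU σ fun r => hs M0 (M, a, r)).X b (piT c h hU s M a F) :=
  (piT_hm c h hU s M a).X hU σ (piT_rf c h hU s M a (sl_sm (hs_sm h) M a)) rfl b F

include c s in
theorem cyl_r : ∀ z ∈ U, z.2 ≠ 0 := fun z hz =>
  (cone_off c (z.1, z.2, 1, 0) (s ⟨hz, by simp⟩)).1

end pi

/-- Letters which act on the functions of r as T, R and the rotations. -/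
def Lt (X : Fin 5 → Der (Sm (on O))) : Prop := ∀ g : ℝ → ℂ, ContDiff ℝ ∞ g →
  X 1 (fr1 O g) = fr1 O (deriv g) ∧ ∀ b, b ≠ 1 → X b (fr1 O g) = 0

theorem lt_of {K : Hp (Sm (on O))} (p : Pm (Sm (on O))) (k : ∀ g : ℝ → ℂ, ContDiff ℝ ∞ g →
    (∀ i, i ≠ 1 → K.d i (fr1 O g) = 0) ∧ K.d 1 (fr1 O g) = fr1 O (deriv g)) : Lt (lt K p) :=
  fun g hg => by
  obtain ⟨k1, k2⟩ := k g hg
  refine ⟨(kk_R K p _).trans ?_, fun b hb => ?_⟩
  · rw [(kill k1).1, (kill k1).2.2.2.2.2, mul_zero, mul_zero, sub_zero, sub_zero]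
    exact k2
  · fin_cases b <;> simp [lt, Om, k1] at hb ⊢

theorem lt_hp (hO : IsOpen O) (p : Pm (Sm (on O))) : Lt (lt (hp (on O)) p) :=
  lt_of p fun _ => d_fr1 hO

theorem lt_kT (c : Cone O) (h : 0 < M0) (M a : ℝ) : Lt (XX (kT O M0 M a) (pT O M0 M a)) :=
  have t := twI c.op (cone_off c) (sl_sm (js_sm h) M a)
  lt_of _ fun _ hg => ⟨(t.kill (d_fr1 c.op hg).1).1,
    (t.kill (d_fr1 c.op hg).1).2.trans (d_fr1 c.op hg).2⟩

/-- The jets of a smooth function of (M, a, r) on a compact set. -/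
theorem q2_fr1 {C : Set (ℝ × ℝ × ℝ)} (hC : IsCompact C) : ∀ (n : ℕ) {f : ℝ × ℝ × ℝ → ℝ},
    ContDiff ℝ ∞ f → ∃ B, 0 ≤ B ∧ ∀ (O : Set E6) (X : Fin 5 → Der (Sm (on O))), Lt X →
      ∀ M a, ∀ x : E6, (M, a, x.2.1) ∈ C → q2 X x n (rf O fun r => f (M, a, r)) ≤ B
  | 0, f, hf => by
    obtain ⟨B, hB⟩ := hC.exists_bound_of_continuousOn hf.continuous.continuousOn
    refine ⟨B ^ 2, sq_nonneg _, fun O X _ M a x hx => ?_⟩
    by_cases b : x ∈ O
    · rw [q2, rf_eq, fv_fr1 (re_sm (sl_sm hf M a)) b, Complex.norm_real]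
      exact pow_le_pow_left₀ (norm_nonneg _) (hB _ hx) 2
    · simp [q2, fv_out _ b, sq_nonneg]
  | n + 1, f, hf => by
    obtain ⟨B, b0, hB⟩ := q2_fr1 hC n hf
    obtain ⟨B', b1, hB'⟩ := q2_fr1 hC n (f := fun p => fderiv ℝ f p (0, 0, 1))
      ((hf.fderiv_right (m := ∞) le_rfl).clm_apply contDiff_const)
    refine ⟨B + B', add_nonneg b0 b1, fun O X hX M a x hx => add_le_add (hB O X hX M a x hx) ?_⟩
    obtain ⟨k1, k2⟩ := hX _ (re_sm (sl_sm hf M a))
    rw [rf_eq, Finset.sum_eq_single 1 (fun b _ hb => by rw [k2 b hb, q2_zero]) (by simp)]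
    have e : (deriv fun r => (f (M, a, r) : ℂ)) =
        fun r => ((fderiv ℝ f (M, a, r) (0, 0, 1) : ℝ) : ℂ) :=
      funext fun r => (((hf.differentiable (by simp) _).hasFDerivAt.comp_hasDerivAt r
        ((hasDerivAt_const r M).prodMk ((hasDerivAt_const r a).prodMk
          (hasDerivAt_id r)))).ofReal_comp).deriv
    rw [k1, e, ← rf_eq]
    exact hB' O X hX M a x hx

theorem q2_cs {X : Fin 5 → Der (Sm (on O))} {x : E6} {u v j : Sm (on O)} {N : ℕ} {B : ℝ}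
    (h0 : ∀ b, b ≠ 1 → X b u = 0 ∧ X b v = 0) (hu : X 1 u = 2 * j * v) (hv : X 1 v = -(2 * j * u))
    (hj : q2 X x N j ≤ B) (h : ‖fv u x‖ ^ 2 + ‖fv v x‖ ^ 2 ≤ 1) :
    ∀ n ≤ N, q2 X x n u + q2 X x n v ≤ (1 + 4 * 2 ^ N * B) ^ n
  | 0, _ => h.trans_eq (pow_zero _).symm
  | n + 1, hn => by
    have ih := q2_cs h0 hu hv hj h n (by omega)
    have b := (q2_nonneg X x N j).trans hj
    have k : ∀ w, q2 X x n (2 * j * w) ≤ 4 * 2 ^ N * B * q2 X x n w := fun w => by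
      rw [show 2 * j * w = (2 : ℂ) • (j * w) by rw [two_smul]; ring, q2_smul, Complex.norm_two]
      have := q2_nonneg X x n w
      have := q2_nonneg X x n j
      calc _ ≤ 2 ^ 2 * (2 ^ n * (q2 X x n j * q2 X x n w)) := by gcongr; exact q2_mul X x n _ _
        _ ≤ 2 ^ 2 * (2 ^ N * (B * q2 X x n w)) := by
          gcongr
          exacts [by norm_num, by omega, (q2_mono X x (by omega) _).trans hj]
        _ = _ := by ring
    rw [q2_succ, q2_succ, Finset.sum_eq_single 1 (fun b _ hb => by rw [(h0 b hb).1, q2_zero])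
      (by simp), Finset.sum_eq_single 1 (fun b _ hb => by rw [(h0 b hb).2, q2_zero]) (by simp),
      hu, hv, q2_neg, pow_succ]
    have p : 0 ≤ 4 * 2 ^ N * B := by positivity
    nlinarith [k u, k v, mul_le_mul_of_nonneg_left ih p]

/-- The letters of the twisted chart and those of the state give the same jets. -/
theorem q2_T (h : 0 < M0) (ρ : ℝ) (N : ℕ) : ∃ C, 1 ≤ C ∧ ∀ O, Cone O → ∀ M a, |M| ≤ 2 * M0 →
    |a| ≤ 2 * M0 → ∀ x : E6, x.2.1 ≤ ρ → ∀ n ≤ N, ∀ F,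
      q2 (XX (kT O M0 M a) (pT O M0 M a)) x n F ≤ C * q2 (lt (hp _) (pI O M0 M a)) x n F ∧
      q2 (lt (hp _) (pI O M0 M a)) x n F ≤ C * q2 (XX (kT O M0 M a) (pT O M0 M a)) x n F := by
  obtain ⟨B, b0, hB⟩ := q2_fr1 (((isCompact_Icc (a := -(2 * M0)) (b := 2 * M0)).prod
    ((isCompact_Icc (a := -(2 * M0)) (b := 2 * M0)).prod (isCompact_Icc (a := 0) (b := ρ))))) N
    (js_sm h)
  have b1 : 1 ≤ (1 + 4 * 2 ^ N * B) ^ N := one_le_pow₀ (le_add_of_nonneg_right (by positivity))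
  refine ⟨(1 + 5 * 5 * 2 ^ N * (1 + 4 * 2 ^ N * B) ^ N) ^ N,
    one_le_pow₀ (le_add_of_nonneg_right (by positivity)), fun O c M a hM ha x hx n hn F => ?_⟩
  by_cases xO : x ∈ O
  swap
  · have z : ∀ X : Fin 5 → Der (Sm (on O)), q2 X x n F = 0 := fun X => by
      clear hn
      induction n generalizing F with
      | zero => simp [q2, fv_out _ xO]
      | succ n ih => simp [q2_succ, ih]
    simp [z]
  have t := twI c.op (cone_off c) (sl_sm (js_sm h) M a)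
  have e : kk (kT O M0 M a) (pT O M0 M a) = kk (hp (on O)) (pI O M0 M a) := kk_T c h M a
  obtain ⟨d1, d2, d3, d4⟩ := t.d_cs
  have o := t.Om_eq
  have o' := t.Om_inv
  have one := congrArg (fv · x) t.cs_one
  have r1 := congrArg (fv · x) t.c_cs.1
  have r2 := congrArg (fv · x) t.c_cs.2
  generalize tco (fr1 O _) _ = u at d1 d3 d4 o o' one r1
  generalize tsi (fr1 O _) _ = v at d2 d3 d4 o o' one r2
  have h1 : ‖fv u x‖ ^ 2 + ‖fv v x‖ ^ 2 ≤ 1 := by
    rw [fv_add, fv_mul, fv_mul, show fv 1 x = 1 from (evO ⟨x, xO⟩).map_one] at one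
    nth_rw 2 [← r1, ← r2] at one
    rw [show fv ((hp (on O)).c u) x = _ from fv_cj u x, show fv ((hp (on O)).c v) x = _ from
      fv_cj v x, Complex.mul_conj', Complex.mul_conj'] at one
    exact le_of_eq (by exact_mod_cast one)
  have R : ∀ w, (∀ i, i ≠ 1 → (hp (on O)).d i w = 0) →
      (kk (hp (on O)) (pI O M0 M a)).R w = (hp (on O)).d 1 w := fun w k => by
    rw [kk_R, (kill k).1, (kill k).2.2.2.2.2, mul_zero, mul_zero, sub_zero, sub_zero]
    rfl
  have k : ∀ X Y : Fin 5 → Der (Sm (on O)), Lt X → X 1 = (kk (hp (on O)) (pI O M0 M a)).R →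
      (∀ b, b ≠ 1 → X b u = 0 ∧ X b v = 0) → ∀ w, (w = v ∨ w = -v) →
      (∀ f, Y 0 f = X 0 f ∧ Y 1 f = X 1 f ∧ Y 2 f = u * X 2 f + w * X 3 f ∧
        Y 3 f = u * X 3 f - w * X 2 f ∧ Y 4 f = X 4 f) →
      q2 Y x n F ≤ (1 + 5 * 5 * 2 ^ N * (1 + 4 * 2 ^ N * B) ^ N) ^ N * q2 X x n F :=
    fun X Y l x1 x0 w hw y => by
    have q := q2_cs x0 (by rw [x1, R u d1, d3, rf_eq]) (by rw [x1, R v d2, d4, rf_eq])
      (hB O X l M a x ⟨abs_le.1 hM, abs_le.1 ha, (c.pos x xO).1.le, hx⟩) h1 N le_rfl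
    have qu := (le_add_of_nonneg_right (q2_nonneg X x N v)).trans q
    have qw : q2 X x N w ≤ _ := le_trans (by
      rcases hw with rfl | rfl
      exacts [le_add_of_nonneg_left (q2_nonneg X x N u),
        (q2_neg X x N v).le.trans (le_add_of_nonneg_left (q2_nonneg X x N u))]) q
    have q1 : q2 X x N 1 ≤ _ := le_trans (by simpa using q2_alg X x 1 N) b1
    have q0 := (q2_zero X x N).le.trans (zero_le_one.trans b1)
    have qn := (q2_neg X x N w).le.trans qw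
    have := q2_chg X x (Y := Y) (c := ![![1, 0, 0, 0, 0], ![0, 1, 0, 0, 0], ![0, 0, u, w, 0],
      ![0, 0, -w, u, 0], ![0, 0, 0, 0, 1]]) (fun b f => by
        fin_cases b <;> simp [Fin.sum_univ_five, y f]
        ring) (zero_le_one.trans b1) (fun b d => by
        fin_cases b <;> fin_cases d <;>
          first | exact q0 | exact q1 | exact qu | exact qw | exact qn) n (by omega) F
    refine this.trans (mul_le_mul_of_nonneg_right ?_ (q2_nonneg X x n F))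
    rw [Fintype.card_fin]
    exact pow_le_pow_right₀ (le_add_of_nonneg_right (by positivity)) hn
  have z : ∀ b, b ≠ 1 → lt (hp _) (pI O M0 M a) b u = 0 ∧ lt (hp _) (pI O M0 M a) b v = 0 :=
    fun b hb => by fin_cases b <;> simp [lt, Om, d1, d2] at hb ⊢
  have y : ∀ f, _ ∧ _ ∧ _ := o
  refine ⟨k _ _ (lt_hp c.op _) rfl z v (.inl rfl) fun f => ⟨rfl, by simp [XX, lt, e], o f⟩,
    k _ _ (lt_kT c h M a) (by simp [XX, e]) (fun b hb => ?_) (-v) (.inr rfl) fun f =>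
      ⟨rfl, by simp [XX, lt, e], ?_, ?_, (o f).2.2.symm⟩⟩
  · have a2 := z 2 (by simp)
    have a3 := z 3 (by simp)
    simp only [lt, Matrix.cons_val] at a2 a3
    fin_cases b
    exacts [z 0 (by simp), absurd rfl hb, ⟨(o u).1.trans (by simp [a2, a3]),
      (o v).1.trans (by simp [a2, a3])⟩, ⟨(o u).2.1.trans (by simp [a2, a3]),
      (o v).2.1.trans (by simp [a2, a3])⟩, ⟨(o u).2.2.trans (z 4 (by simp)).1,
      (o v).2.2.trans (z 4 (by simp)).2⟩]
  · exact (o' f).1.trans (by rw [neg_mul, ← sub_eq_add_neg]; rfl)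
  · exact (o' f).2.trans (by rw [neg_mul, sub_neg_eq_add]; rfl)

end Vale.Agent.P354BO
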