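import Vale.Agent.P354BO.Tw
import Vale.Agent.P354BO.FPar

/-!
The twisted chart on an open set O, and the pull back to the ring of a cylinder.
-/

open scoped ContDiff ComplexConjugate Topology
open Complex (I)
open Set Filter

namespace Vale.Agent.P354BO

open P354XG P354XI P354XD P354XR
open P354XT hiding d1

section pul
variable {E E' : Type} [NormedAddCommGroup E] [NormedSpace ℝ E] [NormedAddCommGroup E']
  [NormedSpace ℝ E'] {O : Set E} {O' : Set E'} {X : E' → E}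

/-- A smooth map from O' to O. -/
structure Mq (O' : Set E') (O : Set E) (X : E' → E) : Prop where
  op : IsOpen O
  op' : IsOpen O'
  sm : ContDiff ℝ ∞ X
  mp : MapsTo X O' O

variable (h : Mq O' O X)

noncomputable def Mq.p0 (F : Sm (on O)) : Sm (on O') := of h.op' (fun x => fv F (X x))
  fun x hx => ((fv_sm h.op F (h.mp hx)).comp x h.sm.contDiffAt).contDiffWithinAt

theorem Mq.fv0 (F : Sm (on O)) {x : E'} (hx : x ∈ O') : fv (h.p0 F) x = fv F (X x) :=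
  fv_of h.op' _ hx

/-- The pull back. -/
noncomputable def Mq.pb : Sm (on O) →ₐ[ℂ] Sm (on O') where
  toFun := h.p0
  map_one' := ext_fv h.op' fun x hx => (h.fv0 _ hx).trans
    (((evO ⟨_, h.mp hx⟩).map_one).trans (evO ⟨x, hx⟩).map_one.symm)
  map_zero' := ext_fv h.op' fun _ hx => by rw [h.fv0 _ hx, fv_zero, fv_zero]
  map_add' a b := ext_fv h.op' fun _ hx => by rw [fv_add, h.fv0 _ hx, h.fv0 _ hx, h.fv0 _ hx, fv_add]
  map_mul' a b := ext_fv h.op' fun _ hx => by rw [fv_mul, h.fv0 _ hx, h.fv0 _ hx, h.fv0 _ hx, fv_mul]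
  commutes' z := ext_fv h.op' fun _ hx => by rw [h.fv0 _ hx, fv_alg z hx, fv_alg z (h.mp hx)]

theorem Mq.fv_pb (F : Sm (on O)) {x : E'} (hx : x ∈ O') : fv (h.pb F) x = fv F (X x) := h.fv0 F hx

theorem Mq.pb_cj (F : Sm (on O)) : h.pb (cj F) = cj (h.pb F) :=
  ext_fv h.op' fun _ hx => by rw [fv_cj, h.fv_pb _ hx, h.fv_pb _ hx, fv_cj]

theorem Mq.fd (F : Sm (on O)) {x : E'} (hx : x ∈ O') (v : E') :
    fderiv ℝ (fv (h.pb F)) x v = fderiv ℝ (fv F) (X x) (fderiv ℝ X x v) := by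
  rw [EventuallyEq.fderiv_eq (f := fun y => fv F (X y))
    ((h.op'.eventually_mem hx).mono fun y hy => h.fv_pb F hy)]
  exact congrArg (· v) (((fv_sm h.op F (h.mp hx)).differentiableAt (by simp)).hasFDerivAt.comp x
    (h.sm.differentiable (by simp) x).hasFDerivAt).fderiv

end pul

variable {O O' : Set E6}

theorem fv_z (i : Fin 6) {x : E6} (hx : x ∈ O) : fv ((hp (on O)).z i) x = zc i x :=
  (fv_in _ hx).trans (ev_on (rs_z i) hx)

theorem fv_d (hO : IsOpen O) (i : Fin 6) (u : Sm (on O)) {x : E6} (hx : x ∈ O) :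
    fv ((hp (on O)).d i u) x =
      d1 i * fderiv ℝ (fv u) x (v1 i) + d2 i * fderiv ℝ (fv u) x (v2 i) := by
  rw [hp_d, fv_add, fv_mul, fv_mul, fv_alg _ hx, fv_alg _ hx, fv_pd hO _ u hx, fv_pd hO _ u hx]

theorem fd_all (hO : IsOpen O) (u : Sm (on O)) {x : E6} (hx : x ∈ O) (v : E6) :
    fderiv ℝ (fv u) x v = ∑ k, zc k v * fv ((hp (on O)).d k u) x := by
  have e : v = v.1 • v1 0 + v.2.1 • v1 1 + v.2.2.1.re • v1 2 + v.2.2.1.im • v2 2 +
      v.2.2.2.re • v1 3 + v.2.2.2.im • v2 3 := by simp [v1, v2]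
  conv_lhs => rw [e]
  simp only [map_add, map_smul, fv_d hO _ u hx, Fin.sum_univ_six, show v1 4 = v1 2 from rfl,
    show v1 5 = v1 3 from rfl, show v2 4 = v2 2 from rfl, show v2 5 = v2 3 from rfl]
  apply Complex.ext <;> simp [d1, d2, zc] <;> ring

/-- The chain rule. -/
theorem Mq.chain {X : E6 → E6} (h : Mq O' O X) (i : Fin 6) (F : Sm (on O)) :
    (hp (on O')).d i (h.pb F) =
      ∑ k, (hp (on O')).d i (h.pb ((hp (on O)).z k)) * h.pb ((hp (on O)).d k F) :=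
  ext_fv h.op' fun x hx => by
    have e : ∀ k v, fderiv ℝ (fv ((hp (on O)).z k)) (X x) v = zc k v := fun k v => by
      rw [EventuallyEq.fderiv_eq (f := zc k)
        ((h.op.eventually_mem (h.mp hx)).mono fun y hy => fv_z k hy), (zc k).fderiv]
    simp only [Fin.sum_univ_six, fv_add, fv_mul, fv_d h.op' i _ hx, h.fd _ hx, e, h.fv_pb _ hx,
      fd_all h.op F (h.mp hx)]
    ring

/-- Functions of r. -/
noncomputable def fr1 (O : Set E6) (g : ℝ → ℂ) : Sm (on O) := gm (on O) fun p => g p.2.2.1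

theorem fv_fr1 {g : ℝ → ℂ} (h : ContDiff ℝ ∞ g) {x : E6} (hx : x ∈ O) : fv (fr1 O g) x = g x.2.1 :=
  (fv_in _ hx).trans (ev_on (rs_gm (G := on O) (f := fun p => g p.2.2.1)
    (Eventually.of_forall fun p => show ContDiffAt ℝ ∞ (fun x : E6 => g x.2.1) p.2 from
      (h.comp contDiff_snd.fst).contDiffAt)) hx)

theorem d_fr1 (hO : IsOpen O) {g : ℝ → ℂ} (h : ContDiff ℝ ∞ g) :
    (∀ i, i ≠ 1 → (hp (on O)).d i (fr1 O g) = 0) ∧ (hp (on O)).d 1 (fr1 O g) = fr1 O (deriv g) := by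
  have e : ∀ x ∈ O, ∀ v, fderiv ℝ (fv (fr1 O g)) x v = v.2.1 * deriv g x.2.1 := fun x hx v => by
    rw [EventuallyEq.fderiv_eq (f := fun y => g y.2.1)
      ((hO.eventually_mem hx).mono fun y hy => fv_fr1 h hy)]
    exact congrArg (· v) ((h.differentiable (by simp) _).hasDerivAt.hasFDerivAt.comp x
      (hasFDerivAt_snd (𝕜 := ℝ) (p := x)).fst).fderiv
  refine ⟨fun i hi => ext_fv hO fun x hx => ?_, ext_fv hO fun x hx => ?_⟩
  · rw [fv_d hO _ _ hx, e x hx, e x hx, fv_zero]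
    fin_cases i <;> simp [v1, v2] at hi ⊢
  · rw [fv_d hO _ _ hx, e x hx, e x hx, fv_fr1 (contDiff_infty_iff_deriv.1 h).2 hx]
    simp [v1, d1, d2]

theorem re_sm {f : ℝ → ℝ} (h : ContDiff ℝ ∞ f) : ContDiff ℝ ∞ fun r => (f r : ℂ) :=
  Complex.ofRealCLM.contDiff.comp h

theorem cj_fr1 (hO : IsOpen O) {g : ℝ → ℂ} (h : ContDiff ℝ ∞ g) :
    cj (fr1 O g) = fr1 O fun r => conj (g r) := ext_fv hO fun _ hx => by
  rw [fv_cj, fv_fr1 h hx, fv_fr1 (g := fun r => conj (g r)) (Complex.conjCLE.contDiff.comp h) hx]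

/-- The phase exp (i c J) with dJ / dr = j. -/
noncomputable def ph (j : ℝ → ℝ) (c r : ℝ) : ℂ := Complex.exp (I * c * (∫ x in (0 : ℝ)..r, j x : ℝ))

variable {j : ℝ → ℝ}

theorem ph_der (hj : ContDiff ℝ ∞ j) (c r : ℝ) : HasDerivAt (ph j c) (I * c * j r * ph j c r) r :=
  ((hj.continuous.integral_hasStrictDerivAt 0 r).hasDerivAt.ofReal_comp.const_mul
    (I * c)).cexp.congr_deriv (mul_comm _ _)

theorem ph_sm (hj : ContDiff ℝ ∞ j) (c : ℝ) : ContDiff ℝ ∞ (ph j c) :=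
  (contDiff_const.mul (re_sm (contDiff_infty_iff_deriv.2 ⟨fun r =>
    (hj.continuous.integral_hasStrictDerivAt 0 r).hasDerivAt.differentiableAt, by
      rwa [funext fun r => (hj.continuous.integral_hasStrictDerivAt 0 r).hasDerivAt.deriv]⟩))).cexp

theorem ph_cj (c r : ℝ) : conj (ph j c r) = ph j (-c) r := by
  simp [ph, ← Complex.exp_conj]

theorem ph_inv (r : ℝ) : ph j (-1) r * ph j 1 r = 1 := by
  simp [ph, ← Complex.exp_add]

theorem ph_norm (c r : ℝ) : ‖ph j c r‖ = 1 := by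
  rw [ph, mul_assoc, mul_comm, ← Complex.ofReal_mul, Complex.norm_exp_ofReal_mul_I]

/-- The twisted chart and the twist. -/
noncomputable def kt (O : Set E6) (j : ℝ → ℝ) : Hp (Sm (on O)) :=
  twi (hp (on O)) (fr1 O (ph j (-1))) (fr1 O (ph j 1)) (fr1 O fun r => j r)
noncomputable def tm (j : ℝ → ℝ) (x : E6) : E6 :=
  (x.1, x.2.1, ph j 1 x.2.1 * x.2.2.1, ph j (-1) x.2.1 * x.2.2.2)

theorem tm_tr (x : E6) : tr (tm j x) = tr x := rfl

theorem tm_nq (x : E6) : nq (tm j x) = nq x := by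
  simp [nq, tm, Complex.normSq_eq_norm_sq, ph_norm]

theorem tm_cyl (U : Set (ℝ × ℝ)) : MapsTo (tm j) (cyl U) (cyl U) := fun x hx =>
  ⟨hx.1, fun e => (nq_pos hx.2).ne' (by rw [← tm_nq (j := j), nq, e]; simp)⟩

theorem tm_sm (hj : ContDiff ℝ ∞ j) : ContDiff ℝ ∞ (tm j) :=
  contDiff_fst.prodMk (contDiff_snd.fst.prodMk
    ((((ph_sm hj 1).comp contDiff_snd.fst).mul contDiff_snd.snd.fst).prodMk
      (((ph_sm hj (-1)).comp contDiff_snd.fst).mul contDiff_snd.snd.snd)))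

theorem twI (hO : IsOpen O) (h : ∀ x ∈ O, x.2.1 ≠ 0 ∧ x.2.2 ≠ 0) (hj : ContDiff ℝ ∞ j) :
    TwI (hp (on O)) (fr1 O (ph j (-1))) (fr1 O (ph j 1)) (fr1 O fun r => j r) where
  h := hp_is (on_of hO h)
  inv := ext_fv hO fun x hx => by
    rw [fv_mul, fv_fr1 (ph_sm hj _) hx, fv_fr1 (ph_sm hj _) hx, ph_inv]
    exact (evO ⟨x, hx⟩).map_one.symm
  ce := (cj_fr1 hO (ph_sm hj _)).trans (by simp only [ph_cj, neg_neg])
  cj := (cj_fr1 hO (re_sm hj)).trans (by simp only [Complex.conj_ofReal])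
  de := (d_fr1 hO (ph_sm hj _)).1
  dj := (d_fr1 hO (re_sm hj)).1
  d1 := (d_fr1 hO (ph_sm hj _)).2.trans (ext_fv hO fun x hx => by
    rw [fv_fr1 (contDiff_infty_iff_deriv.1 (ph_sm hj _)).2 hx, (ph_der hj _ _).deriv]
    refine Eq.trans ?_ ((evO ⟨x, hx⟩).map_neg _).symm
    rw [show evO ⟨x, hx⟩ _ = fv _ x from rfl, fv_mul, fv_mul, fv_fr1 (ph_sm hj _) hx,
      fv_fr1 (re_sm hj) hx, ii, fv_alg _ hx]
    push_cast
    ring)

theorem Mq.fr1 (h : Mq O' O (tm j)) {g : ℝ → ℂ} (hg : ContDiff ℝ ∞ g) :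
    h.pb (fr1 O g) = fr1 O' g :=
  ext_fv h.op' fun _ hx => by rw [h.fv_pb _ hx, fv_fr1 hg (h.mp hx), fv_fr1 hg hx]; rfl

/-- The pull back along the twist maps the twisted chart to the chart. -/
theorem Mq.hm (h : Mq O' O (tm j)) (k : ∀ x ∈ O, x.2.1 ≠ 0 ∧ x.2.2 ≠ 0)
    (k' : ∀ x ∈ O', x.2.1 ≠ 0 ∧ x.2.2 ≠ 0) (hj : ContDiff ℝ ∞ j) :
    Hm h.pb (kt O j) (hp (on O')) := by
  have t := twI h.op k hj
  have t' := twI h.op' k' hj
  have z : ∀ i, h.pb ((hp (on O)).z i) = ![1, 1, P354BO.fr1 O' (ph j 1), P354BO.fr1 O' (ph j (-1)),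
      P354BO.fr1 O' (ph j (-1)), P354BO.fr1 O' (ph j 1)] i * (hp (on O')).z i := fun i =>
    ext_fv h.op' fun x hx => by
      have o : fv (1 : Sm (on O')) x = 1 := (evO ⟨x, hx⟩).map_one
      rw [h.fv_pb _ hx, fv_z i (h.mp hx), fv_mul, fv_z i hx]
      fin_cases i <;> simp [fv_fr1 (ph_sm hj _) hx, o, zc, tm, ph_cj]
  have e := h.fr1 (ph_sm hj (-1))
  have b := h.fr1 (ph_sm hj 1)
  have i := t'.inv
  have i' := (mul_comm _ _).trans i
  have z' : ∀ i, h.pb ((kt O j).z i) = (hp (on O')).z i := fun a => by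
    fin_cases a <;> simp [kt, twi, z, e, b, ← mul_assoc, i, i']
  have m : ∀ {u v : Sm (on O)} {u' v' : Sm (on O')}, u * v = 1 → u' * v' = 1 → h.pb u = u' →
      h.pb v = v' := fun {u v u' v'} a c d => by
    have := congrArg h.pb a
    rw [map_mul, map_one, d] at this
    linear_combination v' * this - h.pb v * c
  refine ⟨h.pb_cj, z', fun a F => ?_, m t.is.hr t'.h.hr (z' 1), m t.is.hN t'.h.hN (by
    simp only [Hp.N, map_add, map_mul]
    exact congrArg₂ (· + ·) (congrArg₂ (· * ·) (z' 2) (z' 4)) (congrArg₂ (· * ·) (z' 3) (z' 5)))⟩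
  rw [h.chain, kt]
  fin_cases a <;> simp only [Fin.reduceFinMk, t.d_ap] <;>
    simp [Fin.sum_univ_six, z, e, b, h.fr1 (re_sm hj), Hm.ii_hf, t'.h.dz, t'.tab, t'.d1, t'.b1]
  ring

variable {U : Set (ℝ × ℝ)}

theorem mq_cyl (hO : IsOpen O) (hU : IsOpen U) (s : cyl U ⊆ O) (hj : ContDiff ℝ ∞ j) :
    Mq (cyl U) O (tm j) := ⟨hO, cyl_open hU, tm_sm hj, fun _ hx => s (tm_cyl U hx)⟩

theorem fr1_fz (f : ℝ → ℝ) : fr1 (cyl U) (fun r => f r) = fz U fun z => f z.2 := rfl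

/-- The letters and the sections under a map to the chart of the cylinder. -/
theorem Hm.X {A : Type} [CommRing A] [Algebra ℂ A] {K : Hp A} {π : A →ₐ[ℂ] Rg U}
    (m : Hm π K (kp U)) (hU : IsOpen U) (s : ℤ) {f : ℝ → ℝ} {p : Pm A}
    (h1 : π p.h1 = fz U fun z => f z.2) (j1 : p.j1 = 0) (a : Fin 5) (F : A) :
    π ((![(kk K p).T, (kk K p).R, P354XR.Om K 0, P354XR.Om K 1, P354XR.Om K 2] : Fin 5 → Der A) a F) =
      (fld hU s f).X a (π F) := by
  fin_cases a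
  · exact m.d 0 F
  · exact (m.R (p2 := ⟨0, 0, 0, _, 0⟩) h1 (by rw [j1, map_zero]) F).trans
      (congrArg (fun D : Der (Rg U) => D (π F)) (R_kk hU s f rfl rfl))
  exacts [m.Om 0 F, m.Om 1 F, m.Om 2 F]

theorem Hm.sec {A : Type} [CommRing A] [Algebra ℂ A] {K : Hp A} {π : A →ₐ[ℂ] Rg U}
    (m : Hm π K (kp U)) {s : ℤ} {F : A} (h : K.H F = s * F) (h' : K.B F = -(s * F)) :
    π F ∈ Sec U s :=
  ⟨by rw [← m.H, h, map_mul, map_intCast, Algebra.smul_def, map_intCast],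
    by rw [← m.B, h', map_neg, map_mul, map_intCast, Algebra.smul_def, map_intCast]⟩

theorem fld_r (hU : IsOpen U) (s : ℤ) (f : ℝ → ℝ) : (fld hU s f).r = (kp U).z 1 :=
  ext_ev hU fun x => (ev_fz (φ := fun z => id z.2) contDiff_snd x).trans
    ((ev_z 1 x).trans (by simp [zc, tr])).symm

end Vale.Agent.P354BO
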